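import Vale.Agent.Lib.P226.Defs

/-!
The value functional `W`, the equivalence between the partition form and the width form of the
propeller inequality, law transport through Gram matrices, Voronoi partitions.
-/

open MeasureTheory ProbabilityTheory

namespace Vale.Agent.Lib.P226

variable {d k : ℕ}

/-- pointwise maximum of the inner products. -/
noncomputable def mx [NeZero k] (y : Fin k → E d) (x : E d) : ℝ :=
  Finset.univ.sup' Finset.univ_nonempty (fun i => inner ℝ x (y i))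

/-- normalized Gaussian width. -/
noncomputable def W [NeZero k] (y : Fin k → E d) : ℝ :=
  Real.sqrt (2 * Real.pi) * ∫ x, mx y x ∂(gam d)

/-- sum of squares -/
noncomputable def TT (y : Fin k → E d) : ℝ := ∑ i, ‖y i‖ ^ 2

/-- the width form of the propeller inequality -/
def VBound (k : ℕ) [NeZero k] : Prop :=
  ∀ (d : ℕ) (y : Fin k → E d), ∑ i, y i = 0 → W y ≤ (3 / 2) * Real.sqrt (TT y)

/-- normalized moment -/
noncomputable def nz (A : Set (E d)) : E d := Real.sqrt (2 * Real.pi) • mom A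

/-- width gain of the vertex `0`. -/
noncomputable def GG (y : Fin 5 → E d) : ℝ :=
  Real.sqrt (2 * Real.pi) * ∫ x, max 0 (inner ℝ x (y 0) - mx (fun j : Fin 4 => y j.succ) x) ∂(gam d)

/-- determinant of a symmetric 3x3 matrix -/
def det3 (a b c ab ac bc : ℝ) : ℝ :=
  a * b * c + 2 * ab * ac * bc - a * bc ^ 2 - b * ac ^ 2 - c * ab ^ 2

/-- determinant of a symmetric 4x4 matrix -/
def det4 (a b c e ab ac ae bc be ce : ℝ) : ℝ :=
  a * (b * (c * e - ce ^ 2) - bc * (bc * e - ce * be) + be * (bc * ce - c * be))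
  - ab * (ab * (c * e - ce ^ 2) - bc * (ac * e - ce * ae) + be * (ac * ce - c * ae))
  + ac * (ab * (bc * e - ce * be) - b * (ac * e - ce * ae) + be * (ac * be - bc * ae))
  - ae * (ab * (bc * ce - c * be) - b * (ac * ce - c * ae) + bc * (ac * be - bc * ae))

/-- The wedge moment: `(2/3)|p|^3 + |p|^2 ⟪p,f⟫/|f| - ⟪p,f⟫^3/(3|f|^3)` in terms of `pp=|p|^2`,
`pf=⟪p,f⟫`, `ff=|f|^2`. -/
noncomputable def Wd (pp pf ff : ℝ) : ℝ :=
  (2 / 3) * pp * Real.sqrt pp + pp * pf / Real.sqrt ff - pf ^ 3 / (3 * ff * Real.sqrt ff)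

/-- The truncated wedge moment for `e=(4y0+yl)/3`, `f=y0-yl`, `g=e-f`, in terms of
`R0=|y0|^2`, `Rl=|yl|^2`, `w=⟪y0,yl⟫`. -/
noncomputable def Fabs (R0 Rl w : ℝ) : ℝ :=
  Wd ((16 * R0 + Rl + 8 * w) / 9) ((4 * R0 - 3 * w - Rl) / 3) (R0 + Rl - 2 * w)
  - Wd ((R0 + 16 * Rl + 8 * w) / 9) ((R0 + 3 * w - 4 * Rl) / 3) (R0 + Rl - 2 * w)

/-- Abstract form of the cap hypothesis used by the numeric corollaries. -/
def CapHyp (r a : ℝ) : Prop :=
  ∀ β : ℝ, 0 ≤ β → β ≤ Real.pi / 2 →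
    r ≤ Real.cos β ^ 3 + (3 / 2) * Real.sin β * (β + Real.sin β * Real.cos β)
      + (3 * Real.pi / 2) * Real.sin β * (a - 1 / 2)

/-- the pair-bound expression -/
noncomputable def Bhat (R0 a c : ℝ) : ℝ :=
  Real.sqrt (9 / 8 + (3 / 2) * R0 - a / 2 - c) + 2 * Real.sqrt (9 / 8 + a / 2 - R0 / 2)
    - Real.sqrt (9 / 8 - (3 / 4) * R0 - (3 / 4) * a - c)

/-- the cap expression -/
noncomputable def capExpr (R0 a3 a4 c : ℝ) : ℝ :=
  max 0 ((2 * (9 / 8 - R0 - (a3 + a4) / 2 - c) - 2 * (21 / 50)) / (13 / 10))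
  + max 0 ((Real.sqrt (max R0 (a3 + c)) - 99 / 2000) / (67 / 20))
  + max 0 ((Real.sqrt (max R0 (a4 + c)) - 99 / 2000) / (67 / 20))
  + max 0 ((Real.sqrt R0 - 99 / 2000) / (67 / 20))

end Vale.Agent.Lib.P226
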