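import Vale.Agent.Lib.P226.CapTail

/-!
The cap inequality for cones in `ℝ^4`.
-/

open MeasureTheory ProbabilityTheory Real Set Filter
open scoped ENNReal

namespace Vale.Agent.Lib.P226

/-- An orthonormal basis of `ℝ^4` whose first vector has prescribed direction: given `z`, some
orthonormal basis satisfies `⟪z, b 0⟫ = ‖z‖`. -/
lemma cap_exists_basis (z : E 4) :
    ∃ b : OrthonormalBasis (Fin 4) ℝ (E 4), (inner ℝ z (b 0) : ℝ) = ‖z‖ := by
  obtain ⟨u, hu1, hu2⟩ : ∃ u : E 4, ‖u‖ = 1 ∧ (inner ℝ z u : ℝ) = ‖z‖ := by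
    by_cases hz : z = 0
    · refine ⟨EuclideanSpace.single 0 1, by simp, by simp [hz]⟩
    · refine ⟨‖z‖⁻¹ • z, norm_smul_inv_norm hz, ?_⟩
      have hz' : ‖z‖ ≠ 0 := norm_ne_zero_iff.2 hz
      rw [real_inner_smul_right, real_inner_self_eq_norm_sq]
      field_simp
  have hv : Orthonormal ℝ (({0} : Set (Fin 4)).domRestrict (fun _ => u)) := by
    constructor
    · intro i
      exact hu1
    · intro i j hij
      exfalso
      apply hij
      ext
      have hi := i.2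
      have hj := j.2
      simp only [mem_singleton_iff] at hi hj
      rw [hi, hj]
  obtain ⟨b, hb⟩ := Orthonormal.exists_orthonormalBasis_extension_of_card_eq (𝕜 := ℝ) (E := E 4)
    (ι := Fin 4) (by simp) hv
  refine ⟨b, ?_⟩
  rw [hb 0 (by simp), hu2]

/-- Cap inequality for cones in `ℝ^4`: for `β ∈ [0, π/2]`,
`√(2π) |z(C)| ≤ cos³β + (3/2) sin β (β + sin β cos β) + (3π/2) sin β (γ(C) - 1/2)`. -/
theorem cap_bound {C : Set (E 4)} (hC : MeasurableSet C)
    (hcone : ∀ x ∈ C, ∀ c : ℝ, 0 < c → c • x ∈ C) {β : ℝ} (h0 : 0 ≤ β) (h1 : β ≤ Real.pi / 2) :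
    ‖nz C‖ ≤ Real.cos β ^ 3 + (3 / 2) * Real.sin β * (β + Real.sin β * Real.cos β)
      + (3 * Real.pi / 2) * Real.sin β * ((gam 4).real C - 1 / 2) := by
  obtain ⟨b, hb⟩ := cap_exists_basis (mom C)
  set u := b 0 with hu
  have hsn : 0 ≤ sin β := Real.sin_nonneg_of_nonneg_of_le_pi h0 (by linarith [pi_pos])
  have hn : Integrable (fun x : E 4 => ‖x‖) (gam 4) := (integrable_id_gam (d := 4)).norm
  have hi : Integrable (fun x : E 4 => (inner ℝ x u : ℝ)) (gam 4) := integrable_inner_gam u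
  have hm : Integrable (fun x : E 4 => max 0 ((inner ℝ x u : ℝ) - sin β * ‖x‖)) (gam 4) :=
    (integrable_zero _ _ _).sup (hi.sub (hn.const_mul (sin β)))
  have hnC : IntegrableOn (fun x : E 4 => sin β * ‖x‖) C (gam 4) := (hn.const_mul (sin β)).integrableOn
  have step1 : ‖mom C‖ ≤ sin β * ∫ x in C, ‖x‖ ∂(gam 4)
      + ∫ x, max 0 ((inner ℝ x u : ℝ) - sin β * ‖x‖) ∂(gam 4) := by
    rw [← hb, inner_mom]
    calc ∫ x in C, (inner ℝ x u : ℝ) ∂(gam 4)
        ≤ ∫ x in C, (sin β * ‖x‖ + max 0 ((inner ℝ x u : ℝ) - sin β * ‖x‖)) ∂(gam 4) := by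
          refine setIntegral_mono_on hi.integrableOn (hnC.add hm.integrableOn) hC (fun x _ => ?_)
          linarith [le_max_right 0 ((inner ℝ x u : ℝ) - sin β * ‖x‖)]
      _ = sin β * ∫ x in C, ‖x‖ ∂(gam 4)
            + ∫ x in C, max 0 ((inner ℝ x u : ℝ) - sin β * ‖x‖) ∂(gam 4) := by
          rw [integral_add hnC hm.integrableOn, integral_const_mul]
      _ ≤ _ := by
          have := setIntegral_le_integral (s := C) hm
            (Eventually.of_forall fun x => le_max_left (0 : ℝ) ((inner ℝ x u : ℝ) - sin β * ‖x‖))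
          linarith
  have htail := cap_tail b h0 h1
  have hrad := cap_norm_setIntegral hC hcone
  have e1 : √(2 * π) * √(π / 2) = π := by
    rw [← Real.sqrt_mul (by positivity)]
    rw [show 2 * π * (π / 2) = π ^ 2 by ring, Real.sqrt_sq pi_pos.le]
  have hnz : ‖nz C‖ = √(2 * π) * ‖mom C‖ := by
    rw [nz, norm_smul, Real.norm_eq_abs, abs_of_nonneg (Real.sqrt_nonneg _)]
  rw [hnz]
  calc √(2 * π) * ‖mom C‖
      ≤ √(2 * π) * (sin β * ∫ x in C, ‖x‖ ∂(gam 4)
          + ∫ x, max 0 ((inner ℝ x u : ℝ) - sin β * ‖x‖) ∂(gam 4)) := by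
        gcongr
    _ = sin β * (gam 4).real C * (3 / 2) * (√(2 * π) * √(π / 2))
          + √(2 * π) * ∫ x, max 0 ((inner ℝ x u : ℝ) - sin β * ‖x‖) ∂(gam 4) := by
        rw [hrad]
        ring
    _ = _ := by
        rw [htail, e1, capK]
        ring

end Vale.Agent.Lib.P226
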