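import Vale.Agent.Lib.P226.Gauss

/-!
Density of the standard Gaussian measure, polar coordinates, radial independence on cones.
-/

open MeasureTheory ProbabilityTheory Real Set Filter
open scoped ENNReal

namespace Vale.Agent.Lib.P226

/-- Fubini for products over `Fin n` (lower integrals). -/
theorem cap_lintegral_pi_prod {α : Type*} [MeasurableSpace α] (μ : Measure α) [SigmaFinite μ] :
    ∀ (n : ℕ) (f : Fin n → α → ℝ≥0∞), (∀ i, Measurable (f i)) →
      ∫⁻ x, ∏ i, f i (x i) ∂(Measure.pi fun _ : Fin n => μ) = ∏ i, ∫⁻ y, f i y ∂μ := by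
  intro n
  induction n with
  | zero =>
      intro f _
      simp
  | succ n ih =>
      intro f hf
      have mp := (measurePreserving_piFinSuccAbove (fun _ : Fin (n+1) => μ) 0).symm
      have hm : Measurable (fun x : Fin (n+1) → α => ∏ i, f i (x i)) :=
        Finset.measurable_prod _ fun i _ => (hf i).comp (measurable_pi_apply i)
      rw [← mp.lintegral_comp hm]
      simp_rw [MeasurableEquiv.piFinSuccAbove_symm_apply, Fin.insertNthEquiv,
        Fin.prod_univ_succ, Fin.insertNth_zero, Equiv.coe_fn_mk, Fin.cons_succ,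
        Fin.cons_zero]
      simp only [cast_eq]
      rw [lintegral_prod_mul (f := f 0) (g := fun y : Fin n → α => ∏ x, f x.succ (y x))
        (hf 0).aemeasurable
        (Measurable.aemeasurable (Finset.measurable_prod _ fun i _ =>
          (hf i.succ).comp (measurable_pi_apply i))),
        ih (fun i => f i.succ) (fun i => hf i.succ)]

/-- Density of the coordinate Gaussian. -/
noncomputable def capGd (m : ℕ) (x : Fin m → ℝ) : ℝ :=
  ((√(2 * π))⁻¹) ^ m * exp (- (∑ i, x i ^ 2) / 2)

lemma measurable_capGd (m : ℕ) : Measurable (capGd m) := by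
  unfold capGd
  fun_prop

lemma cap_gaussianPDF_zero_one (x : ℝ) :
    gaussianPDF 0 1 x = ENNReal.ofReal ((√(2 * π))⁻¹ * exp (- x ^ 2 / 2)) := by
  simp [gaussianPDF, gaussianPDFReal]

lemma capGd_eq_prod (m : ℕ) (x : Fin m → ℝ) :
    ENNReal.ofReal (capGd m x) = ∏ i, gaussianPDF 0 1 (x i) := by
  simp_rw [cap_gaussianPDF_zero_one]
  rw [← ENNReal.ofReal_prod_of_nonneg (fun i _ => by positivity)]
  congr 1
  rw [Finset.prod_mul_distrib, Finset.prod_const, Finset.card_univ, Fintype.card_fin,
    ← Real.exp_sum, capGd, ← Finset.sum_div, Finset.sum_neg_distrib]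

theorem cap_pi_eq_withDensity (m : ℕ) :
    (Measure.pi fun _ : Fin m => gaussianReal 0 1)
      = volume.withDensity fun x => ENNReal.ofReal (capGd m x) := by
  refine Measure.pi_eq fun s hs => ?_
  rw [withDensity_apply _ (MeasurableSet.univ_pi hs)]
  have h1 : ∀ x : Fin m → ℝ, (Set.univ.pi s).indicator (fun x => ENNReal.ofReal (capGd m x)) x
      = ∏ i, (s i).indicator (gaussianPDF 0 1) (x i) := by
    intro x
    by_cases hx : x ∈ Set.univ.pi s
    · rw [Set.indicator_of_mem hx, capGd_eq_prod]
      refine Finset.prod_congr rfl fun i _ => ?_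
      rw [Set.indicator_of_mem (hx i (Set.mem_univ i))]
    · rw [Set.indicator_of_notMem hx]
      symm
      simp only [Set.mem_pi, Set.mem_univ, forall_true_left, not_forall] at hx
      obtain ⟨i, hi⟩ := hx
      exact Finset.prod_eq_zero (Finset.mem_univ i) (Set.indicator_of_notMem hi _)
  rw [← lintegral_indicator (MeasurableSet.univ_pi hs)]
  simp_rw [h1]
  have h2 := cap_lintegral_pi_prod (volume : Measure ℝ) m
    (fun i => (s i).indicator (gaussianPDF 0 1))
    (fun i => (measurable_gaussianPDF 0 1).indicator (hs i))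
  rw [volume_pi, h2]
  refine Finset.prod_congr rfl fun i _ => ?_
  rw [lintegral_indicator (hs i), gaussianReal_of_var_ne_zero 0 one_ne_zero,
    withDensity_apply _ (hs i)]

/-- The density of the standard Gaussian measure on `ℝ^d`. -/
noncomputable def capDens (d : ℕ) (v : E d) : ℝ≥0∞ :=
  ENNReal.ofReal (((√(2 * π))⁻¹) ^ d * exp (- ‖v‖ ^ 2 / 2))

lemma measurable_capDens (d : ℕ) : Measurable (capDens d) := by
  unfold capDens
  refine ENNReal.measurable_ofReal.comp ?_
  exact measurable_const.mul (Real.measurable_exp.comp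
    (((measurable_norm.pow_const 2).neg).div_const 2))

/-- The standard Gaussian on `ℝ^d` has a density. -/
lemma cap_lintegral_density (d : ℕ) {G : E d → ℝ≥0∞} (hG : Measurable G) :
    ∫⁻ g, G g ∂(gam d) = ∫⁻ v, capDens d v * G v := by
  have hm : Measurable (fun x : Fin d → ℝ => G (WithLp.toLp 2 x)) :=
    hG.comp (by fun_prop)
  rw [gam, ← map_pi_eq_stdGaussian, lintegral_map hG (by fun_prop)]
  have hd : Measurable (fun x : Fin d → ℝ => ENNReal.ofReal (capGd d x)) :=
    ENNReal.measurable_ofReal.comp (measurable_capGd d)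
  rw [cap_pi_eq_withDensity, lintegral_withDensity_eq_lintegral_mul _ hd hm]
  simp only [Pi.mul_apply]
  have hH : Measurable (fun v : E d => capDens d v * G v) :=
    (measurable_capDens d).mul hG
  rw [← (PiLp.volume_preserving_toLp (Fin d)).lintegral_comp hH]
  refine lintegral_congr fun x => ?_
  congr 2
  unfold capGd
  rw [EuclideanSpace.real_norm_sq_eq]

/-- Polar coordinates. -/
lemma cap_lintegral_polar {d : ℕ} (hd : 0 < d) {H : E d → ℝ≥0∞} (hH : Measurable H) :
    ∫⁻ v, H v = ∫⁻ s, ∫⁻ r, H ((r : ℝ) • (s : E d)) ∂(Measure.volumeIoiPow (d - 1))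
      ∂((volume : Measure (E d)).toSphere) := by
  have mp := Measure.measurePreserving_homeomorphUnitSphereProd (E := E d) volume
  rw [finrank_euclideanSpace_fin] at mp
  have hHat : Measurable (fun p : Metric.sphere (0 : E d) 1 × Ioi (0:ℝ) =>
      H ((p.2 : ℝ) • (p.1 : E d))) :=
    hH.comp ((measurable_subtype_coe.comp measurable_snd).smul
      (measurable_subtype_coe.comp measurable_fst))
  rw [← lintegral_prod _ hHat.aemeasurable, ← mp.lintegral_comp hHat]
  have h1 : ∀ v : ({0}ᶜ : Set (E d)), H (((homeomorphUnitSphereProd (E d) v).2 : ℝ) •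
      ((homeomorphUnitSphereProd (E d) v).1 : E d)) = H v := by
    intro v
    congr 1
    have hv : ‖(v : E d)‖ ≠ 0 := norm_ne_zero_iff.2 (Set.mem_compl_singleton_iff.1 v.2)
    simp [homeomorphUnitSphereProd, homeomorphSphereProd, smul_smul, hv]
  simp_rw [h1]
  have hs : MeasurableSet ({0}ᶜ : Set (E d)) := (measurableSet_singleton _).compl
  rw [lintegral_subtype_comap hs]
  have hne : Nonempty (Fin d) := ⟨⟨0, hd⟩⟩
  have : ∀ᵐ v ∂(volume : Measure (E d)), v ∈ ({0}ᶜ : Set (E d)) :=
    compl_mem_ae_iff.2 (measure_singleton _)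
  rw [Measure.restrict_eq_self_of_ae_mem this]

/-- A lower integral against `volumeIoiPow` as a set integral over `(0, ∞)`. -/
lemma cap_lintegral_volumeIoiPow (n : ℕ) {f : ℝ → ℝ≥0∞} (hf : Measurable f) :
    ∫⁻ r : Ioi (0:ℝ), f r ∂(Measure.volumeIoiPow n)
      = ∫⁻ r in Ioi (0:ℝ), ENNReal.ofReal (r ^ n) * f r := by
  have hd : Measurable (fun r : Ioi (0:ℝ) => ENNReal.ofReal ((r : ℝ) ^ n)) := by fun_prop
  have hf' : Measurable (fun r : Ioi (0:ℝ) => f r) := hf.comp measurable_subtype_coe
  rw [Measure.volumeIoiPow, lintegral_withDensity_eq_lintegral_mul _ hd hf']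
  simp only [Pi.mul_apply]
  exact lintegral_subtype_comap measurableSet_Ioi (fun r => ENNReal.ofReal (r ^ n) * f r)

end Vale.Agent.Lib.P226
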