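import Vale.Agent.Lib.P226.CapBase

/-!
Radial independence on cones in `ℝ^4`: `E[|x|; C] = (3/2) √(π/2) γ(C)`.
-/

open MeasureTheory ProbabilityTheory Real Set Filter
open scoped ENNReal

namespace Vale.Agent.Lib.P226

lemma cap_radial_integrableOn (n : ℕ) :
    IntegrableOn (fun r : ℝ => r ^ n * exp (- r ^ 2 / 2)) (Ioi 0) := by
  have h := integrableOn_rpow_mul_exp_neg_mul_rpow (p := 2) (s := n) (b := 1 / 2)
    (by have : (0:ℝ) ≤ n := Nat.cast_nonneg n
        linarith) (by norm_num) (by norm_num)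
  refine h.congr_fun (fun r _ => ?_) measurableSet_Ioi
  simp only [rpow_natCast]
  have : (2:ℝ) = ((2:ℕ):ℝ) := by norm_num
  rw [this, rpow_natCast]
  congr 2
  ring

lemma cap_radial_integral (n : ℕ) :
    ∫ r in Ioi (0:ℝ), r ^ n * exp (- r ^ 2 / 2)
      = (1 / 2 : ℝ) ^ (-((n:ℝ) + 1) / 2) * (1 / 2) * Gamma (((n:ℝ) + 1) / 2) := by
  have h := integral_rpow_mul_exp_neg_mul_rpow (p := 2) (q := n) (b := 1 / 2)
    (by norm_num) (by have : (0:ℝ) ≤ n := Nat.cast_nonneg n
                      linarith) (by norm_num)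
  rw [← h]
  refine setIntegral_congr_fun measurableSet_Ioi (fun r _ => ?_)
  simp only [rpow_natCast]
  have : (2:ℝ) = ((2:ℕ):ℝ) := by norm_num
  rw [this, rpow_natCast]
  congr 2
  ring

lemma cap_radial_three : ∫ r in Ioi (0:ℝ), r ^ 3 * exp (- r ^ 2 / 2) = 2 := by
  rw [cap_radial_integral 3]
  have e1 : (-(((3:ℕ):ℝ) + 1) / 2) = -2 := by norm_num
  have e2 : (((3:ℕ):ℝ) + 1) / 2 = 1 + 1 := by norm_num
  rw [e1, e2, Real.Gamma_add_one one_ne_zero, Real.Gamma_one]
  rw [show (-2:ℝ) = ((-2:ℤ):ℝ) by norm_num, rpow_intCast]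
  norm_num

lemma cap_radial_four : ∫ r in Ioi (0:ℝ), r ^ 4 * exp (- r ^ 2 / 2) = 3 * √(π / 2) := by
  rw [cap_radial_integral 4]
  have e1 : (-(((4:ℕ):ℝ) + 1) / 2) = -(5 / 2) := by norm_num
  have e2 : (((4:ℕ):ℝ) + 1) / 2 = 1 / 2 + 1 + 1 := by norm_num
  rw [e1, e2, Real.Gamma_add_one (by norm_num), Real.Gamma_add_one (by norm_num),
    Real.Gamma_one_half_eq]
  have h2 : (1 / 2 : ℝ) ^ (-(5 / 2 : ℝ)) = 4 * √2 := by
    rw [one_div, Real.inv_rpow (by norm_num), Real.rpow_neg (by norm_num), inv_inv]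
    rw [show (5 / 2 : ℝ) = 2 + 1 / 2 by norm_num, Real.rpow_add (by norm_num),
      ← Real.sqrt_eq_rpow]
    norm_num
  rw [h2, Real.sqrt_div pi_nonneg]
  have hs : √2 * √2 = 2 := Real.mul_self_sqrt (by norm_num)
  have hs0 : √2 ≠ 0 := by positivity
  field_simp
  nlinarith [hs]

/-- The radial constant in dimension 4. -/
noncomputable def capC : ℝ := ((√(2 * π))⁻¹) ^ 4

lemma capC_pos : 0 < capC := by unfold capC; positivity

/-- Radial lower integral with a power of `r`: density part. -/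
lemma cap_radial_lintegral (n : ℕ) :
    ∫⁻ r in Ioi (0:ℝ), ENNReal.ofReal (r ^ n * (capC * exp (- r ^ 2 / 2)))
      = ENNReal.ofReal (capC * ∫ r in Ioi (0:ℝ), r ^ n * exp (- r ^ 2 / 2)) := by
  rw [← integral_const_mul, ofReal_integral_eq_lintegral_ofReal]
  · refine lintegral_congr fun r => ?_
    congr 1
    ring
  · have := (cap_radial_integrableOn n).const_mul capC
    exact this
  · filter_upwards [ae_restrict_mem measurableSet_Ioi] with r hr
    have hr' : (0:ℝ) < r := hr
    have : 0 < capC := capC_pos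
    simp only [Pi.zero_apply]
    positivity

/-- Decomposition of a cone. -/
lemma cap_cone_lintegral {C : Set (E 4)} (hC : MeasurableSet C)
    (hcone : ∀ x ∈ C, ∀ c : ℝ, 0 < c → c • x ∈ C) {f : ℝ → ℝ≥0∞} (hf : Measurable f) :
    ∫⁻ x in C, f ‖x‖ ∂(gam 4)
      = (volume : Measure (E 4)).toSphere {s | (s : E 4) ∈ C} *
        ∫⁻ r in Ioi (0:ℝ), ENNReal.ofReal (r ^ 3) * (ENNReal.ofReal (capC * exp (- r ^ 2 / 2)) * f r) := by
  have hS : MeasurableSet {s : Metric.sphere (0 : E 4) 1 | (s : E 4) ∈ C} :=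
    measurable_subtype_coe hC
  have hR : Measurable (fun r : ℝ => ENNReal.ofReal (capC * exp (- r ^ 2 / 2)) * f r) := by
    refine Measurable.mul ?_ hf
    fun_prop
  have hfn : Measurable (fun x : E 4 => f ‖x‖) := hf.comp measurable_norm
  rw [← lintegral_indicator hC]
  have hG : Measurable (C.indicator (fun x : E 4 => f ‖x‖)) := hfn.indicator hC
  rw [cap_lintegral_density 4 hG]
  have hH : Measurable (fun v : E 4 => capDens 4 v * C.indicator (fun x : E 4 => f ‖x‖) v) :=
    (measurable_capDens 4).mul hG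
  rw [cap_lintegral_polar (d := 4) (by norm_num) hH]
  have key : ∀ (s : Metric.sphere (0 : E 4) 1) (r : Ioi (0:ℝ)),
      capDens 4 ((r:ℝ) • (s : E 4)) * C.indicator (fun x : E 4 => f ‖x‖) ((r:ℝ) • (s : E 4))
        = ({s | (s : E 4) ∈ C} : Set (Metric.sphere (0 : E 4) 1)).indicator 1 s *
          (ENNReal.ofReal (capC * exp (- (r:ℝ) ^ 2 / 2)) * f r) := by
    intro s r
    have hr : (0:ℝ) < r := r.2
    have hs : ‖(s : E 4)‖ = 1 := by simp
    have h3 : ‖(r:ℝ) • (s : E 4)‖ = r := by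
      rw [norm_smul, hs, mul_one, Real.norm_eq_abs, abs_of_pos hr]
    have hiff : (r:ℝ) • (s : E 4) ∈ C ↔ (s : E 4) ∈ C := by
      constructor
      · intro h
        have := hcone _ h (r:ℝ)⁻¹ (inv_pos.2 hr)
        rwa [smul_smul, inv_mul_cancel₀ hr.ne', one_smul] at this
      · intro h
        exact hcone _ h _ hr
    unfold capDens capC
    rw [h3]
    by_cases hsC : (s : E 4) ∈ C
    · rw [Set.indicator_of_mem (hiff.2 hsC), Set.indicator_of_mem (show s ∈ _ from hsC), h3]
      simp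
    · rw [Set.indicator_of_notMem (fun h => hsC (hiff.1 h)),
        Set.indicator_of_notMem (show s ∉ {s : Metric.sphere (0 : E 4) 1 | (s : E 4) ∈ C} from hsC)]
      simp
  have e43 : (4 - 1 : ℕ) = 3 := by norm_num
  simp_rw [e43, key]
  have hR' : Measurable (fun r : Ioi (0:ℝ) => ENNReal.ofReal (capC * exp (- (r:ℝ) ^ 2 / 2)) * f r) :=
    hR.comp measurable_subtype_coe
  simp_rw [lintegral_const_mul _ hR']
  rw [lintegral_mul_const _ (measurable_one.indicator hS), lintegral_indicator_one hS]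
  congr 1
  exact cap_lintegral_volumeIoiPow 3 hR

/-- `E[|x|; C] = (3/2) √(π/2) γ(C)` for a cone `C` in `ℝ^4`. -/
theorem cap_norm_setIntegral {C : Set (E 4)} (hC : MeasurableSet C)
    (hcone : ∀ x ∈ C, ∀ c : ℝ, 0 < c → c • x ∈ C) :
    ∫ x in C, ‖x‖ ∂(gam 4) = (gam 4).real C * ((3 / 2) * √(π / 2)) := by
  set σ := (volume : Measure (E 4)).toSphere {s | (s : E 4) ∈ C} with hσ
  have h1 : gam 4 C = σ * ENNReal.ofReal (capC * 2) := by
    have := cap_cone_lintegral hC hcone (f := fun _ => 1) measurable_const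
    simp only [lintegral_const, MeasurableSet.univ, Measure.restrict_apply, univ_inter, one_mul,
      mul_one] at this
    rw [this]
    congr 1
    have e := cap_radial_lintegral 3
    rw [cap_radial_three] at e
    rw [← e]
    refine lintegral_congr_ae ?_
    filter_upwards [ae_restrict_mem measurableSet_Ioi] with r hr
    have hr' : (0:ℝ) < r := hr
    have hc : 0 < capC := capC_pos
    rw [← ENNReal.ofReal_mul (by positivity)]
  have h2 : ∫⁻ x in C, ENNReal.ofReal ‖x‖ ∂(gam 4) = σ * ENNReal.ofReal (capC * (3 * √(π / 2))) := by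
    have := cap_cone_lintegral hC hcone (f := fun r => ENNReal.ofReal r) ENNReal.measurable_ofReal
    rw [this]
    congr 1
    have e := cap_radial_lintegral 4
    rw [cap_radial_four] at e
    rw [← e]
    refine lintegral_congr_ae ?_
    filter_upwards [ae_restrict_mem measurableSet_Ioi] with r hr
    have hr' : (0:ℝ) < r := hr
    have hc : 0 < capC := capC_pos
    rw [← ENNReal.ofReal_mul (by positivity), ← ENNReal.ofReal_mul (by positivity)]
    congr 1
    ring
  have hint : Integrable (fun x : E 4 => ‖x‖) ((gam 4).restrict C) :=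
    (integrable_id_gam (d := 4)).norm.restrict
  have h3 : ∫ x in C, ‖x‖ ∂(gam 4) = (∫⁻ x in C, ENNReal.ofReal ‖x‖ ∂(gam 4)).toReal := by
    rw [integral_eq_lintegral_of_nonneg_ae (Eventually.of_forall fun x => norm_nonneg x)
      hint.aestronglyMeasurable]
  rw [h3, h2, Measure.real, h1, ENNReal.toReal_mul, ENNReal.toReal_mul,
    ENNReal.toReal_ofReal (by have := capC_pos; positivity),
    ENNReal.toReal_ofReal (by have := capC_pos; positivity)]
  ring

end Vale.Agent.Lib.P226
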