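import Vale.Agent.Lib.P226.CapCone

/-!
Radial independence and the tail integral on cones in every dimension.
-/

open MeasureTheory ProbabilityTheory Real Set Filter
open scoped ENNReal

namespace Vale.Agent.Lib.P226

/-- Radial moments. -/
noncomputable def rM (n : ℕ) : ℝ := ∫ r in Ioi (0:ℝ), r ^ n * exp (- r ^ 2 / 2)

lemma rM_eq (n : ℕ) : rM n = (1 / 2 : ℝ) ^ (-((n:ℝ) + 1) / 2) * (1 / 2) * Gamma (((n:ℝ) + 1) / 2) :=
  cap_radial_integral n

lemma rM_pos (n : ℕ) : 0 < rM n := by
  rw [rM_eq]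
  have : 0 < ((n:ℝ) + 1) / 2 := by positivity
  have h := Real.Gamma_pos_of_pos this
  positivity

lemma rM_add_two (n : ℕ) : rM (n + 2) = ((n:ℝ) + 1) * rM n := by
  rw [rM_eq, rM_eq]
  have e1 : (((n + 2 : ℕ):ℝ) + 1) / 2 = ((n:ℝ) + 1) / 2 + 1 := by
    push_cast
    ring
  have e2 : (-(((n + 2 : ℕ):ℝ) + 1) / 2) = (-((n:ℝ) + 1) / 2) + (-1) := by
    push_cast
    ring
  rw [e1, e2, Real.Gamma_add_one (by positivity), Real.rpow_add (by norm_num), Real.rpow_neg_one]
  field_simp

lemma rM_zero : rM 0 = √(π / 2) := by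
  rw [rM_eq]
  have e1 : (((0:ℕ):ℝ) + 1) / 2 = 1 / 2 := by norm_num
  have e2 : (-(((0:ℕ):ℝ) + 1) / 2) = -(1 / 2) := by norm_num
  rw [e1, e2, Real.Gamma_one_half_eq]
  rw [Real.rpow_neg (by norm_num), ← Real.sqrt_eq_rpow, Real.sqrt_div pi_nonneg]
  have h : √(1 / 2 : ℝ) = (√2)⁻¹ := by
    rw [Real.sqrt_div (by norm_num), Real.sqrt_one]
    simp
  rw [h, inv_inv]
  have hs : √2 * √2 = 2 := Real.mul_self_sqrt (by norm_num)
  have hs0 : √2 ≠ 0 := by positivity
  field_simp
  nlinarith [hs]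

lemma rM_one : rM 1 = 1 := by
  rw [rM_eq]
  have e1 : (((1:ℕ):ℝ) + 1) / 2 = 1 := by norm_num
  have e2 : (-(((1:ℕ):ℝ) + 1) / 2) = -1 := by norm_num
  rw [e1, e2, Real.Gamma_one, Real.rpow_neg_one]
  norm_num

/-- The radial constant in dimension `d`. -/
noncomputable def capCd (d : ℕ) : ℝ := ((√(2 * π))⁻¹) ^ d

lemma capCd_pos (d : ℕ) : 0 < capCd d := by unfold capCd; positivity

/-- Radial lower integral with a power of `r`: density part. -/
lemma capD_radial_lintegral (d n : ℕ) :
    ∫⁻ r in Ioi (0:ℝ), ENNReal.ofReal (r ^ n * (capCd d * exp (- r ^ 2 / 2)))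
      = ENNReal.ofReal (capCd d * rM n) := by
  unfold rM
  rw [← integral_const_mul, ofReal_integral_eq_lintegral_ofReal]
  · refine lintegral_congr fun r => ?_
    congr 1
    ring
  · have := (cap_radial_integrableOn n).const_mul (capCd d)
    exact this
  · filter_upwards [ae_restrict_mem measurableSet_Ioi] with r hr
    have hr' : (0:ℝ) < r := hr
    have : 0 < capCd d := capCd_pos d
    simp only [Pi.zero_apply]
    positivity

/-- Decomposition of a cone. -/
lemma capD_cone_lintegral {d : ℕ} (hd : 0 < d) {C : Set (E d)} (hC : MeasurableSet C)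
    (hcone : ∀ x ∈ C, ∀ c : ℝ, 0 < c → c • x ∈ C) {f : ℝ → ℝ≥0∞} (hf : Measurable f) :
    ∫⁻ x in C, f ‖x‖ ∂(gam d)
      = (volume : Measure (E d)).toSphere {s | (s : E d) ∈ C} *
        ∫⁻ r in Ioi (0:ℝ), ENNReal.ofReal (r ^ (d - 1)) *
          (ENNReal.ofReal (capCd d * exp (- r ^ 2 / 2)) * f r) := by
  have hS : MeasurableSet {s : Metric.sphere (0 : E d) 1 | (s : E d) ∈ C} :=
    measurable_subtype_coe hC
  have hR : Measurable (fun r : ℝ => ENNReal.ofReal (capCd d * exp (- r ^ 2 / 2)) * f r) := by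
    refine Measurable.mul ?_ hf
    fun_prop
  have hfn : Measurable (fun x : E d => f ‖x‖) := hf.comp measurable_norm
  rw [← lintegral_indicator hC]
  have hG : Measurable (C.indicator (fun x : E d => f ‖x‖)) := hfn.indicator hC
  rw [cap_lintegral_density d hG]
  have hH : Measurable (fun v : E d => capDens d v * C.indicator (fun x : E d => f ‖x‖) v) :=
    (measurable_capDens d).mul hG
  rw [cap_lintegral_polar (d := d) hd hH]
  have key : ∀ (s : Metric.sphere (0 : E d) 1) (r : Ioi (0:ℝ)),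
      capDens d ((r:ℝ) • (s : E d)) * C.indicator (fun x : E d => f ‖x‖) ((r:ℝ) • (s : E d))
        = ({s | (s : E d) ∈ C} : Set (Metric.sphere (0 : E d) 1)).indicator 1 s *
          (ENNReal.ofReal (capCd d * exp (- (r:ℝ) ^ 2 / 2)) * f r) := by
    intro s r
    have hr : (0:ℝ) < r := r.2
    have hs : ‖(s : E d)‖ = 1 := by simp
    have h3 : ‖(r:ℝ) • (s : E d)‖ = r := by
      rw [norm_smul, hs, mul_one, Real.norm_eq_abs, abs_of_pos hr]
    have hiff : (r:ℝ) • (s : E d) ∈ C ↔ (s : E d) ∈ C := by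
      constructor
      · intro h
        have := hcone _ h (r:ℝ)⁻¹ (inv_pos.2 hr)
        rwa [smul_smul, inv_mul_cancel₀ hr.ne', one_smul] at this
      · intro h
        exact hcone _ h _ hr
    unfold capDens capCd
    rw [h3]
    by_cases hsC : (s : E d) ∈ C
    · rw [Set.indicator_of_mem (hiff.2 hsC), Set.indicator_of_mem (show s ∈ _ from hsC), h3]
      simp
    · rw [Set.indicator_of_notMem (fun h => hsC (hiff.1 h)),
        Set.indicator_of_notMem (show s ∉ {s : Metric.sphere (0 : E d) 1 | (s : E d) ∈ C} from hsC)]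
      simp
  simp_rw [key]
  have hR' : Measurable (fun r : Ioi (0:ℝ) => ENNReal.ofReal (capCd d * exp (- (r:ℝ) ^ 2 / 2)) * f r) :=
    hR.comp measurable_subtype_coe
  simp_rw [lintegral_const_mul _ hR']
  rw [lintegral_mul_const _ (measurable_one.indicator hS), lintegral_indicator_one hS]
  congr 1
  exact cap_lintegral_volumeIoiPow (d - 1) hR

/-- `E[|x|; C] = (M_d/M_{d-1}) γ(C)` for a cone `C` in `ℝ^d`. -/
theorem capD_norm_setIntegral {d : ℕ} (hd : 0 < d) {C : Set (E d)} (hC : MeasurableSet C)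
    (hcone : ∀ x ∈ C, ∀ c : ℝ, 0 < c → c • x ∈ C) :
    ∫ x in C, ‖x‖ ∂(gam d) = (gam d).real C * (rM d / rM (d - 1)) := by
  set σ := (volume : Measure (E d)).toSphere {s | (s : E d) ∈ C} with hσ
  have e1 : ∫⁻ r in Ioi (0:ℝ), ENNReal.ofReal (r ^ (d - 1)) *
      (ENNReal.ofReal (capCd d * exp (- r ^ 2 / 2)))
      = ENNReal.ofReal (capCd d * rM (d - 1)) := by
    rw [← capD_radial_lintegral d (d - 1)]
    refine lintegral_congr_ae ?_
    filter_upwards [ae_restrict_mem measurableSet_Ioi] with r hr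
    have hr' : (0:ℝ) < r := hr
    rw [← ENNReal.ofReal_mul (by positivity)]
  have h1 : gam d C = σ * ENNReal.ofReal (capCd d * rM (d - 1)) := by
    have := capD_cone_lintegral hd hC hcone (f := fun _ => 1) measurable_const
    simp only [lintegral_const, MeasurableSet.univ, Measure.restrict_apply, univ_inter, one_mul,
      mul_one] at this
    rw [this, e1]
  have e2 : ∫⁻ r in Ioi (0:ℝ), ENNReal.ofReal (r ^ (d - 1)) *
      (ENNReal.ofReal (capCd d * exp (- r ^ 2 / 2)) * ENNReal.ofReal r)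
      = ENNReal.ofReal (capCd d * rM d) := by
    rw [← capD_radial_lintegral d d]
    refine lintegral_congr_ae ?_
    filter_upwards [ae_restrict_mem measurableSet_Ioi] with r hr
    have hr' : (0:ℝ) < r := hr
    have hc := capCd_pos d
    rw [← ENNReal.ofReal_mul (by positivity), ← ENNReal.ofReal_mul (by positivity)]
    congr 1
    have : r ^ d = r ^ (d - 1) * r := by
      rw [← pow_succ]
      congr 1
      omega
    rw [this]
    ring
  have h2 : ∫⁻ x in C, ENNReal.ofReal ‖x‖ ∂(gam d) = σ * ENNReal.ofReal (capCd d * rM d) := by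
    have := capD_cone_lintegral hd hC hcone (f := fun r => ENNReal.ofReal r) ENNReal.measurable_ofReal
    rw [this, e2]
  have hint : Integrable (fun x : E d => ‖x‖) ((gam d).restrict C) :=
    (integrable_id_gam (d := d)).norm.restrict
  have h3 : ∫ x in C, ‖x‖ ∂(gam d) = (∫⁻ x in C, ENNReal.ofReal ‖x‖ ∂(gam d)).toReal := by
    rw [integral_eq_lintegral_of_nonneg_ae (Eventually.of_forall fun x => norm_nonneg x)
      hint.aestronglyMeasurable]
  have hM0 := rM_pos (d - 1)
  have hM1 := rM_pos d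
  have hc := capCd_pos d
  rw [h3, h2, Measure.real, h1, ENNReal.toReal_mul, ENNReal.toReal_mul,
    ENNReal.toReal_ofReal (by positivity),
    ENNReal.toReal_ofReal (by positivity)]
  field_simp

end Vale.Agent.Lib.P226
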