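import Vale.Agent.Lib.P226.CapDTail

/-!
The cap inequality for cones in `ℝ^(m+1)`, with explicit forms in dimensions 5, 7, 9.
-/

open MeasureTheory ProbabilityTheory Real Set Filter
open scoped ENNReal

namespace Vale.Agent.Lib.P226

variable {m : ℕ}

/-- An orthonormal basis of `ℝ^(m+1)` whose first vector has prescribed direction. -/
lemma capD_exists_basis (z : E (m + 1)) :
    ∃ b : OrthonormalBasis (Fin (m + 1)) ℝ (E (m + 1)), (inner ℝ z (b 0) : ℝ) = ‖z‖ := by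
  obtain ⟨u, hu1, hu2⟩ : ∃ u : E (m + 1), ‖u‖ = 1 ∧ (inner ℝ z u : ℝ) = ‖z‖ := by
    by_cases hz : z = 0
    · refine ⟨EuclideanSpace.single 0 1, by simp, by simp [hz]⟩
    · refine ⟨‖z‖⁻¹ • z, norm_smul_inv_norm hz, ?_⟩
      have hz' : ‖z‖ ≠ 0 := norm_ne_zero_iff.2 hz
      rw [real_inner_smul_right, real_inner_self_eq_norm_sq]
      field_simp
  have hv : Orthonormal ℝ (({0} : Set (Fin (m + 1))).domRestrict (fun _ => u)) := by
    constructor
    · intro i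
      exact hu1
    · intro i j hij
      exfalso
      apply hij
      ext
      have hi := i.2
      have hj := j.2
      simp only [mem_singleton_iff] at hi hj
      rw [hi, hj]
  obtain ⟨b, hb⟩ := Orthonormal.exists_orthonormalBasis_extension_of_card_eq (𝕜 := ℝ) (E := E (m + 1))
    (ι := Fin (m + 1)) (by simp) hv
  refine ⟨b, ?_⟩
  rw [hb 0 (by simp), hu2]

/-- Cap inequality for cones in `ℝ^(m+1)`, general form. -/
theorem capD_bound (hm : 0 < m) {C : Set (E (m + 1))} (hC : MeasurableSet C)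
    (hcone : ∀ x ∈ C, ∀ c : ℝ, 0 < c → c • x ∈ C) {β : ℝ} (h0 : 0 ≤ β) (h1 : β ≤ π / 2) :
    ‖nz C‖ ≤ √(2 * π) * (sin β * ((gam (m + 1)).real C * (rM (m + 1) / rM m))
      + capA m * (capCd (m + 1) * rM (m + 1) * capDK m β)) := by
  obtain ⟨b, hb⟩ := capD_exists_basis (mom C)
  set u := b 0 with hu
  have hsn : 0 ≤ sin β := Real.sin_nonneg_of_nonneg_of_le_pi h0 (by linarith [pi_pos])
  have hn : Integrable (fun x : E (m + 1) => ‖x‖) (gam (m + 1)) :=
    (integrable_id_gam (d := m + 1)).norm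
  have hi : Integrable (fun x : E (m + 1) => (inner ℝ x u : ℝ)) (gam (m + 1)) := integrable_inner_gam u
  have hm' : Integrable (fun x : E (m + 1) => max 0 ((inner ℝ x u : ℝ) - sin β * ‖x‖)) (gam (m + 1)) :=
    (integrable_zero _ _ _).sup (hi.sub (hn.const_mul (sin β)))
  have hnC : IntegrableOn (fun x : E (m + 1) => sin β * ‖x‖) C (gam (m + 1)) :=
    (hn.const_mul (sin β)).integrableOn
  have step1 : ‖mom C‖ ≤ sin β * ∫ x in C, ‖x‖ ∂(gam (m + 1))
      + ∫ x, max 0 ((inner ℝ x u : ℝ) - sin β * ‖x‖) ∂(gam (m + 1)) := by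
    rw [← hb, inner_mom]
    calc ∫ x in C, (inner ℝ x u : ℝ) ∂(gam (m + 1))
        ≤ ∫ x in C, (sin β * ‖x‖ + max 0 ((inner ℝ x u : ℝ) - sin β * ‖x‖)) ∂(gam (m + 1)) := by
          refine setIntegral_mono_on hi.integrableOn (hnC.add hm'.integrableOn) hC (fun x _ => ?_)
          linarith [le_max_right 0 ((inner ℝ x u : ℝ) - sin β * ‖x‖)]
      _ = sin β * ∫ x in C, ‖x‖ ∂(gam (m + 1))
            + ∫ x in C, max 0 ((inner ℝ x u : ℝ) - sin β * ‖x‖) ∂(gam (m + 1)) := by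
          rw [integral_add hnC hm'.integrableOn, integral_const_mul]
      _ ≤ _ := by
          have := setIntegral_le_integral (s := C) hm'
            (Eventually.of_forall fun x => le_max_left (0 : ℝ) ((inner ℝ x u : ℝ) - sin β * ‖x‖))
          linarith
  have htail := capD_tail hm b h0 h1
  have hrad := capD_norm_setIntegral (d := m + 1) (Nat.succ_pos m) hC hcone
  have hnz : ‖nz C‖ = √(2 * π) * ‖mom C‖ := by
    rw [nz, norm_smul, Real.norm_eq_abs, abs_of_nonneg (Real.sqrt_nonneg _)]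
  rw [hnz]
  have e : ∀ x : ℝ, 0 ≤ √(2 * π) := fun _ => Real.sqrt_nonneg _
  refine mul_le_mul_of_nonneg_left ?_ (Real.sqrt_nonneg _)
  rw [hrad, Nat.add_sub_cancel] at step1
  rw [← htail]
  exact step1

lemma sqrt_two_pi_pow (n : ℕ) : √(2 * π) ^ (2 * n) = (2 * π) ^ n := by
  rw [pow_mul, Real.sq_sqrt (by positivity)]

lemma sqrt_two_pi_div (e : √(2 * π) * √(π / 2) = π) : √(2 * π) / √(π / 2) = 2 := by
  have h1 : 0 < √(π / 2) := by positivity
  have h2 : √(π / 2) * √(π / 2) = π / 2 := Real.mul_self_sqrt (by positivity)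
  rw [div_eq_iff h1.ne']
  nlinarith [pi_pos]

lemma sqrt_two_pi_mul : √(2 * π) * √(π / 2) = π := by
  rw [← Real.sqrt_mul (by positivity)]
  rw [show 2 * π * (π / 2) = π ^ 2 by ring, Real.sqrt_sq pi_pos.le]

lemma rM_two : rM 2 = √(π / 2) := by
  have := rM_add_two 0
  rw [rM_zero] at this
  simpa using this

lemma rM_three : rM 3 = 2 := by
  have := rM_add_two 1
  rw [rM_one] at this
  norm_num at this
  exact this

lemma rM_four : rM 4 = 3 * √(π / 2) := by
  have h : rM 4 = (((2:ℕ):ℝ) + 1) * rM 2 := rM_add_two 2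
  rw [h, rM_two]
  norm_num

lemma rM_five : rM 5 = 8 := by
  have := rM_add_two 3
  rw [rM_three] at this
  norm_num at this
  exact this

lemma rM_six : rM 6 = 15 * √(π / 2) := by
  have h : rM 6 = (((4:ℕ):ℝ) + 1) * rM 4 := rM_add_two 4
  rw [h, rM_four]
  norm_num
  ring

lemma rM_seven : rM 7 = 48 := by
  have := rM_add_two 5
  rw [rM_five] at this
  norm_num at this
  exact this

lemma rM_eight : rM 8 = 105 * √(π / 2) := by
  have h : rM 8 = (((6:ℕ):ℝ) + 1) * rM 6 := rM_add_two 6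
  rw [h, rM_six]
  norm_num
  ring

lemma rM_nine : rM 9 = 384 := by
  have := rM_add_two 7
  rw [rM_seven] at this
  norm_num at this
  exact this

lemma capA_four : capA 4 = 2 * π ^ 2 := by
  unfold capA
  have e : ((4:ℕ):ℝ) / 2 + 1 = ((2:ℕ):ℝ) + 1 := by norm_num
  rw [e, Real.Gamma_nat_eq_factorial]
  have hs : √π ^ 4 = π ^ 2 := by
    rw [show (4:ℕ) = 2 * 2 by norm_num, pow_mul, Real.sq_sqrt pi_nonneg]
  rw [hs]
  norm_num [Nat.factorial]
  ring

lemma capA_six : capA 6 = π ^ 3 := by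
  unfold capA
  have e : ((6:ℕ):ℝ) / 2 + 1 = ((3:ℕ):ℝ) + 1 := by norm_num
  rw [e, Real.Gamma_nat_eq_factorial]
  have hs : √π ^ 6 = π ^ 3 := by
    rw [show (6:ℕ) = 2 * 3 by norm_num, pow_mul, Real.sq_sqrt pi_nonneg]
  rw [hs]
  norm_num [Nat.factorial]
  ring

lemma capA_eight : capA 8 = π ^ 4 / 3 := by
  unfold capA
  have e : ((8:ℕ):ℝ) / 2 + 1 = ((4:ℕ):ℝ) + 1 := by norm_num
  rw [e, Real.Gamma_nat_eq_factorial]
  have hs : √π ^ 8 = π ^ 4 := by
    rw [show (8:ℕ) = 2 * 4 by norm_num, pow_mul, Real.sq_sqrt pi_nonneg]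
  rw [hs]
  norm_num [Nat.factorial]
  ring

/-- angular integral in dimension 5 -/
lemma capDK_four {β : ℝ} (h1 : β ≤ π / 2) :
    capDK 4 β = 1 / 4 - (2 / 3) * sin β + sin β ^ 2 / 2 - sin β ^ 4 / 12 := by
  unfold capDK
  rw [integral_Ioc_eq_integral_Ioo.symm, ← intervalIntegral.integral_of_le h1]
  have hd : ∀ θ ∈ uIcc β (π / 2), HasDerivAt
      (fun θ => sin θ ^ 2 / 2 - sin θ ^ 4 / 4 - sin β * sin θ + sin β * (sin θ ^ 3 / 3))
      (cos θ ^ (4 - 1) * (sin θ - sin β)) θ := by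
    intro θ _
    have h2 := Real.hasDerivAt_sin θ
    have h3 := ((h2.fun_pow 2).div_const 2).fun_sub ((h2.fun_pow 4).div_const 4)
    have h4 := h3.fun_sub (h2.const_mul (sin β))
    have h5 := h4.fun_add (((h2.fun_pow 3).div_const 3).const_mul (sin β))
    refine h5.congr_deriv ?_
    have e : cos θ ^ 2 = 1 - sin θ ^ 2 := by linarith [Real.sin_sq_add_cos_sq θ]
    have e3 : cos θ ^ (4 - 1) = cos θ * (1 - sin θ ^ 2) := by
      rw [← e]
      norm_num
      ring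
    rw [e3]
    norm_num
    ring
  rw [intervalIntegral.integral_eq_sub_of_hasDerivAt hd]
  · simp only [sin_pi_div_two]
    ring
  · apply Continuous.intervalIntegrable
    fun_prop

/-- angular integral in dimension 7 -/
lemma capDK_six {β : ℝ} (h1 : β ≤ π / 2) :
    capDK 6 β = 1 / 6 - (8 / 15) * sin β + sin β ^ 2 / 2 - sin β ^ 4 / 6 + sin β ^ 6 / 30 := by
  unfold capDK
  rw [integral_Ioc_eq_integral_Ioo.symm, ← intervalIntegral.integral_of_le h1]
  have hd : ∀ θ ∈ uIcc β (π / 2), HasDerivAt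
      (fun θ => sin θ ^ 2 / 2 - sin θ ^ 4 / 2 + sin θ ^ 6 / 6
        - sin β * (sin θ - 2 * (sin θ ^ 3 / 3) + sin θ ^ 5 / 5))
      (cos θ ^ (6 - 1) * (sin θ - sin β)) θ := by
    intro θ _
    have h2 := Real.hasDerivAt_sin θ
    have h3 := (((h2.fun_pow 2).div_const 2).fun_sub ((h2.fun_pow 4).div_const 2)).fun_add
      ((h2.fun_pow 6).div_const 6)
    have h4 := ((h2.fun_sub (((h2.fun_pow 3).div_const 3).const_mul 2)).fun_add
      ((h2.fun_pow 5).div_const 5)).const_mul (sin β)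
    have h5 := h3.fun_sub h4
    refine h5.congr_deriv ?_
    have e : cos θ ^ 2 = 1 - sin θ ^ 2 := by linarith [Real.sin_sq_add_cos_sq θ]
    have e3 : cos θ ^ (6 - 1) = cos θ * (1 - sin θ ^ 2) ^ 2 := by
      rw [← e]
      norm_num
      ring
    rw [e3]
    norm_num
    ring
  rw [intervalIntegral.integral_eq_sub_of_hasDerivAt hd]
  · simp only [sin_pi_div_two]
    ring
  · apply Continuous.intervalIntegrable
    fun_prop

/-- angular integral in dimension 9 -/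
lemma capDK_eight {β : ℝ} (h1 : β ≤ π / 2) :
    capDK 8 β = 1 / 8 - (16 / 35) * sin β + sin β ^ 2 / 2 - sin β ^ 4 / 4
      + sin β ^ 6 / 10 - sin β ^ 8 / 56 := by
  unfold capDK
  rw [integral_Ioc_eq_integral_Ioo.symm, ← intervalIntegral.integral_of_le h1]
  have hd : ∀ θ ∈ uIcc β (π / 2), HasDerivAt
      (fun θ => sin θ ^ 2 / 2 - 3 * (sin θ ^ 4 / 4) + 3 * (sin θ ^ 6 / 6) - sin θ ^ 8 / 8
        - sin β * (sin θ - sin θ ^ 3 + 3 * (sin θ ^ 5 / 5) - sin θ ^ 7 / 7))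
      (cos θ ^ (8 - 1) * (sin θ - sin β)) θ := by
    intro θ _
    have h2 := Real.hasDerivAt_sin θ
    have h3 := ((((h2.fun_pow 2).div_const 2).fun_sub (((h2.fun_pow 4).div_const 4).const_mul 3)).fun_add
      (((h2.fun_pow 6).div_const 6).const_mul 3)).fun_sub ((h2.fun_pow 8).div_const 8)
    have h4 := (((h2.fun_sub (h2.fun_pow 3)).fun_add
      (((h2.fun_pow 5).div_const 5).const_mul 3)).fun_sub ((h2.fun_pow 7).div_const 7)).const_mul (sin β)
    have h5 := h3.fun_sub h4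
    refine h5.congr_deriv ?_
    have e : cos θ ^ 2 = 1 - sin θ ^ 2 := by linarith [Real.sin_sq_add_cos_sq θ]
    have e3 : cos θ ^ (8 - 1) = cos θ * (1 - sin θ ^ 2) ^ 3 := by
      rw [← e]
      norm_num
      ring
    rw [e3]
    norm_num
    ring
  rw [intervalIntegral.integral_eq_sub_of_hasDerivAt hd]
  · simp only [sin_pi_div_two]
    ring
  · apply Continuous.intervalIntegrable
    fun_prop

/-- Cap inequality for cones in `ℝ^5`: for `0 ≤ s ≤ 1`,
`|nz C| ≤ (16/3) s γ(C) + 1 - (8/3) s + 2 s² - s⁴/3`. -/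
theorem cap5_bound {C : Set (E 5)} (hC : MeasurableSet C)
    (hcone : ∀ x ∈ C, ∀ c : ℝ, 0 < c → c • x ∈ C) {s : ℝ} (h0 : 0 ≤ s) (h1 : s ≤ 1) :
    ‖nz C‖ ≤ (16 / 3) * s * (gam 5).real C + 1 - (8 / 3) * s + 2 * s ^ 2 - s ^ 4 / 3 := by
  have hb0 : 0 ≤ arcsin s := Real.arcsin_nonneg.2 h0
  have hb1 : arcsin s ≤ π / 2 := Real.arcsin_le_pi_div_two s
  have hsin : sin (arcsin s) = s := Real.sin_arcsin (by linarith) h1
  have h := capD_bound (m := 4) (by norm_num) hC hcone hb0 hb1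
  rw [capDK_four hb1, hsin, rM_four, rM_five, capA_four] at h
  have e1 : √(2 * π) * (8 / (3 * √(π / 2))) = 16 / 3 := by
    have h2 := sqrt_two_pi_div sqrt_two_pi_mul
    have h3 : 0 < √(π / 2) := by positivity
    calc √(2 * π) * (8 / (3 * √(π / 2))) = (√(2 * π) / √(π / 2)) * (8 / 3) := by
          field_simp
      _ = 16 / 3 := by rw [h2]; norm_num
  have e2 : √(2 * π) * (2 * π ^ 2 * capCd 5 * 8) = 4 := by
    unfold capCd
    have h4 := sqrt_two_pi_pow 2
    have h5 : 0 < √(2 * π) := by positivity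
    have h6 : √(2 * π) * ((√(2 * π))⁻¹ ^ 5) = ((2 * π) ^ 2)⁻¹ := by
      rw [← h4, inv_pow]
      field_simp
    calc √(2 * π) * (2 * π ^ 2 * (√(2 * π))⁻¹ ^ 5 * 8)
        = (√(2 * π) * ((√(2 * π))⁻¹ ^ 5)) * (16 * π ^ 2) := by ring
      _ = 4 := by
          rw [h6]
          field_simp
          ring
  calc ‖nz C‖ ≤ _ := h
    _ = (√(2 * π) * (8 / (3 * √(π / 2)))) * (s * (gam 5).real C)
        + (√(2 * π) * (2 * π ^ 2 * capCd 5 * 8))
          * (1 / 4 - 2 / 3 * s + s ^ 2 / 2 - s ^ 4 / 12) := by ring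
    _ = _ := by
        rw [e1, e2]
        ring

/-- Cap inequality for cones in `ℝ^7`: for `0 ≤ s ≤ 1`,
`|nz C| ≤ (32/5) s γ(C) + 1 - (16/5) s + 3 s² - s⁴ + s⁶/5`. -/
theorem cap7_bound {C : Set (E 7)} (hC : MeasurableSet C)
    (hcone : ∀ x ∈ C, ∀ c : ℝ, 0 < c → c • x ∈ C) {s : ℝ} (h0 : 0 ≤ s) (h1 : s ≤ 1) :
    ‖nz C‖ ≤ (32 / 5) * s * (gam 7).real C + 1 - (16 / 5) * s + 3 * s ^ 2 - s ^ 4 + s ^ 6 / 5 := by
  have hb0 : 0 ≤ arcsin s := Real.arcsin_nonneg.2 h0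
  have hb1 : arcsin s ≤ π / 2 := Real.arcsin_le_pi_div_two s
  have hsin : sin (arcsin s) = s := Real.sin_arcsin (by linarith) h1
  have h := capD_bound (m := 6) (by norm_num) hC hcone hb0 hb1
  rw [capDK_six hb1, hsin, rM_six, rM_seven, capA_six] at h
  have e1 : √(2 * π) * (48 / (15 * √(π / 2))) = 32 / 5 := by
    have h2 := sqrt_two_pi_div sqrt_two_pi_mul
    have h3 : 0 < √(π / 2) := by positivity
    calc √(2 * π) * (48 / (15 * √(π / 2))) = (√(2 * π) / √(π / 2)) * (48 / 15) := by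
          field_simp
      _ = 32 / 5 := by rw [h2]; norm_num
  have e2 : √(2 * π) * (π ^ 3 * capCd 7 * 48) = 6 := by
    unfold capCd
    have h4 := sqrt_two_pi_pow 3
    have h5 : 0 < √(2 * π) := by positivity
    have h6 : √(2 * π) * ((√(2 * π))⁻¹ ^ 7) = ((2 * π) ^ 3)⁻¹ := by
      rw [← h4, inv_pow]
      field_simp
    calc √(2 * π) * (π ^ 3 * (√(2 * π))⁻¹ ^ 7 * 48)
        = (√(2 * π) * ((√(2 * π))⁻¹ ^ 7)) * (48 * π ^ 3) := by ring
      _ = 6 := by
          rw [h6]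
          field_simp
          ring
  calc ‖nz C‖ ≤ _ := h
    _ = (√(2 * π) * (48 / (15 * √(π / 2)))) * (s * (gam 7).real C)
        + (√(2 * π) * (π ^ 3 * capCd 7 * 48))
          * (1 / 6 - 8 / 15 * s + s ^ 2 / 2 - s ^ 4 / 6 + s ^ 6 / 30) := by ring
    _ = _ := by
        rw [e1, e2]
        ring

/-- Cap inequality for cones in `ℝ^9`: for `0 ≤ s ≤ 1`,
`|nz C| ≤ (256/35) s γ(C) + 1 - (128/35) s + 4 s² - 2 s⁴ + (4/5) s⁶ - s⁸/7`. -/
theorem cap9_bound {C : Set (E 9)} (hC : MeasurableSet C)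
    (hcone : ∀ x ∈ C, ∀ c : ℝ, 0 < c → c • x ∈ C) {s : ℝ} (h0 : 0 ≤ s) (h1 : s ≤ 1) :
    ‖nz C‖ ≤ (256 / 35) * s * (gam 9).real C + 1 - (128 / 35) * s + 4 * s ^ 2 - 2 * s ^ 4
      + (4 / 5) * s ^ 6 - s ^ 8 / 7 := by
  have hb0 : 0 ≤ arcsin s := Real.arcsin_nonneg.2 h0
  have hb1 : arcsin s ≤ π / 2 := Real.arcsin_le_pi_div_two s
  have hsin : sin (arcsin s) = s := Real.sin_arcsin (by linarith) h1
  have h := capD_bound (m := 8) (by norm_num) hC hcone hb0 hb1
  rw [capDK_eight hb1, hsin, rM_eight, rM_nine, capA_eight] at h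
  have e1 : √(2 * π) * (384 / (105 * √(π / 2))) = 256 / 35 := by
    have h2 := sqrt_two_pi_div sqrt_two_pi_mul
    have h3 : 0 < √(π / 2) := by positivity
    calc √(2 * π) * (384 / (105 * √(π / 2))) = (√(2 * π) / √(π / 2)) * (384 / 105) := by
          field_simp
      _ = 256 / 35 := by rw [h2]; norm_num
  have e2 : √(2 * π) * (π ^ 4 / 3 * capCd 9 * 384) = 8 := by
    unfold capCd
    have h4 := sqrt_two_pi_pow 4
    have h5 : 0 < √(2 * π) := by positivity
    have h6 : √(2 * π) * ((√(2 * π))⁻¹ ^ 9) = ((2 * π) ^ 4)⁻¹ := by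
      rw [← h4, inv_pow]
      field_simp
    calc √(2 * π) * (π ^ 4 / 3 * (√(2 * π))⁻¹ ^ 9 * 384)
        = (√(2 * π) * ((√(2 * π))⁻¹ ^ 9)) * (128 * π ^ 4) := by ring
      _ = 8 := by
          rw [h6]
          field_simp
          ring
  calc ‖nz C‖ ≤ _ := h
    _ = (√(2 * π) * (384 / (105 * √(π / 2)))) * (s * (gam 9).real C)
        + (√(2 * π) * (π ^ 4 / 3 * capCd 9 * 384))
          * (1 / 8 - 16 / 35 * s + s ^ 2 / 2 - s ^ 4 / 4 + s ^ 6 / 10 - s ^ 8 / 56) := by ring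
    _ = _ := by
        rw [e1, e2]
        ring

end Vale.Agent.Lib.P226
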