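import Vale.Agent.Lib.P226.CapD

/-!
The tail integral in `ℝ^(m+1)`: `E(⟪x,u⟫ - s|x|)_+` for `s = sin β`.
-/

open MeasureTheory ProbabilityTheory Real Set Filter
open scoped ENNReal

namespace Vale.Agent.Lib.P226

variable {m : ℕ}

/-- Coordinates adapted to an orthonormal basis: the first basis vector goes to the line. -/
noncomputable def capDPsi (b : OrthonormalBasis (Fin (m + 1)) ℝ (E (m + 1))) (z : E (m + 1)) : E m × ℝ :=
  (WithLp.toLp 2 (fun i : Fin m => b.repr z i.succ), b.repr z 0)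

lemma capD_norm_sq_Psi (b : OrthonormalBasis (Fin (m + 1)) ℝ (E (m + 1))) (z : E (m + 1)) :
    ‖z‖ ^ 2 = ‖(capDPsi b z).1‖ ^ 2 + (capDPsi b z).2 ^ 2 := by
  have h1 : ‖z‖ = ‖b.repr z‖ := (b.repr.norm_map z).symm
  rw [h1, EuclideanSpace.norm_sq_eq, Fin.sum_univ_succ]
  simp only [capDPsi]
  rw [EuclideanSpace.norm_sq_eq]
  simp only [Real.norm_eq_abs, sq_abs]
  ring

lemma capD_Psi_volume (b : OrthonormalBasis (Fin (m + 1)) ℝ (E (m + 1))) :
    MeasurePreserving (capDPsi b) volume ((volume : Measure (E m)).prod (volume : Measure ℝ)) := by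
  have h1 := b.measurePreserving_repr
  have h2 := PiLp.volume_preserving_ofLp (Fin (m + 1))
  have h3 := volume_preserving_piFinSuccAbove (fun _ : Fin (m + 1) => ℝ) 0
  have h4 := Measure.measurePreserving_swap (μ := (volume : Measure ℝ))
    (ν := (volume : Measure (Fin m → ℝ)))
  have h5 := (PiLp.volume_preserving_toLp (Fin m)).prod (MeasurePreserving.id (volume : Measure ℝ))
  have h3' : MeasurePreserving (MeasurableEquiv.piFinSuccAbove (fun _ : Fin (m + 1) => ℝ) 0)
      (volume : Measure (Fin (m + 1) → ℝ)) ((volume : Measure ℝ).prod (volume : Measure (Fin m → ℝ))) := h3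
  have h := h5.comp (h4.comp (h3'.comp (h2.comp h1)))
  convert h using 1
  funext z
  simp only [capDPsi, Function.comp_apply]
  rfl

/-- The integrand on `ℝ^m × ℝ`, in terms of `ρ = |x'|` and `t`. -/
noncomputable def capDT (m : ℕ) (s ρ t : ℝ) : ℝ≥0∞ :=
  ENNReal.ofReal (capCd (m + 1) * exp (-(ρ ^ 2 + t ^ 2) / 2)) *
    ENNReal.ofReal (max 0 (t - s * √(ρ ^ 2 + t ^ 2)))

lemma measurable_capDT (m : ℕ) (s : ℝ) : Measurable (fun p : ℝ × ℝ => capDT m s p.1 p.2) := by
  unfold capDT
  fun_prop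

lemma capD_tail_split (b : OrthonormalBasis (Fin (m + 1)) ℝ (E (m + 1))) (s : ℝ) :
    ∫⁻ x, ENNReal.ofReal (max 0 ((inner ℝ x (b 0) : ℝ) - s * ‖x‖)) ∂(gam (m + 1))
      = ∫⁻ p : E m × ℝ, capDT m s ‖p.1‖ p.2 ∂((volume : Measure (E m)).prod (volume : Measure ℝ)) := by
  have hm : Measurable (fun x : E (m + 1) =>
      ENNReal.ofReal (max 0 ((inner ℝ x (b 0) : ℝ) - s * ‖x‖))) := by fun_prop
  have hG : Measurable (fun p : E m × ℝ => capDT m s ‖p.1‖ p.2) := by
    unfold capDT
    fun_prop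
  rw [cap_lintegral_density (m + 1) hm, ← (capD_Psi_volume b).lintegral_comp hG]
  refine lintegral_congr fun v => ?_
  have h1 := capD_norm_sq_Psi b v
  have h2 : (capDPsi b v).2 = inner ℝ v (b 0) := by
    simp only [capDPsi]
    rw [b.repr_apply_apply, real_inner_comm]
  have h3 : ‖v‖ = √(‖(capDPsi b v).1‖ ^ 2 + (capDPsi b v).2 ^ 2) := by
    rw [← h1, Real.sqrt_sq (norm_nonneg v)]
  unfold capDens capDT capCd
  rw [← h1, ← h2, Real.sqrt_sq (norm_nonneg v)]

/-- Area of the unit sphere of `ℝ^m`. -/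
noncomputable def capA (m : ℕ) : ℝ := (m : ℝ) * (√π ^ m / Gamma ((m : ℝ) / 2 + 1))

lemma capA_pos (hm : 0 < m) : 0 < capA m := by
  unfold capA
  have h1 : (0:ℝ) < m := by exact_mod_cast hm
  have h2 : 0 < Gamma ((m : ℝ) / 2 + 1) := Real.Gamma_pos_of_pos (by positivity)
  positivity

lemma capD_toSphere_univ (hm : 0 < m) :
    (volume : Measure (E m)).toSphere univ = ENNReal.ofReal (capA m) := by
  haveI : Nonempty (Fin m) := ⟨⟨0, hm⟩⟩
  rw [Measure.toSphere_apply_univ, EuclideanSpace.volume_ball]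
  simp only [finrank_euclideanSpace, Fintype.card_fin, ENNReal.ofReal_one, one_pow, one_mul]
  unfold capA
  rw [ENNReal.ofReal_mul (by positivity)]
  simp

/-- Radial integration in `ℝ^m`. -/
lemma capD_Em_radial (hm : 0 < m) {F : ℝ → ℝ≥0∞} (hF : Measurable F) :
    ∫⁻ x : E m, F ‖x‖
      = ENNReal.ofReal (capA m) * ∫⁻ ρ in Ioi (0:ℝ), ENNReal.ofReal (ρ ^ (m - 1)) * F ρ := by
  have hH : Measurable (fun x : E m => F ‖x‖) := hF.comp measurable_norm
  rw [cap_lintegral_polar (d := m) hm hH]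
  have e : ∀ (s : Metric.sphere (0 : E m) 1) (r : Ioi (0:ℝ)), F ‖(r:ℝ) • (s : E m)‖ = F r := by
    intro s r
    have hr : (0:ℝ) < r := r.2
    have hs : ‖(s : E m)‖ = 1 := by simp
    rw [norm_smul, hs, mul_one, Real.norm_eq_abs, abs_of_pos hr]
  simp_rw [e]
  rw [lintegral_const, cap_lintegral_volumeIoiPow (m - 1) hF]
  rw [mul_comm]
  congr 1
  exact capD_toSphere_univ hm

/-- The half-plane integrand. -/
noncomputable def capDY (m : ℕ) (s : ℝ) (q : ℝ × ℝ) : ℝ≥0∞ :=
  (Ioi (0:ℝ)).indicator (fun ρ => ENNReal.ofReal (ρ ^ (m - 1)) * capDT m s ρ q.2) q.1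

lemma measurable_capDY (m : ℕ) (s : ℝ) : Measurable (capDY m s) := by
  have h : capDY m s = (Ioi (0:ℝ) ×ˢ univ).indicator
      (fun q : ℝ × ℝ => ENNReal.ofReal (q.1 ^ (m - 1)) * capDT m s q.1 q.2) := by
    funext q
    by_cases hq : q.1 ∈ Ioi (0:ℝ)
    · rw [capDY, Set.indicator_of_mem hq, Set.indicator_of_mem (by simp [hq.out] : q ∈ _)]
    · rw [capDY, Set.indicator_of_notMem hq, Set.indicator_of_notMem (by simpa using hq)]
  rw [h]
  refine Measurable.indicator ?_ (measurableSet_Ioi.prod MeasurableSet.univ)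
  exact (by fun_prop : Measurable (fun q : ℝ × ℝ => ENNReal.ofReal (q.1 ^ (m - 1)))).mul
    (measurable_capDT m s)

lemma capD_split_radial (hm : 0 < m) (s : ℝ) :
    ∫⁻ p : E m × ℝ, capDT m s ‖p.1‖ p.2 ∂((volume : Measure (E m)).prod (volume : Measure ℝ))
      = ENNReal.ofReal (capA m) * ∫⁻ q : ℝ × ℝ, capDY m s q := by
  have hG : Measurable (fun p : E m × ℝ => capDT m s ‖p.1‖ p.2) := by
    unfold capDT
    fun_prop
  rw [lintegral_prod _ hG.aemeasurable]
  have hF : Measurable (fun ρ : ℝ => ∫⁻ t, capDT m s ρ t) :=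
    (measurable_capDT m s).lintegral_prod_right'
  rw [capD_Em_radial hm hF, Measure.volume_eq_prod, lintegral_prod _ (measurable_capDY m s).aemeasurable]
  congr 1
  rw [← lintegral_indicator measurableSet_Ioi]
  refine lintegral_congr fun ρ => ?_
  by_cases hρ : ρ ∈ Ioi (0:ℝ)
  · rw [Set.indicator_of_mem hρ]
    have hm : Measurable (fun t : ℝ => capDT m s ρ t) := by
      unfold capDT
      fun_prop
    rw [← lintegral_const_mul _ hm]
    refine lintegral_congr fun t => ?_
    simp only [capDY]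
    rw [Set.indicator_of_mem hρ]
  · rw [Set.indicator_of_notMem hρ]
    simp [capDY, Set.indicator_of_notMem hρ]

/-- The angular integrand. -/
noncomputable def capDB (m : ℕ) (β θ : ℝ) : ℝ≥0∞ :=
  (Ioo β (π / 2)).indicator (fun θ => ENNReal.ofReal (cos θ ^ (m - 1) * (sin θ - sin β))) θ

lemma capD_polar_integrand (hm : 0 < m) {β : ℝ} (h0 : 0 ≤ β) (h1 : β ≤ π / 2) {r θ : ℝ} (hr : 0 < r)
    (hθ1 : -π < θ) (hθ2 : θ < π) :
    ENNReal.ofReal r • capDY m (sin β) (r * cos θ, r * sin θ)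
      = ENNReal.ofReal (r ^ (m + 1) * (capCd (m + 1) * exp (- r ^ 2 / 2))) * capDB m β θ := by
  have hsq : (r * cos θ) ^ 2 + (r * sin θ) ^ 2 = r ^ 2 := by
    have := Real.sin_sq_add_cos_sq θ
    nlinarith [this]
  have hsqrt : √((r * cos θ) ^ 2 + (r * sin θ) ^ 2) = r := by
    rw [hsq, Real.sqrt_sq hr.le]
  have hc : 0 < capCd (m + 1) := capCd_pos (m + 1)
  by_cases hcos : 0 < cos θ
  · -- the angle is in `(-π/2, π/2)`
    have hθ3 : θ < π / 2 := by
      by_contra hcon
      push Not at hcon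
      have := Real.cos_nonpos_of_pi_div_two_le_of_le hcon (by linarith [pi_pos])
      linarith
    have hθ4 : -(π / 2) < θ := by
      by_contra hcon
      push Not at hcon
      have := Real.cos_nonpos_of_pi_div_two_le_of_le (x := -θ) (by linarith) (by linarith [pi_pos])
      rw [Real.cos_neg] at this
      linarith
    have hpos : r * cos θ ∈ Ioi (0:ℝ) := mul_pos hr hcos
    simp only [capDY]
    rw [Set.indicator_of_mem hpos]
    unfold capDT
    rw [hsqrt, hsq]
    by_cases hb : β < θ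
    · have hsin : sin β < sin θ := Real.sin_lt_sin_of_lt_of_le_pi_div_two (by linarith [pi_pos]) hθ3.le hb
      have hmax : max 0 (r * sin θ - sin β * r) = r * (sin θ - sin β) := by
        rw [max_eq_right]
        · ring
        · nlinarith
      rw [hmax]
      simp only [capDB]
      rw [Set.indicator_of_mem (show θ ∈ Ioo β (π / 2) from ⟨hb, hθ3⟩)]
      have hk : 0 ≤ sin θ - sin β := by linarith
      have hrp : r ^ (m + 1) = r * r ^ (m - 1) * r := by
        obtain ⟨n, rfl⟩ : ∃ n, m = n + 1 := ⟨m - 1, by omega⟩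
        simp only [Nat.add_sub_cancel]
        ring
      rw [smul_eq_mul, ← ENNReal.ofReal_mul (by positivity), ← ENNReal.ofReal_mul (by positivity),
        ← ENNReal.ofReal_mul (by positivity), ← ENNReal.ofReal_mul (by positivity)]
      congr 1
      rw [mul_pow, hrp]
      ring
    · push Not at hb
      have hsin : sin θ ≤ sin β := Real.sin_le_sin_of_le_of_le_pi_div_two hθ4.le (by linarith) hb
      have hmax : max 0 (r * sin θ - sin β * r) = 0 := by
        rw [max_eq_left]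
        nlinarith
      rw [hmax]
      simp only [capDB]
      rw [Set.indicator_of_notMem (fun h : θ ∈ Ioo β (π / 2) => absurd h.1 (not_lt.2 hb))]
      simp
  · -- the half plane is not reached
    push Not at hcos
    have hnot : r * cos θ ∉ Ioi (0:ℝ) := by
      simp only [mem_Ioi, not_lt]
      exact mul_nonpos_of_nonneg_of_nonpos hr.le hcos
    have hθS : θ ∉ Ioo β (π / 2) := by
      intro h
      have := Real.cos_pos_of_mem_Ioo (x := θ) ⟨by linarith [h.1, pi_pos], h.2⟩
      linarith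
    simp only [capDY, capDB]
    rw [Set.indicator_of_notMem hnot, Set.indicator_of_notMem hθS]
    simp

/-- The angular integral. -/
noncomputable def capDK (m : ℕ) (β : ℝ) : ℝ :=
  ∫ θ in Ioo β (π / 2), cos θ ^ (m - 1) * (sin θ - sin β)

lemma capD_capB_lintegral (m : ℕ) {β : ℝ} (h0 : 0 ≤ β) (h1 : β ≤ π / 2) :
    ∫⁻ θ in Ioo (-π) π, capDB m β θ = ENNReal.ofReal (capDK m β) ∧ 0 ≤ capDK m β := by
  have hsub : Ioo β (π / 2) ⊆ Ioo (-π) π := by
    intro θ h
    exact ⟨by linarith [h.1, pi_pos], by linarith [h.2, pi_pos]⟩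
  have hnonneg : ∀ θ ∈ Ioo β (π / 2), 0 ≤ cos θ ^ (m - 1) * (sin θ - sin β) := by
    intro θ h
    have : sin β ≤ sin θ := Real.sin_le_sin_of_le_of_le_pi_div_two (by linarith [pi_pos]) h.2.le h.1.le
    have h2 : 0 ≤ sin θ - sin β := by linarith
    have h3 : 0 < cos θ := Real.cos_pos_of_mem_Ioo ⟨by linarith [h.1, pi_pos], h.2⟩
    positivity
  have hint : IntegrableOn (fun θ => cos θ ^ (m - 1) * (sin θ - sin β)) (Ioo β (π / 2)) := by
    have hc : Continuous (fun θ => cos θ ^ (m - 1) * (sin θ - sin β)) := by fun_prop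
    exact (hc.integrableOn_Icc (a := β) (b := π / 2)).mono_set Ioo_subset_Icc_self
  constructor
  · unfold capDB
    rw [lintegral_indicator measurableSet_Ioo, Measure.restrict_restrict measurableSet_Ioo,
      inter_eq_left.2 hsub, capDK,
      ofReal_integral_eq_lintegral_ofReal hint]
    filter_upwards [ae_restrict_mem measurableSet_Ioo] with θ hθ
    exact hnonneg θ hθ
  · exact setIntegral_nonneg measurableSet_Ioo hnonneg

lemma measurable_capDB (m : ℕ) (β : ℝ) : Measurable (capDB m β) := by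
  unfold capDB
  refine Measurable.indicator ?_ measurableSet_Ioo
  fun_prop

lemma capD_capY_lintegral (hm : 0 < m) {β : ℝ} (h0 : 0 ≤ β) (h1 : β ≤ π / 2) :
    ∫⁻ q : ℝ × ℝ, capDY m (sin β) q
      = ENNReal.ofReal (capCd (m + 1) * rM (m + 1)) * ENNReal.ofReal (capDK m β) := by
  rw [← lintegral_comp_polarCoord_symm, polarCoord_target]
  have hset : MeasurableSet (Ioi (0:ℝ) ×ˢ Ioo (-π) π) := measurableSet_Ioi.prod measurableSet_Ioo
  have e1 : ∫⁻ p in Ioi (0:ℝ) ×ˢ Ioo (-π) π, ENNReal.ofReal p.1 • capDY m (sin β) (polarCoord.symm p)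
      = ∫⁻ p in Ioi (0:ℝ) ×ˢ Ioo (-π) π,
          ENNReal.ofReal (p.1 ^ (m + 1) * (capCd (m + 1) * exp (- p.1 ^ 2 / 2))) * capDB m β p.2 := by
    refine setLIntegral_congr_fun hset (fun p hp => ?_)
    rw [polarCoord_symm_apply]
    exact capD_polar_integrand hm h0 h1 hp.1 hp.2.1 hp.2.2
  rw [e1, Measure.volume_eq_prod, ← Measure.prod_restrict,
    lintegral_prod_mul (f := fun r => ENNReal.ofReal (r ^ (m + 1) * (capCd (m + 1) * exp (- r ^ 2 / 2))))
      (g := capDB m β) (by fun_prop) (measurable_capDB m β).aemeasurable,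
    (capD_capB_lintegral m h0 h1).1, capD_radial_lintegral (m + 1) (m + 1)]

/-- The tail integral. -/
theorem capD_tail (hm : 0 < m) (b : OrthonormalBasis (Fin (m + 1)) ℝ (E (m + 1))) {β : ℝ}
    (h0 : 0 ≤ β) (h1 : β ≤ π / 2) :
    ∫ x, max 0 ((inner ℝ x (b 0) : ℝ) - sin β * ‖x‖) ∂(gam (m + 1))
      = capA m * (capCd (m + 1) * rM (m + 1) * capDK m β) := by
  have hmeas : AEStronglyMeasurable (fun x : E (m + 1) => max 0 ((inner ℝ x (b 0) : ℝ) - sin β * ‖x‖))
      (gam (m + 1)) := by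
    apply Continuous.aestronglyMeasurable
    fun_prop
  rw [integral_eq_lintegral_of_nonneg_ae
      (f := fun x : E (m + 1) => max 0 ((inner ℝ x (b 0) : ℝ) - sin β * ‖x‖))
      (Eventually.of_forall fun x => le_max_left _ _) hmeas,
    capD_tail_split, capD_split_radial hm, capD_capY_lintegral hm h0 h1]
  have hK := (capD_capB_lintegral m h0 h1).2
  have hc := capCd_pos (m + 1)
  have hM := rM_pos (m + 1)
  have hA := capA_pos hm
  rw [ENNReal.toReal_mul, ENNReal.toReal_mul, ENNReal.toReal_ofReal (by positivity),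
    ENNReal.toReal_ofReal (by positivity), ENNReal.toReal_ofReal hK]

end Vale.Agent.Lib.P226
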