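import Vale.Agent.Lib.P226.Basic
import Vale.Agent.Lib.P206.Taylor

/-!
Numeric corollaries of the cap inequality: line majorants of the envelope of tangents.
-/

namespace Vale.Agent.Lib.P226

open Vale.Agent.Lib.P206

lemma cap_eval {r a β sl su cu L M : ℝ} (ha0 : 0 ≤ a) (h : CapHyp r a) (hβ0 : 0 ≤ β)
    (hβ : β ≤ Real.pi / 2) (hsl : sl ≤ Real.sin β) (hsu : Real.sin β ≤ su) (hcu : Real.cos β ≤ cu)
    (hsl0 : 0 ≤ sl)
    (hL : cu ^ 3 + (3 / 2) * su * (β + su * cu) - (3 / 4) * (3141592 / 1000000) * sl ≤ L)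
    (hM : (3 / 2) * (3141593 / 1000000) * su ≤ M) : r ≤ L + M * a := by
  have h1 := h β hβ0 hβ
  have hcos0 : 0 ≤ Real.cos β :=
    Real.cos_nonneg_of_mem_Icc ⟨by linarith [Real.pi_pos], hβ⟩
  have hs0 : 0 ≤ Real.sin β := le_trans hsl0 hsl
  have hsu0 : 0 ≤ su := le_trans hs0 hsu
  have hcu0 : 0 ≤ cu := le_trans hcos0 hcu
  have hpi1 := Real.pi_gt_d6
  have hpi2 := Real.pi_lt_d6
  have e1 : Real.cos β ^ 3 ≤ cu ^ 3 := pow_le_pow_left₀ hcos0 hcu 3
  have e2 : Real.sin β * Real.cos β ≤ su * cu := mul_le_mul hsu hcu hcos0 hsu0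
  have e3 : Real.sin β * (β + Real.sin β * Real.cos β) ≤ su * (β + su * cu) :=
    mul_le_mul hsu (by linarith) (by positivity) hsu0
  have e4 : (3 / 4) * (3141592 / 1000000) * sl ≤ (3 / 4) * Real.pi * Real.sin β := by
    have : (3141592 / 1000000 : ℝ) * sl ≤ Real.pi * Real.sin β :=
      mul_le_mul (by norm_num at hpi1 ⊢; linarith) hsl hsl0 Real.pi_pos.le
    linarith
  have e5 : Real.pi * Real.sin β ≤ (3141593 / 1000000) * su :=
    mul_le_mul (by norm_num at hpi2 ⊢; linarith) hsu hs0 (by norm_num)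
  have e6 : (3 / 2) * Real.pi * Real.sin β * a ≤ M * a := by
    apply mul_le_mul_of_nonneg_right _ ha0
    have : (3 / 2) * (Real.pi * Real.sin β) ≤ (3 / 2) * ((3141593 / 1000000) * su) := by linarith
    calc (3 / 2) * Real.pi * Real.sin β = (3 / 2) * (Real.pi * Real.sin β) := by ring
      _ ≤ (3 / 2) * ((3141593 / 1000000) * su) := this
      _ = (3 / 2) * (3141593 / 1000000) * su := by ring
      _ ≤ M := hM
  have e7 : 3 * Real.pi / 2 * Real.sin β * (a - 1 / 2)
      = (3 / 2) * Real.pi * Real.sin β * a - (3 / 4) * Real.pi * Real.sin β := by ring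
  have e8 : (3 / 2) * Real.sin β * (β + Real.sin β * Real.cos β)
      ≤ (3 / 2) * su * (β + su * cu) := by linarith
  rw [e7] at h1
  linarith

lemma sq_line {r a L M a1 a2 c d : ℝ} (hr : 0 ≤ r) (h : r ≤ L + M * a)
    (h1 : a1 ≤ a) (h2 : a ≤ a2)
    (e1 : (L + M * a1) ^ 2 ≤ c + d * a1) (e2 : (L + M * a2) ^ 2 ≤ c + d * a2) :
    r ^ 2 ≤ c + d * a := by
  have hs : r ^ 2 ≤ (L + M * a) ^ 2 := pow_le_pow_left₀ hr h 2
  have hf : (L + M * a) ^ 2 ≤ c + d * a := by
    rcases eq_or_lt_of_le (le_trans h1 h2) with heq | hlt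
    · have : a = a1 := le_antisymm (by rw [heq]; exact h2) h1
      rw [this]; exact e1
    · have hp : 0 < a2 - a1 := sub_pos.mpr hlt
      have key : (a2 - a1) * ((L + M * a) ^ 2 - (c + d * a))
          = (a2 - a) * ((L + M * a1) ^ 2 - (c + d * a1)) + (a - a1) * ((L + M * a2) ^ 2 - (c + d * a2))
            - M ^ 2 * (a2 - a1) * ((a - a1) * (a2 - a)) := by ring
      have t1 : (a2 - a) * ((L + M * a1) ^ 2 - (c + d * a1)) ≤ 0 :=
        mul_nonpos_of_nonneg_of_nonpos (sub_nonneg.mpr h2) (sub_nonpos.mpr e1)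
      have t2 : (a - a1) * ((L + M * a2) ^ 2 - (c + d * a2)) ≤ 0 :=
        mul_nonpos_of_nonneg_of_nonpos (sub_nonneg.mpr h1) (sub_nonpos.mpr e2)
      have t3 : 0 ≤ M ^ 2 * (a2 - a1) * ((a - a1) * (a2 - a)) :=
        mul_nonneg (mul_nonneg (sq_nonneg M) hp.le)
          (mul_nonneg (sub_nonneg.mpr h1) (sub_nonneg.mpr h2))
      have t4 : (a2 - a1) * ((L + M * a) ^ 2 - (c + d * a)) ≤ 0 := by rw [key]; linarith
      have := nonpos_of_mul_nonpos_right t4 hp
      linarith
  exact le_trans hs hf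

lemma row_1700 {r a : ℝ} (ha0 : 0 ≤ a) (h : CapHyp r a) : r ≤ (322103/500000) + (398627/500000) * a :=
  cap_eval (β := (17/100)) (sl := (1691823/10000000)) (su := (105739/625000)) (cu := (1231981/1250000)) ha0 h (by norm_num)
    (by linarith [Real.pi_gt_d6]) (le_trans (by norm_num) (sin_ge_11 (by norm_num))) (le_trans (sin_le_13 (by norm_num)) (by norm_num))
    (le_trans (cos_le_12 (by norm_num)) (by norm_num)) (by norm_num) (by norm_num) (by norm_num)

lemma row_2950 {r a : ℝ} (ha0 : 0 ≤ a) (h : CapHyp r a) : r ≤ (88171/200000) + (8563/6250) * a :=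
  cap_eval (β := (59/200)) (sl := (1453699/5000000)) (su := (2907399/10000000)) (cu := (4784011/5000000)) ha0 h (by norm_num)
    (by linarith [Real.pi_gt_d6]) (le_trans (by norm_num) (sin_ge_11 (by norm_num))) (le_trans (sin_le_13 (by norm_num)) (by norm_num))
    (le_trans (cos_le_12 (by norm_num)) (by norm_num)) (by norm_num) (by norm_num) (by norm_num)

lemma row_3640 {r a : ℝ} (ha0 : 0 ≤ a) (h : CapHyp r a) : r ≤ (174623/500000) + (838841/500000) * a :=
  cap_eval (β := (91/250)) (sl := (3560149/10000000)) (su := (71203/200000)) (cu := (9344803/10000000)) ha0 h (by norm_num)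
    (by linarith [Real.pi_gt_d6]) (le_trans (by norm_num) (sin_ge_11 (by norm_num))) (le_trans (sin_le_13 (by norm_num)) (by norm_num))
    (le_trans (cos_le_12 (by norm_num)) (by norm_num)) (by norm_num) (by norm_num) (by norm_num)

lemma row_3880 {r a : ℝ} (ha0 : 0 ≤ a) (h : CapHyp r a) : r ≤ (320673/1000000) + (445719/250000) * a :=
  cap_eval (β := (97/250)) (sl := (1891689/5000000)) (su := (3783379/10000000)) (cu := (2314169/2500000)) ha0 h (by norm_num)
    (by linarith [Real.pi_gt_d6]) (le_trans (by norm_num) (sin_ge_11 (by norm_num))) (le_trans (sin_le_13 (by norm_num)) (by norm_num))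
    (le_trans (cos_le_12 (by norm_num)) (by norm_num)) (by norm_num) (by norm_num) (by norm_num)

lemma row_4770 {r a : ℝ} (ha0 : 0 ≤ a) (h : CapHyp r a) : r ≤ (228737/1000000) + (432707/200000) * a :=
  cap_eval (β := (477/1000)) (sl := (4591161/10000000)) (su := (2295581/5000000)) (cu := (8883763/10000000)) ha0 h (by norm_num)
    (by linarith [Real.pi_gt_d6]) (le_trans (by norm_num) (sin_ge_11 (by norm_num))) (le_trans (sin_le_13 (by norm_num)) (by norm_num))
    (le_trans (cos_le_12 (by norm_num)) (by norm_num)) (by norm_num) (by norm_num) (by norm_num)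

lemma row_7900 {r a : ℝ} (ha0 : 0 ≤ a) (h : CapHyp r a) : r ≤ (24733/500000) + (1673731/500000) * a :=
  cap_eval (β := (79/100)) (sl := (1775883/2500000)) (su := (7103533/10000000)) (cu := (3519227/5000000)) ha0 h (by norm_num)
    (by linarith [Real.pi_gt_d6]) (le_trans (by norm_num) (sin_ge_11 (by norm_num))) (le_trans (sin_le_13 (by norm_num)) (by norm_num))
    (le_trans (cos_le_12 (by norm_num)) (by norm_num)) (by norm_num) (by norm_num) (by norm_num)

lemma row_8590 {r a : ℝ} (ha0 : 0 ≤ a) (h : CapHyp r a) : r ≤ (31999/1000000) + (1784087/500000) * a :=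
  cap_eval (β := (859/1000)) (sl := (7571897/10000000)) (su := (3785949/5000000)) (cu := (130639/200000)) ha0 h (by norm_num)
    (by linarith [Real.pi_gt_d6]) (le_trans (by norm_num) (sin_ge_11 (by norm_num))) (le_trans (sin_le_13 (by norm_num)) (by norm_num))
    (le_trans (cos_le_12 (by norm_num)) (by norm_num)) (by norm_num) (by norm_num) (by norm_num)

lemma row_8947 {r a : ℝ} (ha0 : 0 ≤ a) (h : CapHyp r a) : r ≤ (3133/125000) + (735153/200000) * a :=
  cap_eval (β := (8947/10000)) (sl := (7800213/10000000)) (su := (3900107/5000000)) (cu := (6257529/10000000)) ha0 h (by norm_num)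
    (by linarith [Real.pi_gt_d6]) (le_trans (by norm_num) (sin_ge_11 (by norm_num))) (le_trans (sin_le_13 (by norm_num)) (by norm_num))
    (le_trans (cos_le_12 (by norm_num)) (by norm_num)) (by norm_num) (by norm_num) (by norm_num)

lemma row_0 {r a : ℝ} (h : CapHyp r a) : r ≤ 1 := by
  have := h 0 le_rfl (by positivity)
  simpa using this

/-- Line majorant valid everywhere: `r^2 ≤ 0.42 + 1.3 a`. -/
theorem cap_line1 {r a : ℝ} (hr : 0 ≤ r) (ha0 : 0 ≤ a) (ha1 : a ≤ 1) (h : CapHyp r a) :
    r ^ 2 ≤ 21 / 50 + (13 / 10) * a := by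
  have hz : (0:ℝ) ≤ a := ha0
  rcases le_total a (893/2000) with h0 | h0
  · exact sq_line (L := (322103/500000)) (M := (398627/500000)) (a1 := (0/1)) (a2 := (893/2000)) hr (row_1700 ha0 h) (by linarith) (by linarith) (by norm_num) (by norm_num)
  exact sq_line (L := (1/1)) (M := (0/1)) (a1 := (893/2000)) (a2 := (1/1)) hr (by simpa using row_0 h) (by linarith) (by linarith) (by norm_num) (by norm_num)

/-- Single tangent for small cells: `r ≤ 0.0495 + 3.35 a`. -/
theorem cap_line2 {r a : ℝ} (hr : 0 ≤ r) (ha0 : 0 ≤ a) (ha1 : a ≤ 1) (h : CapHyp r a) :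
    r ≤ 99 / 2000 + (67 / 20) * a := by
  have h1 := row_7900 ha0 h
  have h2 : (1673731/500000 : ℝ) * a ≤ (67 / 20) * a := mul_le_mul_of_nonneg_right (by norm_num) ha0
  have h3 : (24733/500000 : ℝ) ≤ 99 / 2000 := by norm_num
  linarith

/-- Line majorant for cells with `r^2 ≥ 0.06`: `r^2 ≤ -0.1055 + 2.7746 a`. -/
theorem cap_line3 {r a : ℝ} (hr : 0 ≤ r) (ha0 : 0 ≤ a) (ha1 : a ≤ 1) (h : CapHyp r a)
    (hr2 : 3 / 50 ≤ r ^ 2) :
    r ^ 2 ≤ -(211 / 2000) + (13873 / 5000) * a := by
  have hrlow : (2449 / 10000 : ℝ) ≤ r := by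
    by_contra hcon
    have hcon' := not_le.mp hcon
    nlinarith
  have h0 := row_8947 ha0 h
  have hz : (299/5000) ≤ a := by
    by_contra hcon
    have hcon' := not_le.mp hcon
    have : (735153/200000 : ℝ) * a ≤ (735153/200000 : ℝ) * (299/5000) := mul_le_mul_of_nonneg_left hcon'.le (by norm_num)
    linarith
  rcases le_total a (701/5000) with h0 | h0
  · exact sq_line (L := (31999/1000000)) (M := (1784087/500000)) (a1 := (299/5000)) (a2 := (701/5000)) hr (row_8590 ha0 h) (by linarith) (by linarith) (by norm_num) (by norm_num)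
  rcases le_total a (483/2000) with h1 | h1
  · exact sq_line (L := (228737/1000000)) (M := (432707/200000)) (a1 := (701/5000)) (a2 := (483/2000)) hr (row_4770 ha0 h) (by linarith) (by linarith) (by norm_num) (by norm_num)
  rcases le_total a (2717/10000) with h2 | h2
  · exact sq_line (L := (320673/1000000)) (M := (445719/250000)) (a1 := (483/2000)) (a2 := (2717/10000)) hr (row_3880 ha0 h) (by linarith) (by linarith) (by norm_num) (by norm_num)
  rcases le_total a (149/500) with h3 | h3
  · exact sq_line (L := (174623/500000)) (M := (838841/500000)) (a1 := (2717/10000)) (a2 := (149/500)) hr (row_3640 ha0 h) (by linarith) (by linarith) (by norm_num) (by norm_num)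
  rcases le_total a (5367/10000) with h4 | h4
  · exact sq_line (L := (88171/200000)) (M := (8563/6250)) (a1 := (149/500)) (a2 := (5367/10000)) hr (row_2950 ha0 h) (by linarith) (by linarith) (by norm_num) (by norm_num)
  exact sq_line (L := (1/1)) (M := (0/1)) (a1 := (5367/10000)) (a2 := (1/1)) hr (by simpa using row_0 h) (by linarith) (by linarith) (by norm_num) (by norm_num)

end Vale.Agent.Lib.P226
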