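import Vale.Agent.Lib.P226.CapCone

/-!
The tail integral in `ℝ^4`: `√(2π) E(⟪x,u⟫ - s|x|)_+` for `s = sin β`.
-/

open MeasureTheory ProbabilityTheory Real Set Filter
open scoped ENNReal

namespace Vale.Agent.Lib.P226

/-- Coordinates adapted to an orthonormal basis: the first basis vector goes to the line. -/
noncomputable def capPsi (b : OrthonormalBasis (Fin 4) ℝ (E 4)) (z : E 4) : E 3 × ℝ :=
  (WithLp.toLp 2 (fun i : Fin 3 => b.repr z i.succ), b.repr z 0)

lemma cap_norm_sq_Psi (b : OrthonormalBasis (Fin 4) ℝ (E 4)) (z : E 4) :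
    ‖z‖ ^ 2 = ‖(capPsi b z).1‖ ^ 2 + (capPsi b z).2 ^ 2 := by
  have h1 : ‖z‖ = ‖b.repr z‖ := (b.repr.norm_map z).symm
  rw [h1, EuclideanSpace.norm_sq_eq, Fin.sum_univ_succ]
  simp only [capPsi]
  rw [EuclideanSpace.norm_sq_eq]
  simp only [Real.norm_eq_abs, sq_abs]
  ring

lemma cap_Psi_volume (b : OrthonormalBasis (Fin 4) ℝ (E 4)) :
    MeasurePreserving (capPsi b) volume ((volume : Measure (E 3)).prod (volume : Measure ℝ)) := by
  have h1 := b.measurePreserving_repr
  have h2 := PiLp.volume_preserving_ofLp (Fin 4)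
  have h3 := volume_preserving_piFinSuccAbove (fun _ : Fin 4 => ℝ) 0
  have h4 := Measure.measurePreserving_swap (μ := (volume : Measure ℝ))
    (ν := (volume : Measure (Fin 3 → ℝ)))
  have h5 := (PiLp.volume_preserving_toLp (Fin 3)).prod (MeasurePreserving.id (volume : Measure ℝ))
  have h3' : MeasurePreserving (MeasurableEquiv.piFinSuccAbove (fun _ : Fin 4 => ℝ) 0)
      (volume : Measure (Fin 4 → ℝ)) ((volume : Measure ℝ).prod (volume : Measure (Fin 3 → ℝ))) := h3
  have h := h5.comp (h4.comp (h3'.comp (h2.comp h1)))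
  convert h using 1
  funext z
  simp only [capPsi, Function.comp_apply]
  rfl

/-- The integrand on `ℝ^3 × ℝ`, in terms of `ρ = |x'|` and `t`. -/
noncomputable def capT (s ρ t : ℝ) : ℝ≥0∞ :=
  ENNReal.ofReal (capC * exp (-(ρ ^ 2 + t ^ 2) / 2)) *
    ENNReal.ofReal (max 0 (t - s * √(ρ ^ 2 + t ^ 2)))

lemma measurable_capT (s : ℝ) : Measurable (fun p : ℝ × ℝ => capT s p.1 p.2) := by
  unfold capT
  fun_prop

lemma cap_tail_split (b : OrthonormalBasis (Fin 4) ℝ (E 4)) (s : ℝ) :
    ∫⁻ x, ENNReal.ofReal (max 0 ((inner ℝ x (b 0) : ℝ) - s * ‖x‖)) ∂(gam 4)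
      = ∫⁻ p : E 3 × ℝ, capT s ‖p.1‖ p.2 ∂((volume : Measure (E 3)).prod (volume : Measure ℝ)) := by
  have hm : Measurable (fun x : E 4 =>
      ENNReal.ofReal (max 0 ((inner ℝ x (b 0) : ℝ) - s * ‖x‖))) := by fun_prop
  have hG : Measurable (fun p : E 3 × ℝ => capT s ‖p.1‖ p.2) := by
    unfold capT
    fun_prop
  rw [cap_lintegral_density 4 hm, ← (cap_Psi_volume b).lintegral_comp hG]
  refine lintegral_congr fun v => ?_
  have h1 := cap_norm_sq_Psi b v
  have h2 : (capPsi b v).2 = inner ℝ v (b 0) := by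
    simp only [capPsi]
    rw [b.repr_apply_apply, real_inner_comm]
  have h3 : ‖v‖ = √(‖(capPsi b v).1‖ ^ 2 + (capPsi b v).2 ^ 2) := by
    rw [← h1, Real.sqrt_sq (norm_nonneg v)]
  unfold capDens capT capC
  rw [← h1, ← h2, Real.sqrt_sq (norm_nonneg v)]

/-- Radial integration in `ℝ^3`. -/
lemma cap_E3_radial {F : ℝ → ℝ≥0∞} (hF : Measurable F) :
    ∫⁻ x : E 3, F ‖x‖ = ENNReal.ofReal (4 * π) * ∫⁻ ρ in Ioi (0:ℝ), ENNReal.ofReal (ρ ^ 2) * F ρ := by
  have hH : Measurable (fun x : E 3 => F ‖x‖) := hF.comp measurable_norm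
  rw [cap_lintegral_polar (d := 3) (by norm_num) hH]
  have e : ∀ (s : Metric.sphere (0 : E 3) 1) (r : Ioi (0:ℝ)), F ‖(r:ℝ) • (s : E 3)‖ = F r := by
    intro s r
    have hr : (0:ℝ) < r := r.2
    have hs : ‖(s : E 3)‖ = 1 := by simp
    rw [norm_smul, hs, mul_one, Real.norm_eq_abs, abs_of_pos hr]
  simp_rw [e]
  rw [lintegral_const, cap_lintegral_volumeIoiPow 2 hF]
  rw [mul_comm]
  congr 1
  rw [Measure.toSphere_apply_univ, EuclideanSpace.volume_ball_fin_three]
  simp only [finrank_euclideanSpace_fin, Nat.cast_ofNat]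
  simp only [ENNReal.ofReal_one, one_pow, one_mul]
  rw [show (3 : ℝ≥0∞) = ENNReal.ofReal 3 by simp, ← ENNReal.ofReal_mul (by norm_num)]
  congr 1
  ring

/-- The half-plane integrand. -/
noncomputable def capY (s : ℝ) (q : ℝ × ℝ) : ℝ≥0∞ :=
  (Ioi (0:ℝ)).indicator (fun ρ => ENNReal.ofReal (ρ ^ 2) * capT s ρ q.2) q.1

lemma measurable_capY (s : ℝ) : Measurable (capY s) := by
  have h : capY s = (Ioi (0:ℝ) ×ˢ univ).indicator
      (fun q : ℝ × ℝ => ENNReal.ofReal (q.1 ^ 2) * capT s q.1 q.2) := by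
    funext q
    by_cases hq : q.1 ∈ Ioi (0:ℝ)
    · rw [capY, Set.indicator_of_mem hq, Set.indicator_of_mem (by simp [hq.out] : q ∈ _)]
    · rw [capY, Set.indicator_of_notMem hq, Set.indicator_of_notMem (by simpa using hq)]
  rw [h]
  refine Measurable.indicator ?_ (measurableSet_Ioi.prod MeasurableSet.univ)
  exact (by fun_prop : Measurable (fun q : ℝ × ℝ => ENNReal.ofReal (q.1 ^ 2))).mul (measurable_capT s)

lemma cap_split_radial (s : ℝ) :
    ∫⁻ p : E 3 × ℝ, capT s ‖p.1‖ p.2 ∂((volume : Measure (E 3)).prod (volume : Measure ℝ))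
      = ENNReal.ofReal (4 * π) * ∫⁻ q : ℝ × ℝ, capY s q := by
  have hG : Measurable (fun p : E 3 × ℝ => capT s ‖p.1‖ p.2) := by
    unfold capT
    fun_prop
  rw [lintegral_prod _ hG.aemeasurable]
  have hF : Measurable (fun ρ : ℝ => ∫⁻ t, capT s ρ t) :=
    (measurable_capT s).lintegral_prod_right'
  rw [cap_E3_radial hF, Measure.volume_eq_prod, lintegral_prod _ (measurable_capY s).aemeasurable]
  congr 1
  rw [← lintegral_indicator measurableSet_Ioi]
  refine lintegral_congr fun ρ => ?_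
  by_cases hρ : ρ ∈ Ioi (0:ℝ)
  · rw [Set.indicator_of_mem hρ]
    have hm : Measurable (fun t : ℝ => capT s ρ t) := by
      unfold capT
      fun_prop
    rw [← lintegral_const_mul _ hm]
    refine lintegral_congr fun t => ?_
    simp only [capY]
    rw [Set.indicator_of_mem hρ]
  · rw [Set.indicator_of_notMem hρ]
    simp [capY, Set.indicator_of_notMem hρ]

/-- The angular integrand. -/
noncomputable def capB (β θ : ℝ) : ℝ≥0∞ :=
  (Ioo β (π / 2)).indicator (fun θ => ENNReal.ofReal (cos θ ^ 2 * (sin θ - sin β))) θ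

lemma cap_polar_integrand {β : ℝ} (h0 : 0 ≤ β) (h1 : β ≤ π / 2) {r θ : ℝ} (hr : 0 < r)
    (hθ1 : -π < θ) (hθ2 : θ < π) :
    ENNReal.ofReal r • capY (sin β) (r * cos θ, r * sin θ)
      = ENNReal.ofReal (r ^ 4 * (capC * exp (- r ^ 2 / 2))) * capB β θ := by
  have hsq : (r * cos θ) ^ 2 + (r * sin θ) ^ 2 = r ^ 2 := by
    have := Real.sin_sq_add_cos_sq θ
    nlinarith [this]
  have hsqrt : √((r * cos θ) ^ 2 + (r * sin θ) ^ 2) = r := by
    rw [hsq, Real.sqrt_sq hr.le]
  have hc : 0 < capC := capC_pos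
  by_cases hcos : 0 < cos θ
  · -- the angle is in `(-π/2, π/2)`
    have hθ3 : θ < π / 2 := by
      by_contra hcon
      push Not at hcon
      have := Real.cos_nonpos_of_pi_div_two_le_of_le hcon (by linarith [pi_pos])
      linarith
    have hθ4 : -(π / 2) < θ := by
      by_contra hcon
      push Not at hcon
      have := Real.cos_nonpos_of_pi_div_two_le_of_le (x := -θ) (by linarith) (by linarith [pi_pos])
      rw [Real.cos_neg] at this
      linarith
    have hpos : r * cos θ ∈ Ioi (0:ℝ) := mul_pos hr hcos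
    simp only [capY]
    rw [Set.indicator_of_mem hpos]
    unfold capT
    rw [hsqrt, hsq]
    by_cases hb : β < θ
    · have hsin : sin β < sin θ := Real.sin_lt_sin_of_lt_of_le_pi_div_two (by linarith [pi_pos]) hθ3.le hb
      have hmax : max 0 (r * sin θ - sin β * r) = r * (sin θ - sin β) := by
        rw [max_eq_right]
        · ring
        · nlinarith
      rw [hmax]
      simp only [capB]
      rw [Set.indicator_of_mem (show θ ∈ Ioo β (π / 2) from ⟨hb, hθ3⟩)]
      have hk : 0 ≤ sin θ - sin β := by linarith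
      rw [smul_eq_mul, ← ENNReal.ofReal_mul (by positivity), ← ENNReal.ofReal_mul (by positivity),
        ← ENNReal.ofReal_mul (by positivity), ← ENNReal.ofReal_mul (by positivity)]
      congr 1
      ring
    · push Not at hb
      have hsin : sin θ ≤ sin β := Real.sin_le_sin_of_le_of_le_pi_div_two hθ4.le (by linarith) hb
      have hmax : max 0 (r * sin θ - sin β * r) = 0 := by
        rw [max_eq_left]
        nlinarith
      rw [hmax]
      simp only [capB]
      rw [Set.indicator_of_notMem (fun h : θ ∈ Ioo β (π / 2) => absurd h.1 (not_lt.2 hb))]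
      simp
  · -- the half plane is not reached
    push Not at hcos
    have hnot : r * cos θ ∉ Ioi (0:ℝ) := by
      simp only [mem_Ioi, not_lt]
      exact mul_nonpos_of_nonneg_of_nonpos hr.le hcos
    have hθS : θ ∉ Ioo β (π / 2) := by
      intro h
      have := Real.cos_pos_of_mem_Ioo (x := θ) ⟨by linarith [h.1, pi_pos], h.2⟩
      linarith
    simp only [capY, capB]
    rw [Set.indicator_of_notMem hnot, Set.indicator_of_notMem hθS]
    simp

/-- The angular integral. -/
noncomputable def capK (β : ℝ) : ℝ :=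
  cos β ^ 3 / 3 + sin β * (β + sin β * cos β) / 2 - sin β * π / 4

lemma cap_angular_integral (β : ℝ) (h1 : β ≤ π / 2) :
    ∫ θ in Ioo β (π / 2), cos θ ^ 2 * (sin θ - sin β) = capK β := by
  rw [integral_Ioc_eq_integral_Ioo.symm, ← intervalIntegral.integral_of_le h1]
  have hd : ∀ θ ∈ uIcc β (π / 2), HasDerivAt
      (fun θ => -(cos θ ^ 3 / 3) - sin β * (θ + sin θ * cos θ) / 2)
      (cos θ ^ 2 * (sin θ - sin β)) θ := by
    intro θ _
    have h1 := Real.hasDerivAt_cos θ
    have h2 := Real.hasDerivAt_sin θ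
    have h3 := ((h1.fun_pow 3).div_const 3).fun_neg
    have h4 := (((hasDerivAt_id' θ).fun_add (h2.fun_mul h1)).const_mul (sin β)).div_const 2
    refine (h3.fun_sub h4).congr_deriv ?_
    have e : sin θ ^ 2 = 1 - cos θ ^ 2 := by linarith [Real.sin_sq_add_cos_sq θ]
    have e2 : sin θ * -sin θ = -(sin θ ^ 2) := by ring
    rw [e2, e]
    norm_num
    ring
  rw [intervalIntegral.integral_eq_sub_of_hasDerivAt hd]
  · simp only [cos_pi_div_two, sin_pi_div_two, capK]
    ring
  · apply Continuous.intervalIntegrable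
    fun_prop

lemma cap_capB_lintegral {β : ℝ} (h0 : 0 ≤ β) (h1 : β ≤ π / 2) :
    ∫⁻ θ in Ioo (-π) π, capB β θ = ENNReal.ofReal (capK β) ∧ 0 ≤ capK β := by
  have hsub : Ioo β (π / 2) ⊆ Ioo (-π) π := by
    intro θ h
    exact ⟨by linarith [h.1, pi_pos], by linarith [h.2, pi_pos]⟩
  have hnonneg : ∀ θ ∈ Ioo β (π / 2), 0 ≤ cos θ ^ 2 * (sin θ - sin β) := by
    intro θ h
    have : sin β ≤ sin θ := Real.sin_le_sin_of_le_of_le_pi_div_two (by linarith [pi_pos]) h.2.le h.1.le
    have h2 : 0 ≤ sin θ - sin β := by linarith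
    positivity
  have hint : IntegrableOn (fun θ => cos θ ^ 2 * (sin θ - sin β)) (Ioo β (π / 2)) := by
    have hc : Continuous (fun θ => cos θ ^ 2 * (sin θ - sin β)) := by fun_prop
    exact (hc.integrableOn_Icc (a := β) (b := π / 2)).mono_set Ioo_subset_Icc_self
  constructor
  · unfold capB
    rw [lintegral_indicator measurableSet_Ioo, Measure.restrict_restrict measurableSet_Ioo,
      inter_eq_left.2 hsub, ← cap_angular_integral β h1,
      ofReal_integral_eq_lintegral_ofReal hint]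
    filter_upwards [ae_restrict_mem measurableSet_Ioo] with θ hθ
    exact hnonneg θ hθ
  · rw [← cap_angular_integral β h1]
    exact setIntegral_nonneg measurableSet_Ioo hnonneg

lemma measurable_capB (β : ℝ) : Measurable (capB β) := by
  unfold capB
  refine Measurable.indicator ?_ measurableSet_Ioo
  fun_prop

lemma cap_capY_lintegral {β : ℝ} (h0 : 0 ≤ β) (h1 : β ≤ π / 2) :
    ∫⁻ q : ℝ × ℝ, capY (sin β) q = ENNReal.ofReal (capC * (3 * √(π / 2))) * ENNReal.ofReal (capK β) := by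
  rw [← lintegral_comp_polarCoord_symm, polarCoord_target]
  have hset : MeasurableSet (Ioi (0:ℝ) ×ˢ Ioo (-π) π) := measurableSet_Ioi.prod measurableSet_Ioo
  have e1 : ∫⁻ p in Ioi (0:ℝ) ×ˢ Ioo (-π) π, ENNReal.ofReal p.1 • capY (sin β) (polarCoord.symm p)
      = ∫⁻ p in Ioi (0:ℝ) ×ˢ Ioo (-π) π, ENNReal.ofReal (p.1 ^ 4 * (capC * exp (- p.1 ^ 2 / 2))) * capB β p.2 := by
    refine setLIntegral_congr_fun hset (fun p hp => ?_)
    rw [polarCoord_symm_apply]
    exact cap_polar_integrand h0 h1 hp.1 hp.2.1 hp.2.2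
  rw [e1, Measure.volume_eq_prod, ← Measure.prod_restrict,
    lintegral_prod_mul (f := fun r => ENNReal.ofReal (r ^ 4 * (capC * exp (- r ^ 2 / 2))))
      (g := capB β) (by fun_prop) (measurable_capB β).aemeasurable,
    (cap_capB_lintegral h0 h1).1, cap_radial_lintegral 4, cap_radial_four]

/-- The tail integral. -/
theorem cap_tail (b : OrthonormalBasis (Fin 4) ℝ (E 4)) {β : ℝ} (h0 : 0 ≤ β) (h1 : β ≤ π / 2) :
    √(2 * π) * ∫ x, max 0 ((inner ℝ x (b 0) : ℝ) - sin β * ‖x‖) ∂(gam 4) = 3 * capK β := by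
  have hmeas : AEStronglyMeasurable (fun x : E 4 => max 0 ((inner ℝ x (b 0) : ℝ) - sin β * ‖x‖)) (gam 4) := by
    apply Continuous.aestronglyMeasurable
    fun_prop
  rw [integral_eq_lintegral_of_nonneg_ae
      (f := fun x : E 4 => max 0 ((inner ℝ x (b 0) : ℝ) - sin β * ‖x‖))
      (Eventually.of_forall fun x => le_max_left _ _) hmeas,
    cap_tail_split, cap_split_radial, cap_capY_lintegral h0 h1]
  have hK := (cap_capB_lintegral h0 h1).2
  have hc : 0 < capC := capC_pos
  rw [ENNReal.toReal_mul, ENNReal.toReal_mul, ENNReal.toReal_ofReal (by positivity),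
    ENNReal.toReal_ofReal (by positivity), ENNReal.toReal_ofReal hK]
  have e1 : √(2 * π) * √(π / 2) = π := by
    rw [← Real.sqrt_mul (by positivity)]
    rw [show 2 * π * (π / 2) = π ^ 2 by ring, Real.sqrt_sq pi_pos.le]
  have e2 : capC = 1 / (4 * π ^ 2) := by
    unfold capC
    rw [inv_pow, show (4:ℕ) = 2 * 2 by norm_num, pow_mul, Real.sq_sqrt (by positivity)]
    ring
  rw [e2]
  have hpi : π ≠ 0 := pi_ne_zero
  calc √(2 * π) * (4 * π * (1 / (4 * π ^ 2) * (3 * √(π / 2)) * capK β))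
      = (√(2 * π) * √(π / 2)) * (3 * capK β / π) := by
        field_simp
    _ = 3 * capK β := by
        rw [e1]
        field_simp

end Vale.Agent.Lib.P226
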