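import Mathlib

/-!
Definitions for the Gaussian propeller problem (P226): the standard Gaussian measure on
`EuclideanSpace`, Gaussian first moments of sets, measurable partitions, and the statement that
every partition into `k` cells satisfies the propeller bound `9 / (8 π)`.
-/

open MeasureTheory ProbabilityTheory

namespace Vale.Agent.Lib.P226

/-- Euclidean space `ℝ^d`. -/
abbrev E (d : ℕ) := EuclideanSpace ℝ (Fin d)

/-- The standard Gaussian probability measure on `ℝ^d`. -/
noncomputable abbrev gam (d : ℕ) : Measure (E d) := stdGaussian (E d)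

/-- The (unnormalized) Gaussian first moment `z(A) = ∫_A x dγ_d(x)` of a set. -/
noncomputable def mom {d : ℕ} (A : Set (E d)) : E d := ∫ x in A, x ∂(gam d)

/-- The functional `F(A_1,...,A_k) = ∑ |z(A_i)|^2`. -/
noncomputable def FF {d k : ℕ} (A : Fin k → Set (E d)) : ℝ := ∑ i, ‖mom (A i)‖ ^ 2

/-- A measurable partition of `ℝ^d` into `k` cells (cells may be empty). -/
structure IsPart {d k : ℕ} (A : Fin k → Set (E d)) : Prop where
  meas : ∀ i, MeasurableSet (A i)
  disj : Pairwise (Function.onFun Disjoint A)
  cover : ⋃ i, A i = Set.univ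

/-- The propeller inequality for partitions into `k` cells, in every dimension. -/
def PartitionBound (k : ℕ) : Prop :=
  ∀ (d : ℕ) (A : Fin k → Set (E d)), IsPart A → FF A ≤ 9 / (8 * Real.pi)

end Vale.Agent.Lib.P226
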