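import Vale.Agent.Lib.P226.Gauss

/-!
The deletion identity for the width functional.
-/

open MeasureTheory ProbabilityTheory

namespace Vale.Agent.Lib.P226

variable {d : ℕ}

theorem integral_inner_gam (u : E d) : ∫ x, (inner ℝ x u : ℝ) ∂(gam d) = 0 := by
  have h := inner_mom (d := d) Set.univ u
  simp only [Measure.restrict_univ] at h
  rw [← h, mom]
  simp

theorem mx_succ_eq (y : Fin 5 → E d) (x : E d) :
    mx y x = max (inner ℝ x (y 0)) (mx (fun j : Fin 4 => y j.succ) x) := by
  apply le_antisymm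
  · apply Finset.sup'_le
    intro i _
    refine Fin.cases ?_ (fun j => ?_) i
    · exact le_max_left _ _
    · exact le_max_of_le_right (inner_le_mx (fun j : Fin 4 => y j.succ) x j)
  · apply max_le (inner_le_mx y x 0)
    apply Finset.sup'_le
    intro j _
    exact inner_le_mx y x j.succ

theorem mx_shift (y : Fin 5 → E d) (x : E d) :
    mx (fun j : Fin 4 => y j.succ + (1 / 4 : ℝ) • y 0) x
      = mx (fun j : Fin 4 => y j.succ) x + (1 / 4) * inner ℝ x (y 0) := by
  apply le_antisymm
  · apply Finset.sup'_le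
    intro j _
    rw [inner_add_right, real_inner_smul_right]
    have := inner_le_mx (fun j : Fin 4 => y j.succ) x j
    linarith
  · obtain ⟨j, hj⟩ := exists_eq_mx (fun j : Fin 4 => y j.succ) x
    rw [← hj]
    have := inner_le_mx (fun j : Fin 4 => y j.succ + (1 / 4 : ℝ) • y 0) x j
    rw [inner_add_right, real_inner_smul_right] at this
    exact this

theorem integrable_pos_part (y : Fin 5 → E d) :
    Integrable (fun x => max 0 (inner ℝ x (y 0) - mx (fun j : Fin 4 => y j.succ) x)) (gam d) := by
  have h := (integrable_inner_gam (y 0)).sub (integrable_mx (fun j : Fin 4 => y j.succ))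
  have h2 := h.pos_part
  refine h2.congr (Filter.Eventually.of_forall fun x => ?_)
  simp [max_comm, Pi.sub_apply]

theorem W_deletion (y : Fin 5 → E d) :
    W y = W (fun j : Fin 4 => y j.succ + (1 / 4 : ℝ) • y 0) + GG y := by
  unfold W GG
  rw [← mul_add]
  congr 1
  have h1 : ∀ x : E d, mx y x = mx (fun j : Fin 4 => y j.succ) x
      + max 0 (inner ℝ x (y 0) - mx (fun j : Fin 4 => y j.succ) x) := by
    intro x
    rw [mx_succ_eq]
    rcases le_total (inner ℝ x (y 0) : ℝ) (mx (fun j : Fin 4 => y j.succ) x) with h | h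
    · rw [max_eq_right h, max_eq_left (by linarith)]
      ring
    · rw [max_eq_left h, max_eq_right (by linarith)]
      ring
  simp_rw [h1, mx_shift]
  rw [integral_add (integrable_mx _) (integrable_pos_part y),
    integral_add (integrable_mx _) ((integrable_inner_gam (y 0)).const_mul _),
    integral_const_mul, integral_inner_gam]
  ring

theorem sum_succ_eq (y : Fin 5 → E d) (h : ∑ i, y i = 0) : ∑ j : Fin 4, y j.succ = -y 0 := by
  rw [Fin.sum_univ_succ] at h
  exact eq_neg_of_add_eq_zero_right h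

theorem TT_deletion (y : Fin 5 → E d) (h : ∑ i, y i = 0) :
    TT (fun j : Fin 4 => y j.succ + (1 / 4 : ℝ) • y 0) = TT y - (5 / 4) * ‖y 0‖ ^ 2 := by
  have hs := sum_succ_eq y h
  have h1 : ∀ j : Fin 4, ‖y j.succ + (1 / 4 : ℝ) • y 0‖ ^ 2 =
      ‖y j.succ‖ ^ 2 + (1 / 2) * inner ℝ (y j.succ) (y 0) + (1 / 16) * ‖y 0‖ ^ 2 := by
    intro j
    rw [@norm_add_sq_real, real_inner_smul_right, norm_smul, mul_pow]
    norm_num
    ring
  simp only [TT]
  simp_rw [h1]
  rw [Fin.sum_univ_succ (fun i => ‖y i‖ ^ 2), Finset.sum_add_distrib, Finset.sum_add_distrib,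
    ← Finset.mul_sum, ← sum_inner, hs, inner_neg_left, real_inner_self_eq_norm_sq]
  simp
  ring

theorem sum_deletion (y : Fin 5 → E d) (h : ∑ i, y i = 0) :
    ∑ j : Fin 4, (y j.succ + (1 / 4 : ℝ) • y 0) = 0 := by
  rw [Finset.sum_add_distrib, sum_succ_eq y h]
  simp only [Finset.sum_const, Finset.card_univ, Fintype.card_fin]
  rw [← Nat.cast_smul_eq_nsmul ℝ, smul_smul]
  norm_num

/-- Integrability of the tent function. -/
theorem integrable_tent (v1 v2 v3 v4 : E d) :
    Integrable (fun x : E d => max 0 (min (inner ℝ x v1) (min (inner ℝ x v2)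
          (min (inner ℝ x v3) (inner ℝ x v4))))) (gam d) := by
  refine Integrable.mono' (g := fun x : E d => |(inner ℝ x v1 : ℝ)|)
    (integrable_inner_gam v1).abs ?_ ?_
  · exact Continuous.aestronglyMeasurable (by fun_prop)
  · refine Filter.Eventually.of_forall (fun x => ?_)
    have hm : min (inner ℝ x v1 : ℝ) (min (inner ℝ x v2) (min (inner ℝ x v3) (inner ℝ x v4)))
        ≤ |(inner ℝ x v1 : ℝ)| := le_trans (min_le_left _ _) (le_abs_self _)
    rw [Real.norm_eq_abs, abs_of_nonneg (le_max_left _ _)]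
    exact max_le (abs_nonneg _) hm

/-- `GG` is bounded by any tent integral. -/
theorem GG_le (y : Fin 5 → E d) (a b c e : Fin 4) :
    GG y ≤ Real.sqrt (2 * Real.pi) * ∫ x : E d,
        max 0 (min (inner ℝ x (y 0 - y a.succ)) (min (inner ℝ x (y 0 - y b.succ))
          (min (inner ℝ x (y 0 - y c.succ)) (inner ℝ x (y 0 - y e.succ))))) ∂(gam d) := by
  unfold GG
  apply mul_le_mul_of_nonneg_left _ (Real.sqrt_nonneg _)
  refine integral_mono (integrable_pos_part y) (integrable_tent _ _ _ _) (fun x => ?_)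
  have hle : ∀ j : Fin 4, (inner ℝ x (y 0) : ℝ) - mx (fun j : Fin 4 => y j.succ) x
      ≤ inner ℝ x (y 0 - y j.succ) := by
    intro j
    rw [inner_sub_right]
    have := inner_le_mx (fun j : Fin 4 => y j.succ) x j
    linarith
  apply max_le_max le_rfl
  exact le_min (hle a) (le_min (hle b) (le_min (hle c) (hle e)))

end Vale.Agent.Lib.P226
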