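import Vale.Agent.Lib.P226.Law

/-!
Elementary facts on partitions and the width functional `W`.
-/

open MeasureTheory ProbabilityTheory

namespace Vale.Agent.Lib.P226

variable {d k : ℕ}

theorem integrable_id_gam : Integrable (fun x : E d => x) (gam d) :=
  IsGaussian.integrable_id

theorem integrable_inner_gam (u : E d) : Integrable (fun x : E d => (inner ℝ x u : ℝ)) (gam d) := by
  have := (innerSL ℝ u).integrable_comp (integrable_id_gam (d := d))
  simpa [real_inner_comm] using this

theorem continuous_mx [NeZero k] (y : Fin k → E d) : Continuous (mx y) := by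
  unfold mx
  have : (fun x : E d => Finset.univ.sup' Finset.univ_nonempty (fun i => (inner ℝ x (y i) : ℝ)))
      = Finset.univ.sup' Finset.univ_nonempty (fun (i : Fin k) (x : E d) => (inner ℝ x (y i) : ℝ)) := by
    ext x
    simp [Finset.sup'_apply]
  rw [this]
  exact Continuous.finset_sup' _ (fun i _ => by fun_prop)

theorem inner_le_mx [NeZero k] (y : Fin k → E d) (x : E d) (i : Fin k) :
    (inner ℝ x (y i) : ℝ) ≤ mx y x :=
  Finset.le_sup' (fun i => (inner ℝ x (y i) : ℝ)) (Finset.mem_univ i)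

theorem exists_eq_mx [NeZero k] (y : Fin k → E d) (x : E d) : ∃ i, (inner ℝ x (y i) : ℝ) = mx y x := by
  obtain ⟨i, -, hi⟩ := Finset.exists_mem_eq_sup' Finset.univ_nonempty (fun i => (inner ℝ x (y i) : ℝ))
  exact ⟨i, hi.symm⟩

theorem abs_mx_le [NeZero k] (y : Fin k → E d) (x : E d) :
    |mx y x| ≤ ∑ i, |(inner ℝ x (y i) : ℝ)| := by
  obtain ⟨i, hi⟩ := exists_eq_mx y x
  rw [← hi]
  exact Finset.single_le_sum (f := fun i => |(inner ℝ x (y i) : ℝ)|) (fun _ _ => abs_nonneg _)
    (Finset.mem_univ i)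

theorem integrable_mx [NeZero k] (y : Fin k → E d) : Integrable (mx y) (gam d) := by
  refine Integrable.mono' (g := fun x => ∑ i, |(inner ℝ x (y i) : ℝ)|) ?_
    (continuous_mx y).aestronglyMeasurable ?_
  · exact integrable_finsetSum _ (fun i _ => (integrable_inner_gam (y i)).abs)
  · exact Filter.Eventually.of_forall (fun x => by simpa using abs_mx_le y x)

/-- Summing set integrals over a partition. -/
theorem sum_setIntegral {A : Fin k → Set (E d)} (hA : IsPart A) {F : Type*} [NormedAddCommGroup F]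
    [NormedSpace ℝ F] [CompleteSpace F] {f : E d → F} (hf : Integrable f (gam d)) :
    ∑ i, ∫ x in A i, f x ∂(gam d) = ∫ x, f x ∂(gam d) := by
  have h := integral_biUnion_finset (μ := gam d) (s := A) (f := f) Finset.univ
    (fun i _ => hA.meas i)
    (fun i _ j _ hij => hA.disj hij)
    (fun i _ => hf.integrableOn)
  have hcover : (⋃ i ∈ (Finset.univ : Finset (Fin k)), A i) = Set.univ := by
    simpa using hA.cover
  rw [hcover, setIntegral_univ] at h
  exact h.symm

theorem sum_mom_eq_zero {A : Fin k → Set (E d)} (hA : IsPart A) : ∑ i, mom (A i) = 0 := by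
  have := sum_setIntegral hA (integrable_id_gam (d := d))
  simp only [mom]
  rw [this]
  exact integral_id_stdGaussian

theorem sum_nz_eq_zero {A : Fin k → Set (E d)} (hA : IsPart A) : ∑ i, nz (A i) = 0 := by
  simp only [nz]
  rw [← Finset.smul_sum, sum_mom_eq_zero hA, smul_zero]

theorem sq_sqrt_two_pi : Real.sqrt (2 * Real.pi) ^ 2 = 2 * Real.pi :=
  Real.sq_sqrt (by positivity)

theorem TT_nz_eq (A : Fin k → Set (E d)) :
    TT (fun i => nz (A i)) = 2 * Real.pi * FF A := by
  simp only [TT, FF, nz, norm_smul, Real.norm_eq_abs, Finset.mul_sum]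
  refine Finset.sum_congr rfl (fun i _ => ?_)
  rw [mul_pow, sq_abs, sq_sqrt_two_pi]

/-- `⟪z(A), u⟫ = ∫_A ⟪x, u⟫`. -/
theorem inner_mom (A : Set (E d)) (u : E d) :
    (inner ℝ (mom A) u : ℝ) = ∫ x in A, (inner ℝ x u : ℝ) ∂(gam d) := by
  have h := (innerSL ℝ u).integral_comp_comm (μ := (gam d).restrict A) (φ := fun x : E d => x)
    (integrable_id_gam (d := d)).integrableOn
  simp only [innerSL_apply_apply] at h
  rw [real_inner_comm, mom, ← h]
  simp only [real_inner_comm]

theorem inner_nz (A : Set (E d)) (u : E d) :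
    (inner ℝ (nz A) u : ℝ) = Real.sqrt (2 * Real.pi) * ∫ x in A, (inner ℝ x u : ℝ) ∂(gam d) := by
  rw [nz, real_inner_smul_left, inner_mom]

theorem W_eq_sum_setIntegral [NeZero k] {A : Fin k → Set (E d)} (hA : IsPart A) (y : Fin k → E d) :
    W y = Real.sqrt (2 * Real.pi) * ∑ i, ∫ x in A i, mx y x ∂(gam d) := by
  rw [sum_setIntegral hA (integrable_mx y)]
  rfl

/-- For any partition and any vectors `y`: `∑ ⟪nz A_i, y_i⟫ ≤ W y`. -/
theorem sum_inner_nz_le_W [NeZero k] {A : Fin k → Set (E d)} (hA : IsPart A) (y : Fin k → E d) :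
    ∑ i, inner ℝ (nz (A i)) (y i) ≤ W y := by
  rw [W_eq_sum_setIntegral hA y]
  simp only [inner_nz]
  rw [← Finset.mul_sum]
  apply mul_le_mul_of_nonneg_left _ (Real.sqrt_nonneg _)
  refine Finset.sum_le_sum (fun i _ => ?_)
  refine integral_mono (integrable_inner_gam _).integrableOn (integrable_mx y).integrableOn ?_
  exact fun x => inner_le_mx y x i

/-- Scaling of `mx` -/
theorem mx_smul_point [NeZero k] (y : Fin k → E d) {c : ℝ} (hc : 0 ≤ c) (x : E d) :
    mx y (c • x) = c * mx y x := by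
  apply le_antisymm
  · apply Finset.sup'_le
    intro i _
    rw [real_inner_smul_left]
    exact mul_le_mul_of_nonneg_left (inner_le_mx y x i) hc
  · obtain ⟨i, hi⟩ := exists_eq_mx y x
    rw [← hi, ← real_inner_smul_left]
    exact inner_le_mx y (c • x) i

/-- Voronoi partition: cell `i` = points whose first maximizer of `⟪x, y j⟫` is `i`. -/
theorem exists_voronoi [NeZero k] (y : Fin k → E d) :
    ∃ B : Fin k → Set (E d), IsPart B ∧ (∀ i, ∀ x ∈ B i, ∀ c : ℝ, 0 < c → c • x ∈ B i) ∧
      W y = ∑ i, inner ℝ (nz (B i)) (y i) := by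
  classical
  let B : Fin k → Set (E d) := fun i =>
    {x | (inner ℝ x (y i) : ℝ) = mx y x ∧ ∀ j, j < i → (inner ℝ x (y j) : ℝ) < mx y x}
  have hmeas : ∀ i, MeasurableSet (B i) := by
    intro i
    have h1 : MeasurableSet {x : E d | (inner ℝ x (y i) : ℝ) = mx y x} :=
      measurableSet_eq_fun (by fun_prop) (continuous_mx y).measurable
    have h2 : MeasurableSet (⋂ j ∈ {j | j < i}, {x : E d | (inner ℝ x (y j) : ℝ) < mx y x}) := by
      refine MeasurableSet.biInter (Set.to_countable _) (fun j _ => ?_)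
      exact measurableSet_lt (by fun_prop) (continuous_mx y).measurable
    have : B i = {x : E d | (inner ℝ x (y i) : ℝ) = mx y x} ∩
        (⋂ j ∈ {j | j < i}, {x : E d | (inner ℝ x (y j) : ℝ) < mx y x}) := by
      ext x
      simp [B]
    rw [this]
    exact h1.inter h2
  have hpart : IsPart B := by
    refine ⟨hmeas, ?_, ?_⟩
    · intro i j hij
      refine Set.disjoint_left.mpr (fun x hi hj => ?_)
      rcases lt_or_gt_of_ne hij with h | h
      · exact absurd hi.1 (ne_of_lt (hj.2 i h))
      · exact absurd hj.1 (ne_of_lt (hi.2 j h))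
    · ext x
      simp only [Set.mem_iUnion, Set.mem_univ, iff_true]
      -- least maximizer
      let S : Finset (Fin k) := Finset.univ.filter (fun i => (inner ℝ x (y i) : ℝ) = mx y x)
      obtain ⟨i0, hi0⟩ := exists_eq_mx y x
      have hS : S.Nonempty := ⟨i0, by simp [S, hi0]⟩
      refine ⟨S.min' hS, ?_⟩
      have hmem := S.min'_mem hS
      simp only [S, Finset.mem_filter, Finset.mem_univ, true_and] at hmem
      refine ⟨hmem, fun j hj => ?_⟩
      refine lt_of_le_of_ne (inner_le_mx y x j) (fun heq => ?_)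
      have : S.min' hS ≤ j := Finset.min'_le S j (by simp [S, heq])
      exact absurd hj (not_lt.mpr this)
  refine ⟨B, hpart, ?_, ?_⟩
  · intro i x hx c hc
    constructor
    · rw [real_inner_smul_left, mx_smul_point y hc.le, hx.1]
    · intro j hj
      rw [real_inner_smul_left, mx_smul_point y hc.le]
      exact mul_lt_mul_of_pos_left (hx.2 j hj) hc
  · rw [W_eq_sum_setIntegral hpart y]
    simp only [inner_nz]
    rw [← Finset.mul_sum]
    congr 1
    refine Finset.sum_congr rfl (fun i _ => ?_)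
    refine setIntegral_congr_fun (hmeas i) (fun x hx => ?_)
    exact hx.1.symm

/-- Reindexing invariance. -/
theorem W_comp_perm [NeZero k] (y : Fin k → E d) (σ : Equiv.Perm (Fin k)) :
    W (y ∘ σ) = W y := by
  unfold W
  congr 2
  ext x
  apply le_antisymm
  · apply Finset.sup'_le
    intro i _
    exact inner_le_mx y x (σ i)
  · apply Finset.sup'_le
    intro i _
    have := inner_le_mx (y ∘ σ) x (σ.symm i)
    simpa using this

theorem W_smul [NeZero k] (y : Fin k → E d) {s : ℝ} (hs : 0 ≤ s) :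
    W (fun i => s • y i) = s * W y := by
  unfold W
  have : ∀ x : E d, mx (fun i => s • y i) x = s * mx y x := by
    intro x
    rw [← mx_smul_point y hs]
    unfold mx
    congr 1
    ext i
    rw [real_inner_smul_left, real_inner_smul_right]
  simp_rw [this]
  rw [integral_const_mul]
  ring

/-- Cell measures of a partition sum to one. -/
theorem sum_real_eq_one {A : Fin k → Set (E d)} (hA : IsPart A) : ∑ i, (gam d).real (A i) = 1 := by
  have := sum_setIntegral hA (f := fun _ : E d => (1 : ℝ)) (integrable_const _)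
  simpa using this

/-- The width form follows from the partition form. -/
theorem vbound_of_partition {k : ℕ} [NeZero k] (h : PartitionBound k) : VBound k := by
  intro d y _
  obtain ⟨B, hB, -, hW⟩ := exists_voronoi y
  have hF := h d B hB
  have hT : TT (fun i => nz (B i)) ≤ 9 / 4 := by
    rw [TT_nz_eq]
    have hpi0 : 0 < Real.pi := Real.pi_pos
    have : 2 * Real.pi * (9 / (8 * Real.pi)) = 9 / 4 := by field_simp; ring
    rw [← this]
    exact mul_le_mul_of_nonneg_left hF (by positivity)
  rw [hW]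
  have hCS : ∑ i, (inner ℝ (nz (B i)) (y i) : ℝ) ≤
      Real.sqrt (TT (fun i => nz (B i))) * Real.sqrt (TT y) := by
    have h1 : ∑ i, (inner ℝ (nz (B i)) (y i) : ℝ) ≤ ∑ i, ‖nz (B i)‖ * ‖y i‖ :=
      Finset.sum_le_sum (fun i _ => real_inner_le_norm _ _)
    refine le_trans h1 ?_
    exact Real.sum_mul_le_sqrt_mul_sqrt _ _ _
  refine le_trans hCS ?_
  apply mul_le_mul_of_nonneg_right _ (Real.sqrt_nonneg _)
  rw [show (3 / 2 : ℝ) = Real.sqrt (9 / 4) by
    rw [show (9 / 4 : ℝ) = (3 / 2) ^ 2 by norm_num]; exact (Real.sqrt_sq (by norm_num)).symm]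
  exact Real.sqrt_le_sqrt hT

/-- The partition form follows from the width form. -/
theorem partition_of_vbound {k : ℕ} [NeZero k] (h : VBound k) : PartitionBound k := by
  intro d A hA
  set y : Fin k → E d := fun i => nz (A i) with hy
  have h1 := h d y (sum_nz_eq_zero hA)
  have h2 : TT y ≤ W y := by
    have := sum_inner_nz_le_W hA y
    refine le_trans (le_of_eq ?_) this
    simp [TT, hy]
  have h3 : TT y ≤ (3 / 2) * Real.sqrt (TT y) := le_trans h2 h1
  have hT0 : 0 ≤ TT y := Finset.sum_nonneg (fun i _ => by positivity)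
  have h4 : TT y ≤ 9 / 4 := by
    have hs := Real.sq_sqrt hT0
    have hs0 := Real.sqrt_nonneg (TT y)
    rw [← hs] at h3 ⊢
    nlinarith
  have h5 : TT y = 2 * Real.pi * FF A := TT_nz_eq A
  rw [h5] at h4
  have hpi0 : 0 < Real.pi := Real.pi_pos
  rw [le_div_iff₀ (by positivity)]
  nlinarith

/-- Merging two cells of a partition into five cells. -/
theorem merge_bound (h4 : PartitionBound 4) {A : Fin 5 → Set (E d)} (hA : IsPart A)
    {i j : Fin 5} (hij : i ≠ j) (hin : 0 ≤ inner ℝ (mom (A i)) (mom (A j))) :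
    FF A ≤ 9 / (8 * Real.pi) := by
  classical
  -- a permutation sending `3,4` to `i,j`
  obtain ⟨j1, hj1⟩ : ∃ j1, j1 = Equiv.swap (3 : Fin 5) i j := ⟨_, rfl⟩
  have hj13 : j1 ≠ 3 := by
    intro h
    have : Equiv.swap (3 : Fin 5) i j1 = j := by rw [hj1]; simp
    rw [h] at this
    simp only [Equiv.swap_apply_left] at this
    exact hij this
  obtain ⟨τ, hτ⟩ : ∃ τ : Equiv.Perm (Fin 5), τ = Equiv.swap (3 : Fin 5) i * Equiv.swap (4 : Fin 5) j1 :=
    ⟨_, rfl⟩
  have hτ3 : τ 3 = i := by
    rw [hτ, Equiv.Perm.mul_apply,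
      Equiv.swap_apply_of_ne_of_ne (by decide) (Ne.symm hj13), Equiv.swap_apply_left]
  have hτ4 : τ 4 = j := by
    rw [hτ, Equiv.Perm.mul_apply, Equiv.swap_apply_left, hj1]
    simp
  -- the merged partition
  let A' : Fin 4 → Set (E d) := ![A (τ 0), A (τ 1), A (τ 2), A (τ 3) ∪ A (τ 4)]
  have hd : ∀ a b : Fin 5, a ≠ b → Disjoint (A (τ a)) (A (τ b)) :=
    fun a b hab => hA.disj (fun h => hab (τ.injective h))
  have hA' : IsPart A' := by
    refine ⟨?_, ?_, ?_⟩
    · intro a
      fin_cases a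
      · exact hA.meas _
      · exact hA.meas _
      · exact hA.meas _
      · exact (hA.meas _).union (hA.meas _)
    · intro a b hab
      have d01 := hd 0 1 (by decide)
      have d02 := hd 0 2 (by decide)
      have d03 := hd 0 3 (by decide)
      have d04 := hd 0 4 (by decide)
      have d12 := hd 1 2 (by decide)
      have d13 := hd 1 3 (by decide)
      have d14 := hd 1 4 (by decide)
      have d23 := hd 2 3 (by decide)
      have d24 := hd 2 4 (by decide)
      fin_cases a <;> fin_cases b <;> simp [A', Function.onFun] at hab ⊢ <;>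
        first
        | assumption
        | exact Disjoint.symm (by assumption)
        | exact ⟨by assumption, by assumption⟩
        | exact ⟨Disjoint.symm (by assumption), Disjoint.symm (by assumption)⟩
    · ext x
      simp only [Set.mem_iUnion, Set.mem_univ, iff_true]
      have hx : x ∈ ⋃ a, A a := by rw [hA.cover]; trivial
      obtain ⟨a, ha⟩ := Set.mem_iUnion.mp hx
      have hb : x ∈ A (τ (τ.symm a)) := by simpa using ha
      generalize τ.symm a = b at hb
      fin_cases b
      · exact ⟨0, hb⟩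
      · exact ⟨1, hb⟩
      · exact ⟨2, hb⟩
      · exact ⟨3, Or.inl hb⟩
      · exact ⟨3, Or.inr hb⟩
  have hbound := h4 d A' hA'
  have hu : mom (A (τ 3) ∪ A (τ 4)) = mom (A (τ 3)) + mom (A (τ 4)) :=
    setIntegral_union (hd 3 4 (by decide)) (hA.meas _) integrable_id_gam.integrableOn
      integrable_id_gam.integrableOn
  have hF : FF A = FF (A ∘ τ) := by
    simp only [FF]
    exact (Equiv.sum_comp τ (fun i => ‖mom (A i)‖ ^ 2)).symm
  have hF' : FF A' = ‖mom (A (τ 0))‖ ^ 2 + ‖mom (A (τ 1))‖ ^ 2 + ‖mom (A (τ 2))‖ ^ 2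
      + ‖mom (A (τ 3)) + mom (A (τ 4))‖ ^ 2 := by
    simp only [FF, Fin.sum_univ_four, A']
    simp [hu]
  have hF2 : FF (A ∘ τ) = ‖mom (A (τ 0))‖ ^ 2 + ‖mom (A (τ 1))‖ ^ 2 + ‖mom (A (τ 2))‖ ^ 2
      + ‖mom (A (τ 3))‖ ^ 2 + ‖mom (A (τ 4))‖ ^ 2 := by
    simp only [FF, Fin.sum_univ_five, Function.comp]
  have hnorm : ‖mom (A (τ 3))‖ ^ 2 + ‖mom (A (τ 4))‖ ^ 2 ≤ ‖mom (A (τ 3)) + mom (A (τ 4))‖ ^ 2 := by
    rw [@norm_add_sq_real, hτ3, hτ4]
    nlinarith
  rw [hF, hF2]
  rw [hF'] at hbound
  linarith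

end Vale.Agent.Lib.P226
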