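import Vale.Agent.Lib.P226.Basic

/-!
Law transport: the joint law of finitely many inner products under the standard Gaussian measure
depends only on the Gram matrix.
-/

open MeasureTheory ProbabilityTheory

namespace Vale.Agent.Lib.P226

variable {d d' n : ℕ}

/-- The linear map `x ↦ (⟪x, u i⟫)_i`, as a map to Euclidean space. -/
noncomputable def formsL (u : Fin n → E d) : E d →L[ℝ] EuclideanSpace ℝ (Fin n) :=
  (EuclideanSpace.equiv (Fin n) ℝ).symm.toContinuousLinearMap.comp
    (ContinuousLinearMap.pi fun i => (innerSL ℝ (u i)))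

theorem formsL_apply (u : Fin n → E d) (x : E d) (i : Fin n) :
    formsL u x i = inner ℝ x (u i) := by
  simp [formsL, real_inner_comm]

theorem adjoint_formsL (u : Fin n → E d) (t : EuclideanSpace ℝ (Fin n)) :
    (formsL u).adjoint t = ∑ i, t i • u i := by
  apply ext_inner_left ℝ
  intro x
  rw [ContinuousLinearMap.adjoint_inner_right]
  simp [PiLp.inner_apply, formsL_apply, inner_sum, inner_smul_right, mul_comm]

/-- Characteristic function of the law of the forms. -/
theorem charFun_map_forms (u : Fin n → E d) (t : EuclideanSpace ℝ (Fin n)) :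
    charFun ((gam d).map (formsL u)) t =
      Complex.exp (-(‖∑ i, t i • u i‖ ^ 2 : ℝ) / 2) := by
  rw [charFun_apply, integral_map (formsL u).continuous.aemeasurable
    (Measurable.aestronglyMeasurable (by fun_prop))]
  have : ∀ x : E d, (inner ℝ (formsL u x) t : ℝ) = inner ℝ x ((formsL u).adjoint t) := by
    intro x
    rw [ContinuousLinearMap.adjoint_inner_right]
  simp_rw [this]
  have h2 := charFun_stdGaussian (E := E d) ((formsL u).adjoint t)
  rw [charFun_apply] at h2
  rw [h2, adjoint_formsL]
  push_cast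
  rfl

theorem norm_sum_sq_eq_of_gram (u : Fin n → E d) (v : Fin n → E d')
    (h : ∀ i j, inner ℝ (u i) (u j) = (inner ℝ (v i) (v j) : ℝ)) (t : Fin n → ℝ) :
    ‖∑ i, t i • u i‖ ^ 2 = ‖∑ i, t i • v i‖ ^ 2 := by
  rw [← real_inner_self_eq_norm_sq, ← real_inner_self_eq_norm_sq]
  simp only [sum_inner, inner_sum, real_inner_smul_left, real_inner_smul_right, h]

/-- The laws coincide. -/
theorem map_forms_eq (u : Fin n → E d) (v : Fin n → E d')
    (h : ∀ i j, inner ℝ (u i) (u j) = (inner ℝ (v i) (v j) : ℝ)) :
    (gam d).map (formsL u) = (gam d').map (formsL v) := by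
  apply Measure.ext_of_charFun
  ext t
  rw [charFun_map_forms, charFun_map_forms, norm_sum_sq_eq_of_gram u v h]

/-- General tool: integrals of functions of finitely many inner products depend only on the Gram
matrix. -/
theorem integral_congr_gram (u : Fin n → E d) (v : Fin n → E d')
    (h : ∀ i j, inner ℝ (u i) (u j) = (inner ℝ (v i) (v j) : ℝ)) (Phi : (Fin n → ℝ) → ℝ)
    (hPhi : Measurable Phi) :
    ∫ x, Phi (fun i => inner ℝ x (u i)) ∂(gam d) = ∫ x, Phi (fun i => inner ℝ x (v i)) ∂(gam d') := by
  have hmeas : Measurable (fun y : EuclideanSpace ℝ (Fin n) => Phi (fun i => y i)) :=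
    hPhi.comp (by fun_prop)
  have h1 : ∀ {m : ℕ} (w : Fin n → E m), ∫ x, Phi (fun i => inner ℝ x (w i)) ∂(gam m)
      = ∫ y, Phi (fun i => y i) ∂((gam m).map (formsL w)) := by
    intro m w
    rw [integral_map (formsL w).continuous.aemeasurable hmeas.aestronglyMeasurable]
    simp only [formsL_apply]
  rw [h1 u, h1 v, map_forms_eq u v h]

/-- Integrability also depends only on the Gram matrix. -/
theorem integrable_congr_gram (u : Fin n → E d) (v : Fin n → E d')
    (h : ∀ i j, inner ℝ (u i) (u j) = (inner ℝ (v i) (v j) : ℝ)) (Phi : (Fin n → ℝ) → ℝ)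
    (hPhi : Measurable Phi) :
    Integrable (fun x => Phi (fun i => inner ℝ x (u i))) (gam d) ↔
      Integrable (fun x => Phi (fun i => inner ℝ x (v i))) (gam d') := by
  have hmeas : Measurable (fun y : EuclideanSpace ℝ (Fin n) => Phi (fun i => y i)) :=
    hPhi.comp (by fun_prop)
  have h1 : ∀ {m : ℕ} (w : Fin n → E m), Integrable (fun x => Phi (fun i => inner ℝ x (w i))) (gam m)
      ↔ Integrable (fun y : EuclideanSpace ℝ (Fin n) => Phi (fun i => y i)) ((gam m).map (formsL w)) := by
    intro m w
    rw [integrable_map_measure hmeas.aestronglyMeasurable (formsL w).continuous.aemeasurable]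
    simp only [Function.comp_def, formsL_apply]
  rw [h1 u, h1 v, map_forms_eq u v h]

variable {k : ℕ}

theorem measurable_sup_forms (k : ℕ) [NeZero k] :
    Measurable (fun t : Fin k → ℝ => Finset.univ.sup' Finset.univ_nonempty t) := by
  have : (fun t : Fin k → ℝ => Finset.univ.sup' Finset.univ_nonempty t)
      = Finset.univ.sup' Finset.univ_nonempty (fun (i : Fin k) (t : Fin k → ℝ) => t i) := by
    ext t
    simp [Finset.sup'_apply]
  rw [this]
  exact Finset.measurable_sup' _ (fun i _ => measurable_pi_apply i)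

/-- `W` depends only on the Gram matrix. -/
theorem W_congr_gram [NeZero k] {d' : ℕ} (y : Fin k → E d) (v : Fin k → E d')
    (h : ∀ i j, inner ℝ (y i) (y j) = (inner ℝ (v i) (v j) : ℝ)) : W y = W v := by
  unfold W
  congr 1
  have := integral_congr_gram y v h
    (fun t => Finset.univ.sup' Finset.univ_nonempty t)
    (measurable_sup_forms k)
  exact this

/-- Five centered vectors embed isometrically into `ℝ^4`. -/
theorem exists_embed5 {d : ℕ} (y : Fin 5 → E d) (h : ∑ i, y i = 0) :
    ∃ v : Fin 5 → E 4, ∀ i j, inner ℝ (y i) (y j) = (inner ℝ (v i) (v j) : ℝ) := by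
  classical
  -- the span of the last four vectors has dimension at most four
  let S : Submodule ℝ (E d) := Submodule.span ℝ (Set.range (fun i : Fin 4 => y i.succ))
  have hdim : Module.finrank ℝ S ≤ 4 := by
    have := finrank_range_le_card (R := ℝ) (fun i : Fin 4 => y i.succ)
    simpa [S, Set.finrank] using this
  -- a linear isometry from `S` to `E 4`
  let b := stdOrthonormalBasis ℝ S
  let c := EuclideanSpace.basisFun (Fin 4) ℝ
  let e : Fin (Module.finrank ℝ S) → Fin 4 := Fin.castLE hdim
  have he : Function.Injective e := Fin.castLE_injective hdim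
  let f : S →ₗ[ℝ] E 4 := b.toBasis.constr ℝ (fun i => c (e i))
  have hf : Orthonormal ℝ (f ∘ b.toBasis) := by
    have h1 : (f ∘ b.toBasis) = (fun i => c (e i)) := by
      ext1 i
      simp [f]
    rw [h1]
    exact c.orthonormal.comp e he
  have hv : Orthonormal ℝ (b.toBasis : Fin (Module.finrank ℝ S) → S) := by
    simp
  let L : S →ₗᵢ[ℝ] E 4 := f.isometryOfOrthonormal hv hf
  -- all vectors lie in `S`
  have hmem : ∀ i, y i ∈ S := by
    intro i
    refine Fin.cases ?_ (fun j => Submodule.subset_span ⟨j, rfl⟩) i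
    have h0 : y 0 = -∑ j : Fin 4, y j.succ := by
      rw [Fin.sum_univ_succ] at h
      exact eq_neg_of_add_eq_zero_left h
    rw [h0]
    exact S.neg_mem (S.sum_mem fun j _ => Submodule.subset_span ⟨j, rfl⟩)
  refine ⟨fun i => L ⟨y i, hmem i⟩, fun i j => ?_⟩
  rw [L.inner_map_map]
  rfl

end Vale.Agent.Lib.P226
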