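/-!
A branch and bound checker on natural numbers for the numeric core, written with the primitive
operations on `Nat` so that the kernel evaluates it quickly.  Coordinates are integers in units of
`1 / 33554432000`.
-/

namespace Vale.Agent.Lib.P226.NumCoreGrid

/-- The scale of the coordinates. -/
def QQ : Nat := 33554432000

/-- Four times the scale. -/
def PP : Nat := 134217728000

/-- The number `9 / 8` in the scale. -/
def K98 : Nat := 37748736000

/-- A Newton step for the square root. -/
def newtonStep (n x : Nat) : Nat := Nat.shiftRight (Nat.add x (Nat.div n x)) 1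

/-- An approximation of the integer square root. -/
def isq (n : Nat) : Nat :=
  newtonStep n (newtonStep n (newtonStep n (newtonStep n (newtonStep n (newtonStep n (newtonStep n
    (Nat.shiftLeft 1 (Nat.add (Nat.shiftRight (Nat.log2 n) 1) 1))))))))

/-- A lower bound for the square root, from a candidate. -/
def sqLaux (n u : Nat) : Nat := bif Nat.ble (Nat.mul u u) n then u else 0

/-- A lower bound for the square root. -/
def sqL (n : Nat) : Nat := sqLaux n (isq n)

/-- An upper bound for the square root, from a candidate. -/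
def sqUaux (n u : Nat) : Nat :=
  bif Nat.ble n (Nat.mul u u) then u else
    bif Nat.ble n (Nat.mul (Nat.add u 1) (Nat.add u 1)) then Nat.add u 1 else Nat.add n 1

/-- An upper bound for the square root. -/
def sqU (n : Nat) : Nat := sqUaux n (isq n)

/-- The maximum. -/
def nmx (a b : Nat) : Nat := bif Nat.ble a b then b else a

/-- Strict comparison. -/
def lt (a b : Nat) : Bool := Nat.ble (Nat.add a 1) b

/-- The linear rules: the box misses the constraint set. -/
def ruleLin (R0l R0h a3l a4l cl : Nat) : Bool :=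
  let s := R0l + a3l + a4l + cl
  Nat.ble K98 s || lt K98 (s + cl) || lt (2 * K98) (a3l + 2 * s) || lt (2 * K98) (a4l + 2 * s) ||
    lt (6 * K98 + R0h) (K98 + 6 * s)

/-- The pair bound rule. -/
def rulePair (R0l R0h a3l a3h a4l a4h cl ch : Nat) : Bool :=
  lt (4 * (sqU ((4 * K98 + 6 * R0h - (2 * a3l + 2 * a4l + 4 * cl)) * PP) +
        2 * sqU ((4 * K98 + 2 * (a3h + a4h) - 2 * R0l) * PP)))
     (9 * PP + 4 * sqL ((4 * K98 - (3 * R0h + 3 * a3h + 3 * a4h + 4 * ch)) * PP))

/-- The number `99 / 2000` in the scale `PP`. -/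
def LAP : Nat := 6643777536

/-- The number `2 * 21 / 50` in the scale `QQ`. -/
def AL2 : Nat := 28185722880

/-- The cap rule. -/
def ruleCap (R0l R0h a3l a3h a4l a4h cl ch : Nat) : Bool :=
  lt (871 * PP)
    (4 * (2 * K98 - (2 * R0h + a3h + a4h + 2 * ch + AL2)) * 670 +
      ((sqL (4 * nmx R0l (a3l + cl) * PP) - LAP) + (sqL (4 * nmx R0l (a4l + cl) * PP) - LAP) +
        (sqL (4 * R0l * PP) - LAP)) * 260)

/-- The star rule, without the second term. -/
def ruleStarA (R0h al bl cl Al : Nat) : Bool :=
  Nat.ble (1268 * R0h * R0h * QQ) (50 * Al * bl * nmx (13 * R0h) (4 * (al + cl) + 9 * R0h))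

/-- The star rule, with the second term. -/
def ruleStarB (R0h al bl cl Al : Nat) : Bool :=
  Nat.ble 1 (al + cl) &&
    Nat.ble (1268 * R0h * R0h * (al + cl) * QQ)
      (50 * Al * (bl * (al + cl) + cl * al) * nmx (13 * R0h) (4 * (al + cl) + 9 * R0h))

/-- The star rule. -/
def ruleStar (R0h a3l a3h a4l a4h cl ch : Nat) : Bool :=
  let Al := K98 - (R0h + a3h + a4h + ch)
  Nat.ble 1 Al && Nat.ble 1 R0h &&
    (ruleStarA R0h a3l a4l cl Al || ruleStarB R0h a3l a4l cl Al ||
      ruleStarA R0h a4l a3l cl Al || ruleStarB R0h a4l a3l cl Al)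

/-- All the rules on one box. -/
def checkBox (R0l R0h a3l a3h a4l a4h cl ch : Nat) : Bool :=
  ruleLin R0l R0h a3l a4l cl || rulePair R0l R0h a3l a3h a4l a4h cl ch ||
    ruleCap R0l R0h a3l a3h a4l a4h cl ch || ruleStar R0h a3l a3h a4l a4h cl ch

/-- The recursion. -/
def recBox : Nat → Nat → Nat → Nat → Nat → Nat → Nat → Nat → Nat → Bool
  | 0, R0l, R0h, a3l, a3h, a4l, a4h, cl, ch => checkBox R0l R0h a3l a3h a4l a4h cl ch
  | fuel + 1, R0l, R0h, a3l, a3h, a4l, a4h, cl, ch =>
    checkBox R0l R0h a3l a3h a4l a4h cl ch ||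
      (let w0 := 25 * (R0h - R0l)
       let w3 := a3h - a3l
       let w4 := a4h - a4l
       let wc := ch - cl
       bif Nat.ble (nmx w0 (nmx w4 wc)) w3 then
         (recBox fuel R0l R0h a3l ((a3l + a3h) / 2) a4l a4h cl ch &&
          recBox fuel R0l R0h ((a3l + a3h) / 2) a3h a4l a4h cl ch)
       else bif Nat.ble (nmx w0 wc) w4 then
         (recBox fuel R0l R0h a3l a3h a4l ((a4l + a4h) / 2) cl ch &&
          recBox fuel R0l R0h a3l a3h ((a4l + a4h) / 2) a4h cl ch)
       else bif Nat.ble w0 wc then
         (recBox fuel R0l R0h a3l a3h a4l a4h cl ((cl + ch) / 2) &&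
          recBox fuel R0l R0h a3l a3h a4l a4h ((cl + ch) / 2) ch)
       else
         (recBox fuel R0l ((R0l + R0h) / 2) a3l a3h a4l a4h cl ch &&
          recBox fuel ((R0l + R0h) / 2) R0h a3l a3h a4l a4h cl ch))

/-- The statement checked by the kernel. -/
theorem recBox_all : recBox 31 0 2013265920 0 37748736000 0 37748736000 0 18874368000 = true := by
  decide +kernel

end Vale.Agent.Lib.P226.NumCoreGrid
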