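import Vale.Agent.Lib.P226.Basic
import Vale.Agent.Lib.P226.NumCoreGrid

/-!
The numeric core: soundness of the branch and bound checker.
-/

set_option linter.unusedSectionVars false
set_option linter.unusedVariables false

namespace Vale.Agent.Lib.P226

namespace NumCoreGrid

theorem sqL_spec (n : ℕ) : sqL n * sqL n ≤ n := by
  unfold sqL sqLaux
  by_cases h : Nat.ble (Nat.mul (isq n) (isq n)) n = true
  · rw [h]
    exact Nat.le_of_ble_eq_true h
  · rw [Bool.not_eq_true] at h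
    rw [h]
    simp

theorem sqU_spec (n : ℕ) : n ≤ sqU n * sqU n := by
  unfold sqU sqUaux
  by_cases h : Nat.ble n (Nat.mul (isq n) (isq n)) = true
  · rw [h]
    exact Nat.le_of_ble_eq_true h
  · rw [Bool.not_eq_true] at h
    rw [h]
    by_cases h2 : Nat.ble n (Nat.mul (Nat.add (isq n) 1) (Nat.add (isq n) 1)) = true
    · simp only [cond_false, h2, cond_true]
      exact Nat.le_of_ble_eq_true h2
    · rw [Bool.not_eq_true] at h2
      simp only [cond_false, h2]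
      show n ≤ (n + 1) * (n + 1)
      nlinarith

theorem nmx_cases (a b : ℕ) : nmx a b = a ∨ nmx a b = b := by
  unfold nmx
  cases Nat.ble a b <;> simp

theorem lt_spec {a b : ℕ} (h : lt a b = true) : a < b := Nat.le_of_ble_eq_true h

/-- The scale as a real number. -/
noncomputable def qR : ℝ := 33554432000

theorem qR_pos : 0 < qR := by
  unfold qR
  norm_num

theorem QQ_cast : ((QQ : ℕ) : ℝ) = qR := by
  norm_num [QQ, qR]

theorem PP_cast : ((PP : ℕ) : ℝ) = 4 * qR := by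
  norm_num [PP, qR]

theorem K98_cast : ((K98 : ℕ) : ℝ) = 9 / 8 * qR := by
  norm_num [K98, qR]

theorem LAP_cast : ((LAP : ℕ) : ℝ) = 99 / 2000 * (4 * qR) := by
  norm_num [LAP, qR]

theorem AL2_cast : ((AL2 : ℕ) : ℝ) = 2 * (21 / 50) * qR := by
  norm_num [AL2, qR]

/-- Truncated subtraction, real form. -/
theorem cast_tsub_ge (a c : ℕ) : (a : ℝ) - c ≤ ((a - c : ℕ) : ℝ) := by
  by_cases h : c ≤ a
  · rw [Nat.cast_sub h]
  · have h1 : a - c = 0 := by omega
    rw [h1]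
    have h2 : (a : ℝ) ≤ c := by
      exact_mod_cast (by omega : a ≤ c)
    simp only [Nat.cast_zero]
    linarith

theorem sqrt_le_sqU {x : ℝ} {n : ℕ} (h : x * (PP : ℕ) ≤ n) :
    Real.sqrt x ≤ (sqU (n * PP) : ℝ) / (PP : ℕ) := by
  have hP : (0 : ℝ) < (PP : ℕ) := by
    rw [PP_cast]
    have := qR_pos
    linarith
  rw [Real.sqrt_le_iff]
  constructor
  · positivity
  · have h1 : ((n * PP : ℕ) : ℝ) ≤ (sqU (n * PP) : ℝ) * (sqU (n * PP) : ℝ) := by
      exact_mod_cast sqU_spec (n * PP)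
    rw [div_pow, le_div_iff₀ (by positivity)]
    push_cast at h1
    have h2 : x * (PP : ℕ) * (PP : ℕ) ≤ n * (PP : ℕ) :=
      mul_le_mul_of_nonneg_right h hP.le
    nlinarith

theorem sqL_le_sqrt {x : ℝ} {n : ℕ} (h : (n : ℝ) ≤ x * (PP : ℕ)) :
    (sqL (n * PP) : ℝ) / (PP : ℕ) ≤ Real.sqrt x := by
  have hP : (0 : ℝ) < (PP : ℕ) := by
    rw [PP_cast]
    have := qR_pos
    linarith
  apply Real.le_sqrt_of_sq_le
  have h1 : (sqL (n * PP) : ℝ) * (sqL (n * PP) : ℝ) ≤ ((n * PP : ℕ) : ℝ) := by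
    exact_mod_cast sqL_spec (n * PP)
  rw [div_pow, div_le_iff₀ (by positivity)]
  push_cast at h1
  have h2 : (n : ℝ) * (PP : ℕ) ≤ x * (PP : ℕ) * (PP : ℕ) :=
    mul_le_mul_of_nonneg_right h hP.le
  nlinarith

theorem sqL_le_sqrt_tsub {x : ℝ} {a c : ℕ} (h : (a : ℝ) - c ≤ x * (PP : ℕ)) :
    (sqL ((a - c) * PP) : ℝ) / (PP : ℕ) ≤ Real.sqrt x := by
  by_cases hc : c ≤ a
  · apply sqL_le_sqrt
    rw [Nat.cast_sub hc]
    exact h
  · have h1 : a - c = 0 := by omega
    rw [h1]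
    have h2 : sqL (0 * PP) = 0 := by
      have h3 := sqL_spec (0 * PP)
      rw [Nat.zero_mul] at h3 ⊢
      by_contra hne
      have := Nat.mul_pos (Nat.pos_of_ne_zero hne) (Nat.pos_of_ne_zero hne)
      omega
    rw [h2]
    simp only [Nat.cast_zero, zero_div]
    exact Real.sqrt_nonneg x

/-- A point of the box. -/
def InBox (x : ℝ) (l h : ℕ) : Prop := (l : ℝ) ≤ x * qR ∧ x * qR ≤ (h : ℝ)

/-- The hypotheses on the point. -/
structure CoreHyp (R0 a3 a4 c A : ℝ) : Prop where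
  h0 : 0 < R0
  h0' : R0 ≤ 3 / 50
  ha3 : 0 < a3
  ha4 : 0 < a4
  hc : 0 < c
  hA : A = 9 / 8 - R0 - a3 - a4 - c
  hcA : c ≤ A
  h3A : a3 ≤ 2 * A
  h4A : a4 ≤ 2 * A
  h6A : 9 / 8 - R0 ≤ 6 * A
  hB : 9 / 4 < Bhat R0 (a3 + a4) c
  hcap : capExpr R0 a3 a4 c ≤ 1

/-- The conclusion at the point. -/
def CoreCon (R0 a3 a4 c A : ℝ) : Prop :=
  (317 / 50) * R0 ^ 2 ≤ A * (a4 * (a3 + c) + c * a3) / (a3 + c) * (max R0 (a3 + c) + (9 / 4) * R0) ∨
  (317 / 50) * R0 ^ 2 ≤ A * (a3 * (a4 + c) + c * a4) / (a4 + c) * (max R0 (a4 + c) + (9 / 4) * R0)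

section Rules

variable {R0 a3 a4 c A : ℝ} {R0l R0h a3l a3h a4l a4h cl ch : ℕ}

theorem ruleLin_false (H : CoreHyp R0 a3 a4 c A) (hR : InBox R0 R0l R0h) (h3 : InBox a3 a3l a3h)
    (h4 : InBox a4 a4l a4h) (hC : InBox c cl ch) (hr : ruleLin R0l R0h a3l a4l cl = true) :
    False := by
  have hq := qR_pos
  have hAq : A * qR = 9 / 8 * qR - R0 * qR - a3 * qR - a4 * qR - c * qR := by
    rw [H.hA]
    ring
  have hcq : c * qR ≤ A * qR := mul_le_mul_of_nonneg_right H.hcA hq.le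
  have hcpos : 0 < c * qR := mul_pos H.hc hq
  have h3q : a3 * qR ≤ 2 * (A * qR) := by
    have := mul_le_mul_of_nonneg_right H.h3A hq.le
    linarith
  have h4q : a4 * qR ≤ 2 * (A * qR) := by
    have := mul_le_mul_of_nonneg_right H.h4A hq.le
    linarith
  have h6q : 9 / 8 * qR - R0 * qR ≤ 6 * (A * qR) := by
    have := mul_le_mul_of_nonneg_right H.h6A hq.le
    linarith
  obtain ⟨r1, r2⟩ := hR
  obtain ⟨a1, a2⟩ := h3
  obtain ⟨b1, b2⟩ := h4
  obtain ⟨c1, c2⟩ := hC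
  have hK := K98_cast
  unfold ruleLin at hr
  simp only [Bool.or_eq_true] at hr
  rcases hr with ((((h | h) | h) | h) | h)
  · have h' := Nat.le_of_ble_eq_true h
    have : (K98 : ℝ) ≤ (R0l : ℝ) + a3l + a4l + cl := by exact_mod_cast h'
    linarith
  · have h' := lt_spec h
    have : (K98 : ℝ) < (R0l : ℝ) + a3l + a4l + cl + cl := by exact_mod_cast h'
    linarith
  · have h' := lt_spec h
    have : 2 * (K98 : ℝ) < (a3l : ℝ) + 2 * ((R0l : ℝ) + a3l + a4l + cl) := by exact_mod_cast h'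
    linarith
  · have h' := lt_spec h
    have : 2 * (K98 : ℝ) < (a4l : ℝ) + 2 * ((R0l : ℝ) + a3l + a4l + cl) := by exact_mod_cast h'
    linarith
  · have h' := lt_spec h
    have : 6 * (K98 : ℝ) + R0h < (K98 : ℝ) + 6 * ((R0l : ℝ) + a3l + a4l + cl) := by
      exact_mod_cast h'
    linarith

theorem rulePair_false (H : CoreHyp R0 a3 a4 c A) (hR : InBox R0 R0l R0h) (h3 : InBox a3 a3l a3h)
    (h4 : InBox a4 a4l a4h) (hC : InBox c cl ch)
    (hr : rulePair R0l R0h a3l a3h a4l a4h cl ch = true) : False := by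
  have hq := qR_pos
  obtain ⟨r1, r2⟩ := hR
  obtain ⟨a1, a2⟩ := h3
  obtain ⟨b1, b2⟩ := h4
  obtain ⟨c1, c2⟩ := hC
  have hK := K98_cast
  have hPc := PP_cast
  have hP : (0 : ℝ) < (PP : ℕ) := by
    rw [hPc]
    linarith
  unfold rulePair at hr
  have h' := lt_spec hr
  set u1 := sqU ((4 * K98 + 6 * R0h - (2 * a3l + 2 * a4l + 4 * cl)) * PP) with hu1
  set u2 := sqU ((4 * K98 + 2 * (a3h + a4h) - 2 * R0l) * PP) with hu2
  set u3 := sqL ((4 * K98 - (3 * R0h + 3 * a3h + 3 * a4h + 4 * ch)) * PP) with hu3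
  have hmain : 4 * ((u1 : ℝ) + 2 * u2) < 9 * (PP : ℕ) + 4 * u3 := by exact_mod_cast h'
  have s1 : Real.sqrt (9 / 8 + (3 / 2) * R0 - (a3 + a4) / 2 - c) ≤ (u1 : ℝ) / (PP : ℕ) := by
    apply sqrt_le_sqU
    refine le_trans ?_ (cast_tsub_ge _ _)
    push_cast
    rw [hPc, hK]
    nlinarith
  have s2 : Real.sqrt (9 / 8 + (a3 + a4) / 2 - R0 / 2) ≤ (u2 : ℝ) / (PP : ℕ) := by
    apply sqrt_le_sqU
    refine le_trans ?_ (cast_tsub_ge _ _)
    push_cast
    rw [hPc, hK]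
    nlinarith
  have s3 : (u3 : ℝ) / (PP : ℕ) ≤ Real.sqrt (9 / 8 - (3 / 4) * R0 - (3 / 4) * (a3 + a4) - c) := by
    apply sqL_le_sqrt_tsub
    push_cast
    rw [hPc, hK]
    nlinarith
  have hB := H.hB
  unfold Bhat at hB
  have e : (u1 : ℝ) / (PP : ℕ) + 2 * ((u2 : ℝ) / (PP : ℕ)) - (u3 : ℝ) / (PP : ℕ) < 9 / 4 := by
    have : ((u1 : ℝ) + 2 * u2 - u3) / (PP : ℕ) < 9 / 4 := by
      rw [div_lt_iff₀ hP]
      linarith
    calc _ = ((u1 : ℝ) + 2 * u2 - u3) / (PP : ℕ) := by ring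
      _ < _ := this
  linarith

/-- A positive part bound. -/
theorem max_zero_ge {y x : ℝ} {t L : ℕ} {D : ℝ} (hD : 0 < D) {P : ℝ} (hP : 0 < P)
    (h : ((t : ℝ) - L) / P ≤ y) (hy : x = y / D) :
    ((t - L : ℕ) : ℝ) / P / D ≤ max 0 x := by
  by_cases hc : L ≤ t
  · apply le_trans _ (le_max_right _ _)
    rw [hy, Nat.cast_sub hc]
    exact div_le_div_of_nonneg_right h hD.le
  · have h1 : t - L = 0 := by omega
    rw [h1]
    simp only [Nat.cast_zero, zero_div]
    exact le_max_left _ _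

theorem cap_sqrt_term {x : ℝ} {n : ℕ} (h : (n : ℝ) ≤ x * qR) :
    ((sqL (4 * n * PP) : ℝ) - (LAP : ℕ)) / (PP : ℕ) ≤ Real.sqrt x - 99 / 2000 := by
  have hq := qR_pos
  have hPc := PP_cast
  have hP : (0 : ℝ) < (PP : ℕ) := by
    rw [hPc]
    linarith
  have h1 : (sqL (4 * n * PP) : ℝ) / (PP : ℕ) ≤ Real.sqrt x := by
    apply sqL_le_sqrt
    push_cast
    rw [hPc]
    linarith
  have h2 : ((LAP : ℕ) : ℝ) / (PP : ℕ) = 99 / 2000 := by
    rw [LAP_cast, hPc]
    field_simp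
  rw [sub_div, h2]
  linarith

theorem cap_first_term {R0 a3 a4 c : ℝ} {R0h a3h a4h ch : ℕ} (r2 : R0 * qR ≤ R0h)
    (a2 : a3 * qR ≤ a3h) (b2 : a4 * qR ≤ a4h) (c2 : c * qR ≤ ch) :
    ((2 * K98 - (2 * R0h + a3h + a4h + 2 * ch + AL2) : ℕ) : ℝ) / qR / (13 / 10) ≤
      max 0 ((2 * (9 / 8 - R0 - (a3 + a4) / 2 - c) - 2 * (21 / 50)) / (13 / 10)) := by
  have hq := qR_pos
  by_cases hc : 2 * R0h + a3h + a4h + 2 * ch + AL2 ≤ 2 * K98
  · apply le_trans _ (le_max_right _ _)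
    apply div_le_div_of_nonneg_right _ (by norm_num)
    rw [div_le_iff₀ hq, Nat.cast_sub hc]
    push_cast
    rw [K98_cast, AL2_cast]
    linarith
  · have h1 : 2 * K98 - (2 * R0h + a3h + a4h + 2 * ch + AL2) = 0 := by
      omega
    rw [h1]
    simp only [Nat.cast_zero, zero_div]
    exact le_max_left _ _

theorem nmx_le {R0 x : ℝ} {R0l n : ℕ} (h1 : (R0l : ℝ) ≤ R0 * qR) (h2 : (n : ℝ) ≤ x * qR) :
    ((nmx R0l n : ℕ) : ℝ) ≤ max R0 x * qR := by
  have hq := qR_pos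
  rcases nmx_cases R0l n with h | h
  · rw [h]
    exact le_trans h1 (mul_le_mul_of_nonneg_right (le_max_left _ _) hq.le)
  · rw [h]
    exact le_trans h2 (mul_le_mul_of_nonneg_right (le_max_right _ _) hq.le)

theorem cap_combine {T1 T2 T3 T4 : ℕ} {x1 x2 x3 x4 : ℝ}
    (hmain : 871 * (4 * qR) < 4 * (T1 : ℝ) * 670 + ((T2 : ℝ) + T3 + T4) * 260)
    (t1 : (T1 : ℝ) / qR / (13 / 10) ≤ x1) (t2 : (T2 : ℝ) / (4 * qR) / (67 / 20) ≤ x2)
    (t3 : (T3 : ℝ) / (4 * qR) / (67 / 20) ≤ x3) (t4 : (T4 : ℝ) / (4 * qR) / (67 / 20) ≤ x4)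
    (hcap : x1 + x2 + x3 + x4 ≤ 1) : False := by
  have hq := qR_pos
  have hsum : 1 < (T1 : ℝ) / qR / (13 / 10) + (T2 : ℝ) / (4 * qR) / (67 / 20) +
      (T3 : ℝ) / (4 * qR) / (67 / 20) + (T4 : ℝ) / (4 * qR) / (67 / 20) := by
    have e : (T1 : ℝ) / qR / (13 / 10) + (T2 : ℝ) / (4 * qR) / (67 / 20) +
      (T3 : ℝ) / (4 * qR) / (67 / 20) + (T4 : ℝ) / (4 * qR) / (67 / 20) =
      (4 * (T1 : ℝ) * 670 + ((T2 : ℝ) + T3 + T4) * 260) / (871 * (4 * qR)) := by
      field_simp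
      ring
    rw [e, one_lt_div (by positivity)]
    exact hmain
  linarith

theorem ruleCap_false (H : CoreHyp R0 a3 a4 c A) (hR : InBox R0 R0l R0h) (h3 : InBox a3 a3l a3h)
    (h4 : InBox a4 a4l a4h) (hC : InBox c cl ch)
    (hr : ruleCap R0l R0h a3l a3h a4l a4h cl ch = true) : False := by
  have hq := qR_pos
  obtain ⟨r1, r2⟩ := hR
  obtain ⟨a1, a2⟩ := h3
  obtain ⟨b1, b2⟩ := h4
  obtain ⟨c1, c2⟩ := hC
  have hP : (0 : ℝ) < (PP : ℕ) := by
    rw [PP_cast]
    linarith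
  unfold ruleCap at hr
  have h' := lt_spec hr
  have hmain : 871 * (((PP : ℕ) : ℝ)) < 4 * (((2 * K98 - (2 * R0h + a3h + a4h + 2 * ch + AL2) : ℕ)) : ℝ) * 670 +
      ((((sqL (4 * nmx R0l (a3l + cl) * PP) - LAP : ℕ)) : ℝ) +
        ((sqL (4 * nmx R0l (a4l + cl) * PP) - LAP : ℕ) : ℝ) + ((sqL (4 * R0l * PP) - LAP : ℕ) : ℝ)) * 260 := by
    exact_mod_cast h'
  rw [PP_cast] at hmain
  have hcap := H.hcap
  unfold capExpr at hcap
  have mx3 : ((nmx R0l (a3l + cl) : ℕ) : ℝ) ≤ max R0 (a3 + c) * qR :=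
    nmx_le r1 (by
      push_cast
      linarith)
  have mx4 : ((nmx R0l (a4l + cl) : ℕ) : ℝ) ≤ max R0 (a4 + c) * qR :=
    nmx_le r1 (by
      push_cast
      linarith)
  have t2 := max_zero_ge (t := sqL (4 * nmx R0l (a3l + cl) * PP)) (L := LAP) (D := 67 / 20)
    (by norm_num) hP (cap_sqrt_term mx3) rfl
  have t3 := max_zero_ge (t := sqL (4 * nmx R0l (a4l + cl) * PP)) (L := LAP) (D := 67 / 20)
    (by norm_num) hP (cap_sqrt_term mx4) rfl
  have t4 := max_zero_ge (t := sqL (4 * R0l * PP)) (L := LAP) (D := 67 / 20)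
    (by norm_num) hP (cap_sqrt_term r1) rfl
  rw [PP_cast] at t2 t3 t4
  exact cap_combine hmain (cap_first_term r2 a2 b2 c2) t2 t3 t4 hcap

/-- The product lower bound in the star rule. -/
theorem star_frac {a cc al bl : ℝ} {den : ℝ} (ha0 : 0 < a) (hc0 : 0 < cc) (hal0 : 0 ≤ al)
    (hcl0 : 0 ≤ bl) (hal : al ≤ a) (hcl : bl ≤ cc) (hden : den = al + bl) (hd : 0 < den) :
    (bl * al) / den ≤ (cc * a) / (a + cc) := by
  rw [hden] at hd ⊢
  rw [div_le_div_iff₀ hd (by positivity)]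
  have h1 : 0 ≤ al * a * (cc - bl) := by
    apply mul_nonneg (mul_nonneg hal0 ha0.le)
    linarith
  have h2 : 0 ≤ bl * cc * (a - al) := by
    apply mul_nonneg (mul_nonneg hcl0 hc0.le)
    linarith
  nlinarith

/-- The common core of the star rule: a lower bound for `Y`. -/
theorem star_Y {a cc R0' : ℝ} {al cl R0h : ℕ} (hR0 : 0 < R0') (hR0h : R0' * qR ≤ R0h) (hR0h1 : 1 ≤ R0h)
    (ha : (al : ℝ) ≤ a * qR) (hc : (cl : ℝ) ≤ cc * qR) :
    R0' * (nmx (13 * R0h) (4 * (al + cl) + 9 * R0h) : ℕ) / (4 * R0h) ≤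
      max R0' (a + cc) + (9 / 4) * R0' := by
  have hq := qR_pos
  have hRh : (0 : ℝ) < R0h := by exact_mod_cast hR0h1
  rw [div_le_iff₀ (by positivity)]
  rcases nmx_cases (13 * R0h) (4 * (al + cl) + 9 * R0h) with h | h
  · rw [h]
    push_cast
    have := le_max_left R0' (a + cc)
    nlinarith
  · rw [h]
    push_cast
    have h1 := le_max_right R0' (a + cc)
    have h2 : (al : ℝ) + cl ≤ (a + cc) * qR := by
      linarith
    -- `R0' * (al + cl) ≤ (a + cc) * R0h`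
    have h3 : R0' * ((al : ℝ) + cl) ≤ (a + cc) * R0h := by
      have h4 : R0' * ((al : ℝ) + cl) ≤ R0' * ((a + cc) * qR) :=
        mul_le_mul_of_nonneg_left h2 hR0.le
      have h5 : (a + cc) * (R0' * qR) ≤ (a + cc) * R0h := by
        apply mul_le_mul_of_nonneg_left hR0h
        have : 0 ≤ (al : ℝ) + cl := by positivity
        have h6 : 0 ≤ (a + cc) * qR := by linarith
        by_contra hneg
        push Not at hneg
        nlinarith
      nlinarith
    have h7 : (a + cc) * R0h ≤ max R0' (a + cc) * R0h :=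
      mul_le_mul_of_nonneg_right h1 hRh.le
    nlinarith

/-- The star rule gives one disjunct (first form). -/
theorem star_conclusion {R0' a b cc A' : ℝ} {R0h al bl cl Al : ℕ} (hR0 : 0 < R0')
    (hR0h : R0' * qR ≤ R0h) (hR0h1 : 1 ≤ R0h) (ha0 : 0 < a) (hb0 : 0 < b) (hc0 : 0 < cc)
    (ha : (al : ℝ) ≤ a * qR) (hb : (bl : ℝ) ≤ b * qR) (hc : (cl : ℝ) ≤ cc * qR)
    (hA : (Al : ℝ) ≤ A' * qR) (hAl1 : 1 ≤ Al)
    (hr : ruleStarA R0h al bl cl Al = true ∨ ruleStarB R0h al bl cl Al = true) :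
    (317 / 50) * R0' ^ 2 ≤ A' * (b * (a + cc) + cc * a) / (a + cc) * (max R0' (a + cc) + (9 / 4) * R0') := by
  have hq := qR_pos
  have hRh : (0 : ℝ) < R0h := by exact_mod_cast hR0h1
  have hAlpos : (0 : ℝ) < Al := by exact_mod_cast hAl1
  have hApos : 0 < A' := by
    by_contra hneg
    push Not at hneg
    nlinarith
  have hac : 0 < a + cc := by linarith
  set M : ℕ := nmx (13 * R0h) (4 * (al + cl) + 9 * R0h) with hM
  have hY : R0' * (M : ℝ) / (4 * R0h) ≤ max R0' (a + cc) + (9 / 4) * R0' :=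
    star_Y hR0 hR0h hR0h1 ha hc
  have hMnn : (0 : ℝ) ≤ M := by positivity
  -- `X` as the sum
  have hX : (b * (a + cc) + cc * a) / (a + cc) = b + cc * a / (a + cc) := by
    field_simp
  -- lower bound for `X` times the scale: a real number `x` with `x ≤ X * qR`, and the inequality
  suffices h : ∃ x : ℝ, 0 ≤ x ∧ x ≤ (b + cc * a / (a + cc)) * qR ∧
      (317 / 50) * (R0h : ℝ) * R0h * qR ≤ Al * x * M / 4 by
    obtain ⟨x, hx0, hx1, hx2⟩ := h
    -- combine
    have hXnn : 0 ≤ b + cc * a / (a + cc) := by positivity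
    have h1 : (Al : ℝ) * x ≤ (A' * qR) * ((b + cc * a / (a + cc)) * qR) :=
      mul_le_mul hA hx1 hx0 (by positivity)
    have h2 : (Al : ℝ) * x * M / 4 ≤ (A' * qR) * ((b + cc * a / (a + cc)) * qR) * M / 4 := by
      have := mul_le_mul_of_nonneg_right h1 hMnn
      linarith
    have h3 : (317 / 50) * (R0h : ℝ) * R0h * qR ≤
        A' * (b + cc * a / (a + cc)) * M / 4 * qR ^ 2 := by
      have e : (A' * qR) * ((b + cc * a / (a + cc)) * qR) * M / 4 =
          A' * (b + cc * a / (a + cc)) * M / 4 * qR ^ 2 := by ring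
      linarith
    -- divide by `qR`: `(317/50) R0h^2 ≤ A X M / 4 * qR`
    have h4 : (317 / 50) * (R0h : ℝ) * R0h ≤ A' * (b + cc * a / (a + cc)) * M / 4 * qR := by
      have h5 : ((317 / 50) * (R0h : ℝ) * R0h) * qR ≤
          (A' * (b + cc * a / (a + cc)) * M / 4 * qR) * qR := by
        calc _ ≤ A' * (b + cc * a / (a + cc)) * M / 4 * qR ^ 2 := h3
          _ = _ := by ring
      exact le_of_mul_le_mul_right h5 hq
    -- now bring `R0'` in
    have h6 : A' * (b * (a + cc) + cc * a) / (a + cc) = A' * (b + cc * a / (a + cc)) := by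
      rw [mul_div_assoc, hX]
    rw [h6]
    have hAX : 0 ≤ A' * (b + cc * a / (a + cc)) := by positivity
    have h7 : A' * (b + cc * a / (a + cc)) * (R0' * (M : ℝ) / (4 * R0h)) ≤
        A' * (b + cc * a / (a + cc)) * (max R0' (a + cc) + (9 / 4) * R0') :=
      mul_le_mul_of_nonneg_left hY hAX
    refine le_trans ?_ h7
    -- goal: `(317/50) R0'^2 ≤ A X R0' M / (4 R0h)`
    have h8 : A' * (b + cc * a / (a + cc)) * (R0' * (M : ℝ) / (4 * R0h)) =
        R0' * (A' * (b + cc * a / (a + cc)) * M / 4) / R0h := by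
      field_simp
    rw [h8, le_div_iff₀ hRh]
    -- `(317/50) R0'^2 R0h ≤ R0' * (A X M / 4)`
    have h9 : (317 / 50) * (R0' * qR) * R0h ≤ (317 / 50) * (R0h : ℝ) * R0h := by
      have : (R0' * qR) * R0h ≤ (R0h : ℝ) * R0h := mul_le_mul_of_nonneg_right hR0h hRh.le
      linarith
    have h10 : (317 / 50) * (R0' * qR) * R0h ≤ A' * (b + cc * a / (a + cc)) * M / 4 * qR :=
      le_trans h9 h4
    have h11 : (317 / 50) * R0' * R0h ≤ A' * (b + cc * a / (a + cc)) * M / 4 := by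
      have h12 : ((317 / 50) * R0' * R0h) * qR ≤ (A' * (b + cc * a / (a + cc)) * M / 4) * qR := by
        calc _ = (317 / 50) * (R0' * qR) * R0h := by ring
          _ ≤ _ := h10
      exact le_of_mul_le_mul_right h12 hq
    nlinarith
  have hbl : (bl : ℝ) ≤ (b + cc * a / (a + cc)) * qR := by
    have : 0 ≤ cc * a / (a + cc) := by positivity
    nlinarith
  rcases hr with hr | hr
  · -- first form: `x = bl`
    refine ⟨bl, by positivity, hbl, ?_⟩
    unfold ruleStarA at hr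
    have h' := Nat.le_of_ble_eq_true hr
    rw [← hM] at h'
    have h'' : 1268 * (R0h : ℝ) * R0h * ((QQ : ℕ) : ℝ) ≤ 50 * Al * bl * M := by exact_mod_cast h'
    rw [QQ_cast] at h''
    nlinarith
  · -- second form: `x = bl + cl * al / (al + cl)`
    unfold ruleStarB at hr
    rw [Bool.and_eq_true] at hr
    obtain ⟨hd, hr⟩ := hr
    have hd' : 1 ≤ al + cl := Nat.le_of_ble_eq_true hd
    have h' := Nat.le_of_ble_eq_true hr
    rw [← hM] at h'
    have hden : (0 : ℝ) < (al : ℝ) + cl := by exact_mod_cast hd'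
    have h'' : 1268 * (R0h : ℝ) * R0h * ((al : ℝ) + cl) * ((QQ : ℕ) : ℝ) ≤
        50 * Al * ((bl : ℝ) * ((al : ℝ) + cl) + cl * al) * M := by exact_mod_cast h'
    rw [QQ_cast] at h''
    refine ⟨(bl : ℝ) + cl * al / ((al : ℝ) + cl), by positivity, ?_, ?_⟩
    · have hfrac : (cl : ℝ) * al / ((al : ℝ) + cl) ≤ (cc * qR) * (a * qR) / (a * qR + cc * qR) :=
        star_frac (by positivity) (by positivity) (by positivity) (by positivity) ha hc rfl hden
      have e : (cc * qR) * (a * qR) / (a * qR + cc * qR) = cc * a / (a + cc) * qR := by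
        field_simp
      rw [e] at hfrac
      have : (b + cc * a / (a + cc)) * qR = b * qR + cc * a / (a + cc) * qR := by ring
      rw [this]
      linarith
    · have e : (bl : ℝ) + cl * al / ((al : ℝ) + cl) =
          ((bl : ℝ) * ((al : ℝ) + cl) + cl * al) / ((al : ℝ) + cl) := by
        field_simp
      rw [e]
      have e2 : (Al : ℝ) * (((bl : ℝ) * ((al : ℝ) + cl) + cl * al) / ((al : ℝ) + cl)) * M / 4 =
          (50 * Al * ((bl : ℝ) * ((al : ℝ) + cl) + cl * al) * M) / (200 * ((al : ℝ) + cl)) := by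
        field_simp
        ring
      rw [e2, le_div_iff₀ (by positivity)]
      nlinarith

theorem ruleStar_sound (H : CoreHyp R0 a3 a4 c A) (hR : InBox R0 R0l R0h) (h3 : InBox a3 a3l a3h)
    (h4 : InBox a4 a4l a4h) (hC : InBox c cl ch) (hr : ruleStar R0h a3l a3h a4l a4h cl ch = true) :
    CoreCon R0 a3 a4 c A := by
  have hq := qR_pos
  obtain ⟨r1, r2⟩ := hR
  obtain ⟨a1, a2⟩ := h3
  obtain ⟨b1, b2⟩ := h4
  obtain ⟨c1, c2⟩ := hC
  unfold ruleStar at hr
  simp only [Bool.and_eq_true, Bool.or_eq_true] at hr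
  obtain ⟨⟨hAl1, hRh1⟩, hr⟩ := hr
  have hAl1' : 1 ≤ K98 - (R0h + a3h + a4h + ch) := Nat.le_of_ble_eq_true hAl1
  have hRh1' : 1 ≤ R0h := Nat.le_of_ble_eq_true hRh1
  set Al := K98 - (R0h + a3h + a4h + ch) with hAl
  have hAlA : (Al : ℝ) ≤ A * qR := by
    have hle : R0h + a3h + a4h + ch ≤ K98 := by omega
    rw [hAl, Nat.cast_sub hle]
    push_cast
    rw [K98_cast, H.hA]
    nlinarith
  rcases hr with ((h | h) | h) | h
  · exact Or.inl (star_conclusion H.h0 r2 hRh1' H.ha3 H.ha4 H.hc a1 b1 c1 hAlA hAl1' (Or.inl h))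
  · exact Or.inl (star_conclusion H.h0 r2 hRh1' H.ha3 H.ha4 H.hc a1 b1 c1 hAlA hAl1' (Or.inr h))
  · exact Or.inr (star_conclusion H.h0 r2 hRh1' H.ha4 H.ha3 H.hc b1 a1 c1 hAlA hAl1' (Or.inl h))
  · exact Or.inr (star_conclusion H.h0 r2 hRh1' H.ha4 H.ha3 H.hc b1 a1 c1 hAlA hAl1' (Or.inr h))

theorem checkBox_sound (H : CoreHyp R0 a3 a4 c A) (hR : InBox R0 R0l R0h) (h3 : InBox a3 a3l a3h)
    (h4 : InBox a4 a4l a4h) (hC : InBox c cl ch)
    (hr : checkBox R0l R0h a3l a3h a4l a4h cl ch = true) : CoreCon R0 a3 a4 c A := by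
  unfold checkBox at hr
  simp only [Bool.or_eq_true] at hr
  rcases hr with ((h | h) | h) | h
  · exact (ruleLin_false H hR h3 h4 hC h).elim
  · exact (rulePair_false H hR h3 h4 hC h).elim
  · exact (ruleCap_false H hR h3 h4 hC h).elim
  · exact ruleStar_sound H hR h3 h4 hC h

theorem inBox_split {x : ℝ} {l h : ℕ} (m : ℕ) (hx : InBox x l h) :
    InBox x l m ∨ InBox x m h := by
  by_cases hm : x * qR ≤ (m : ℝ)
  · exact Or.inl ⟨hx.1, hm⟩
  · exact Or.inr ⟨(not_le.1 hm).le, hx.2⟩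

theorem recBox_sound (H : CoreHyp R0 a3 a4 c A) (fuel : ℕ) :
    ∀ {R0l R0h a3l a3h a4l a4h cl ch : ℕ}, InBox R0 R0l R0h → InBox a3 a3l a3h → InBox a4 a4l a4h →
      InBox c cl ch → recBox fuel R0l R0h a3l a3h a4l a4h cl ch = true → CoreCon R0 a3 a4 c A := by
  induction fuel with
  | zero =>
    intro R0l R0h a3l a3h a4l a4h cl ch hR h3 h4 hC hr
    exact checkBox_sound H hR h3 h4 hC hr
  | succ fuel ih =>
    intro R0l R0h a3l a3h a4l a4h cl ch hR h3 h4 hC hr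
    simp only [recBox, Bool.or_eq_true] at hr
    rcases hr with hr | hr
    · exact checkBox_sound H hR h3 h4 hC hr
    · cases hb1 : Nat.ble (nmx (25 * (R0h - R0l)) (nmx (a4h - a4l) (ch - cl))) (a3h - a3l) with
      | true =>
        simp only [hb1, cond_true, Bool.and_eq_true] at hr
        rcases inBox_split ((a3l + a3h) / 2) h3 with h | h
        · exact ih hR h h4 hC hr.1
        · exact ih hR h h4 hC hr.2
      | false =>
        simp only [hb1, cond_false] at hr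
        cases hb2 : Nat.ble (nmx (25 * (R0h - R0l)) (ch - cl)) (a4h - a4l) with
        | true =>
          simp only [hb2, cond_true, Bool.and_eq_true] at hr
          rcases inBox_split ((a4l + a4h) / 2) h4 with h | h
          · exact ih hR h3 h hC hr.1
          · exact ih hR h3 h hC hr.2
        | false =>
          simp only [hb2, cond_false] at hr
          cases hb3 : Nat.ble (25 * (R0h - R0l)) (ch - cl) with
          | true =>
            simp only [hb3, cond_true, Bool.and_eq_true] at hr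
            rcases inBox_split ((cl + ch) / 2) hC with h | h
            · exact ih hR h3 h4 h hr.1
            · exact ih hR h3 h4 h hr.2
          | false =>
            simp only [hb3, cond_false, Bool.and_eq_true] at hr
            rcases inBox_split ((R0l + R0h) / 2) hR with h | h
            · exact ih h h3 h4 hC hr.1
            · exact ih h h3 h4 hC hr.2

end Rules

end NumCoreGrid

open NumCoreGrid in
/-- The final numeric lemma. -/
theorem num_core {R0 a3 a4 c A : ℝ} (h0 : 0 < R0) (h0' : R0 ≤ 3 / 50) (ha3 : 0 < a3) (ha4 : 0 < a4)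
    (hc : 0 < c) (hA : A = 9 / 8 - R0 - a3 - a4 - c) (hcA : c ≤ A) (h3A : a3 ≤ 2 * A) (h4A : a4 ≤ 2 * A)
    (h6A : 9 / 8 - R0 ≤ 6 * A) (hB : 9 / 4 < Bhat R0 (a3 + a4) c) (hcap : capExpr R0 a3 a4 c ≤ 1) :
    (317 / 50) * R0 ^ 2 ≤ A * (a4 * (a3 + c) + c * a3) / (a3 + c) * (max R0 (a3 + c) + (9 / 4) * R0) ∨
    (317 / 50) * R0 ^ 2 ≤ A * (a3 * (a4 + c) + c * a4) / (a4 + c) * (max R0 (a4 + c) + (9 / 4) * R0) := by
  have H : CoreHyp R0 a3 a4 c A :=
    ⟨h0, h0', ha3, ha4, hc, hA, hcA, h3A, h4A, h6A, hB, hcap⟩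
  have hq := qR_pos
  have hq' : qR = 33554432000 := rfl
  refine recBox_sound H 31 (R0l := 0) (R0h := 2013265920) (a3l := 0) (a3h := 37748736000) (a4l := 0)
    (a4h := 37748736000) (cl := 0) (ch := 18874368000) ?_ ?_ ?_ ?_ recBox_all
  · constructor
    · simp only [Nat.cast_zero]
      positivity
    · rw [hq']
      push_cast
      nlinarith
  · constructor
    · simp only [Nat.cast_zero]
      positivity
    · rw [hq']
      push_cast
      nlinarith
  · constructor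
    · simp only [Nat.cast_zero]
      positivity
    · rw [hq']
      push_cast
      nlinarith
  · constructor
    · simp only [Nat.cast_zero]
      positivity
    · rw [hq']
      push_cast
      nlinarith

end Vale.Agent.Lib.P226
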