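import Vale.Agent.Lib.P226.NumFII

/-!
Soundness of the check `chkI` (the direct form of the wedge moment difference).
-/

namespace Vale.Agent.Lib.P226.NumF

theorem wP_mono {A s A' s' : ℝ} (h0 : 0 ≤ A) (hA : A ≤ A') (hs0 : 0 ≤ s) (hs : s ≤ s')
    (hs' : s' ≤ A') : (A + s) ^ 2 * (2 * A - s) ≤ (A' + s') ^ 2 * (2 * A' - s') := by
  have hA'0 : 0 ≤ A' := le_trans h0 hA
  have h1 : (A + s) ^ 2 * (2 * A - s) ≤ (A' + s) ^ 2 * (2 * A' - s) := by
    have e : (A' + s) ^ 2 * (2 * A' - s) - (A + s) ^ 2 * (2 * A - s)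
        = (A' - A) * (2 * (A' ^ 2 + A' * A + A ^ 2) + 3 * s * (A' + A)) := by ring
    have : 0 ≤ (A' - A) * (2 * (A' ^ 2 + A' * A + A ^ 2) + 3 * s * (A' + A)) := by
      apply mul_nonneg (by linarith)
      positivity
    linarith
  have h2 : (A' + s) ^ 2 * (2 * A' - s) ≤ (A' + s') ^ 2 * (2 * A' - s') := by
    have e : (A' + s') ^ 2 * (2 * A' - s') - (A' + s) ^ 2 * (2 * A' - s)
        = (s' - s) * ((A' ^ 2 - s' ^ 2) + (A' ^ 2 - s' * s) + (A' ^ 2 - s ^ 2)) := by ring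
    have hss' : 0 ≤ s' := le_trans hs0 hs
    have a1 : 0 ≤ A' ^ 2 - s' ^ 2 := by nlinarith
    have a2 : 0 ≤ A' ^ 2 - s' * s := by nlinarith
    have a3 : 0 ≤ A' ^ 2 - s ^ 2 := by nlinarith
    have : 0 ≤ (s' - s) * ((A' ^ 2 - s' ^ 2) + (A' ^ 2 - s' * s) + (A' ^ 2 - s ^ 2)) := by
      apply mul_nonneg (by linarith)
      linarith
    linarith
  exact le_trans h1 h2

theorem wM_mono {A n A' n' : ℝ} (hn0 : 0 ≤ n') (hn : n' ≤ n) (hnA : n ≤ A) (hA : A ≤ A') :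
    (A - n) ^ 2 * (2 * A + n) ≤ (A' - n') ^ 2 * (2 * A' + n') := by
  have hn00 : 0 ≤ n := le_trans hn0 hn
  have hA0 : 0 ≤ A := le_trans hn00 hnA
  have hA'0 : 0 ≤ A' := le_trans hA0 hA
  have h1 : (A - n) ^ 2 * (2 * A + n) ≤ (A' - n) ^ 2 * (2 * A' + n) := by
    have e : (A' - n) ^ 2 * (2 * A' + n) - (A - n) ^ 2 * (2 * A + n)
        = (A' - A) * (2 * (A' ^ 2 + A' * A + A ^ 2) - 3 * n * (A' + A)) := by ring
    have a1 : 0 ≤ 2 * (A' ^ 2 + A' * A + A ^ 2) - 3 * n * (A' + A) := by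
      have b1 : n * A' ≤ A * A' := mul_le_mul_of_nonneg_right hnA hA'0
      have b2 : n * A ≤ A * A := mul_le_mul_of_nonneg_right hnA hA0
      nlinarith [mul_nonneg (sub_nonneg.2 hA) hA0, mul_nonneg (sub_nonneg.2 hA) hA'0]
    have : 0 ≤ (A' - A) * (2 * (A' ^ 2 + A' * A + A ^ 2) - 3 * n * (A' + A)) :=
      mul_nonneg (by linarith) a1
    linarith
  have h2 : (A' - n) ^ 2 * (2 * A' + n) ≤ (A' - n') ^ 2 * (2 * A' + n') := by
    have e : (A' - n') ^ 2 * (2 * A' + n') - (A' - n) ^ 2 * (2 * A' + n)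
        = (n - n') * ((A' ^ 2 - n ^ 2) + (A' ^ 2 - n * n') + (A' ^ 2 - n' ^ 2)) := by ring
    have hnA' : n ≤ A' := le_trans hnA hA
    have a1 : 0 ≤ A' ^ 2 - n ^ 2 := by nlinarith
    have a2 : 0 ≤ A' ^ 2 - n * n' := by nlinarith
    have a3 : 0 ≤ A' ^ 2 - n' ^ 2 := by nlinarith
    have : 0 ≤ (n - n') * ((A' ^ 2 - n ^ 2) + (A' ^ 2 - n * n') + (A' ^ 2 - n' ^ 2)) := by
      apply mul_nonneg (by linarith)
      linarith
    linarith
  exact le_trans h1 h2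

theorem wP_cast (a s : ℕ) (h : s ≤ 2 * a) :
    ((wP a s : ℕ) : ℝ) = ((a : ℝ) + s) ^ 2 * (2 * a - s) := by
  simp only [wP, Nat.add_eq, Nat.mul_eq, Nat.sub_eq]
  rw [Nat.cast_mul, Nat.cast_mul, Nat.cast_sub h, Nat.cast_add, Nat.cast_mul]
  push_cast
  ring

theorem wM_cast (a n : ℕ) (h : n ≤ a) :
    ((wM a n : ℕ) : ℝ) = ((a : ℝ) - n) ^ 2 * (2 * a + n) := by
  simp only [wM, Nat.add_eq, Nat.mul_eq, Nat.sub_eq]
  rw [Nat.cast_mul, Nat.cast_mul, Nat.cast_add, Nat.cast_sub h, Nat.cast_mul]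
  push_cast
  ring

/-- Soundness of the final test of the direct form. -/
theorem tailI_sound {x A1 s1 A2 n : ℝ} {xI A1I s1I A2I nI : I} (hx : Enc x xI) (hA1 : Enc A1 A1I)
    (hs1 : Enc s1 s1I) (hA2 : Enc A2 A2I) (hn : Enc n nI) (cs1 : s1 ≤ A1) (cs2 : n ≤ A2)
    (h : tailI xI A1I s1I A2I nI = true) :
    (((A1 + s1) ^ 2 * (2 * A1 - s1) - (A2 - n) ^ 2 * (2 * A2 + n)) / 81) ^ 2 * (x + 9 / 4)
      ≤ 193 / 10 := by
  have hS := SS_pos
  have hA10 := hA1.nonneg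
  have hA20 := hA2.nonneg
  have hs10 := hs1.nonneg
  have hn0 := hn.nonneg
  have hx0 := hx.nonneg
  simp only [tailI, force_eq, Nat.ble_eq, Bool.and_eq_true] at h
  obtain ⟨g1, h⟩ := h
  set L2 := (bif Nat.ble nI.h A2I.l then wM A2I.l nI.h else 0) with hL2
  set U1 := wP A1I.h s1I.h with hU1
  set U2 := wM A2I.h nI.l with hU2
  set u := maxN (Nat.sub U1 L2) U2 with hu
  set W1 := (A1 + s1) ^ 2 * (2 * A1 - s1) with hW1
  set W2 := (A2 - n) ^ 2 * (2 * A2 + n) with hW2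
  have hW10 : 0 ≤ W1 := by
    have : 0 ≤ 2 * A1 - s1 := by linarith
    positivity
  have hW20 : 0 ≤ W2 := by positivity
  have hS3 : (0 : ℝ) < (SS : ℝ) ^ 3 := by positivity
  -- upper bound of `W1`
  have g1' : (s1I.h : ℝ) ≤ A1I.h := by exact_mod_cast g1
  have hA1h : 0 ≤ (A1I.h : ℝ) := Nat.cast_nonneg _
  have bU1 : W1 * (SS : ℝ) ^ 3 ≤ (U1 : ℝ) := by
    have a0 : s1I.h ≤ 2 * A1I.h := by omega
    rw [hU1, wP_cast _ _ a0]
    have a1 := wP_mono (A := A1) (s := s1) (A' := (A1I.h : ℝ) / SS) (s' := (s1I.h : ℝ) / SS)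
      hA10 (by rw [le_div_iff₀ hS]; exact hA1.2) hs10 (by rw [le_div_iff₀ hS]; exact hs1.2)
      (by rw [div_le_div_iff_of_pos_right hS]; exact g1')
    have e : ((A1I.h : ℝ) / SS + (s1I.h : ℝ) / SS) ^ 2 * (2 * ((A1I.h : ℝ) / SS) - (s1I.h : ℝ) / SS)
        * (SS : ℝ) ^ 3 = ((A1I.h : ℝ) + s1I.h) ^ 2 * (2 * (A1I.h : ℝ) - s1I.h) := by
      field_simp
    rw [← e]
    exact mul_le_mul_of_nonneg_right a1 hS3.le
  -- lower bound of `W2`
  have bL2 : (L2 : ℝ) ≤ W2 * (SS : ℝ) ^ 3 := by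
    rw [hL2]
    cases hc : Nat.ble nI.h A2I.l with
    | false =>
      simp only [cond_false, Nat.cast_zero]
      positivity
    | true =>
      simp only [cond_true]
      have a0 : nI.h ≤ A2I.l := Nat.le_of_ble_eq_true hc
      rw [wM_cast _ _ a0]
      have a0' : (nI.h : ℝ) ≤ A2I.l := by exact_mod_cast a0
      have a1 := wM_mono (A := (A2I.l : ℝ) / SS) (n := (nI.h : ℝ) / SS) (A' := A2) (n' := n)
        hn0 (by rw [le_div_iff₀ hS]; exact hn.2)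
        (by rw [div_le_div_iff_of_pos_right hS]; exact a0')
        (by rw [div_le_iff₀ hS]; exact hA2.1)
      have e : ((A2I.l : ℝ) / SS - (nI.h : ℝ) / SS) ^ 2
          * (2 * ((A2I.l : ℝ) / SS) + (nI.h : ℝ) / SS)
          * (SS : ℝ) ^ 3 = ((A2I.l : ℝ) - nI.h) ^ 2 * (2 * (A2I.l : ℝ) + nI.h) := by
        field_simp
      rw [← e]
      exact mul_le_mul_of_nonneg_right a1 hS3.le
  -- upper bound of `W2`
  have bU2 : W2 * (SS : ℝ) ^ 3 ≤ (U2 : ℝ) := by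
    have a0' : (nI.l : ℝ) ≤ A2I.h := by
      have b1 := hn.1
      have b2 := hA2.2
      have b3 : n * (SS : ℝ) ≤ A2 * SS := mul_le_mul_of_nonneg_right cs2 hS.le
      linarith
    have a0 : nI.l ≤ A2I.h := by exact_mod_cast a0'
    rw [hU2, wM_cast _ _ a0]
    have a1 := wM_mono (A := A2) (n := n) (A' := (A2I.h : ℝ) / SS) (n' := (nI.l : ℝ) / SS)
      (by positivity) (by rw [div_le_iff₀ hS]; exact hn.1) cs2
      (by rw [le_div_iff₀ hS]; exact hA2.2)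
    have e : ((A2I.h : ℝ) / SS - (nI.l : ℝ) / SS) ^ 2
        * (2 * ((A2I.h : ℝ) / SS) + (nI.l : ℝ) / SS)
        * (SS : ℝ) ^ 3 = ((A2I.h : ℝ) - nI.l) ^ 2 * (2 * (A2I.h : ℝ) + nI.l) := by
      field_simp
    rw [← e]
    exact mul_le_mul_of_nonneg_right a1 hS3.le
  -- the absolute value of the difference
  have bZ : |W1 - W2| * (SS : ℝ) ^ 3 ≤ (u : ℝ) := by
    have a1 : ((Nat.sub U1 L2 : ℕ) : ℝ) ≤ u := by exact_mod_cast maxN_left _ _
    have a2 : (U2 : ℝ) ≤ u := by exact_mod_cast maxN_right _ _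
    have a3 := cast_trunc U1 L2
    rcases abs_cases (W1 - W2) with ⟨e, _⟩ | ⟨e, _⟩
    · rw [e]
      have : (W1 - W2) * (SS : ℝ) ^ 3 = W1 * (SS : ℝ) ^ 3 - W2 * (SS : ℝ) ^ 3 := by ring
      rw [this]; linarith
    · rw [e]
      have : -(W1 - W2) * (SS : ℝ) ^ 3 = W2 * (SS : ℝ) ^ 3 - W1 * (SS : ℝ) ^ 3 := by ring
      have b : 0 ≤ W1 * (SS : ℝ) ^ 3 := by positivity
      rw [this]; linarith
  have d5 : (x + 9 / 4) * (4 * SS) ≤ 4 * (xI.h : ℝ) + 9 * SS := by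
    have h2 := hx.2
    have e : (x + 9 / 4) * (4 * (SS : ℝ)) = 4 * (x * SS) + 9 * SS := by ring
    rw [e]
    linarith
  have d6 : (u : ℝ) * u * (4 * (xI.h : ℝ) + 9 * SS) * 10 ≤ 5065092 * (SS : ℝ) ^ 7 := by
    have h' : u * u * (4 * xI.h + 9 * SS) * 10 ≤ 5065092 * SS ^ 7 := h
    have h'' := (Nat.cast_le (α := ℝ)).2 h'
    simp only [Nat.cast_mul, Nat.cast_add, Nat.cast_ofNat, Nat.cast_pow] at h''
    exact h''
  set Z := |W1 - W2| with hZ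
  have hZ0 : 0 ≤ Z := abs_nonneg _
  have d7 : (Z * (SS : ℝ) ^ 3) * (Z * (SS : ℝ) ^ 3) ≤ (u : ℝ) * u :=
    mul_le_mul bZ bZ (by positivity) (Nat.cast_nonneg _)
  have hx1 : 0 ≤ x + 9 / 4 := by positivity
  have d8 : ((Z * (SS : ℝ) ^ 3) * (Z * (SS : ℝ) ^ 3)) * ((x + 9 / 4) * (4 * SS))
      ≤ (u : ℝ) * u * (4 * (xI.h : ℝ) + 9 * SS) :=
    mul_le_mul d7 d5 (by positivity) (by positivity)
  have d9 : (Z ^ 2 * (x + 9 / 4) * 40) * (SS : ℝ) ^ 7 ≤ 5065092 * (SS : ℝ) ^ 7 := by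
    have e : (Z ^ 2 * (x + 9 / 4) * 40) * (SS : ℝ) ^ 7
        = ((Z * (SS : ℝ) ^ 3) * (Z * (SS : ℝ) ^ 3)) * ((x + 9 / 4) * (4 * SS)) * 10 := by ring
    rw [e]
    linarith
  have d10 := le_of_mul_le_mul_right d9 (by positivity)
  have e : ((W1 - W2) / 81) ^ 2 = Z ^ 2 / 6561 := by
    rw [hZ, sq_abs]; ring
  rw [e]
  have : Z ^ 2 / 6561 * (x + 9 / 4) = (Z ^ 2 * (x + 9 / 4) * 40) / 262440 := by ring
  rw [this, div_le_iff₀ (by norm_num)]
  linarith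

/-- The conclusion of the check for the direct form. -/
def GoalI (x b : ℝ) : Prop :=
  1 ≤ x → b ≤ 1 →
    (((Real.sqrt (16 + x - 8 * b) + (4 + 3 * b - x) / Real.sqrt (1 + x + 2 * b)) ^ 2
        * (2 * Real.sqrt (16 + x - 8 * b) - (4 + 3 * b - x) / Real.sqrt (1 + x + 2 * b))
      - (Real.sqrt (1 + 16 * x - 8 * b) - (4 * x + 3 * b - 1) / Real.sqrt (1 + x + 2 * b)) ^ 2
        * (2 * Real.sqrt (1 + 16 * x - 8 * b) + (4 * x + 3 * b - 1) / Real.sqrt (1 + x + 2 * b)))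
      / 81) ^ 2 * (x + 9 / 4) ≤ 193 / 10

/-- Cauchy-Schwarz in the form used by the direct check. -/
theorem cs_div {Y P F : ℝ} (hF : 0 < F) (h : P ^ 2 ≤ Y * F) :
    P / Real.sqrt F ≤ Real.sqrt Y := by
  apply Real.le_sqrt_of_sq_le
  rw [div_pow, Real.sq_sqrt hF.le, div_le_iff₀ hF]
  exact h

theorem chkI_sound (x b : ℝ) (p q : I) (hx : Enc x p) (hb : Enc b q)
    (h : chkI p q = true) : GoalI x b := by
  intro hx1 hb1
  have hb0 := hb.nonneg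
  have hbb : b ^ 2 ≤ x := by
    have : b * b ≤ 1 * 1 := mul_le_mul hb1 hb1 hb0 (by norm_num)
    rw [sq]
    linarith
  have hF : 0 < 1 + x + 2 * b := by linarith
  have e1 : (16 + x - 8 * b) * (1 + x + 2 * b) - (4 + 3 * b - x) ^ 2 = 25 * (x - b ^ 2) := by ring
  have e2 : (1 + 16 * x - 8 * b) * (1 + x + 2 * b) - (4 * x + 3 * b - 1) ^ 2
      = 25 * (x - b ^ 2) := by ring
  have cs1 : (4 + 3 * b - x) / Real.sqrt (1 + x + 2 * b) ≤ Real.sqrt (16 + x - 8 * b) :=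
    cs_div hF (by linarith)
  have cs2 : (4 * x + 3 * b - 1) / Real.sqrt (1 + x + 2 * b) ≤ Real.sqrt (1 + 16 * x - 8 * b) :=
    cs_div hF (by linarith)
  unfold chkI at h
  have c1 : Enc 1 (cI 1) := by simpa using enc_c 1
  have c4 : Enc 4 (cI 4) := by simpa using enc_c 4
  have c16 : Enc 16 (cI 16) := by simpa using enc_c 16
  have h8b : Enc (8 * b) (smulI 8 q) := by simpa using enc_smul 8 hb
  have h16x : Enc (16 * x) (smulI 16 p) := by simpa using enc_smul 16 hx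
  have h2b : Enc (2 * b) (smulI 2 q) := by simpa using enc_smul 2 hb
  have h3b : Enc (3 * b) (smulI 3 q) := by simpa using enc_smul 3 hb
  have h4x : Enc (4 * x) (smulI 4 p) := by simpa using enc_smul 4 hx
  refine bindSub (enc_add c16 hx) h8b h fun pa1 hpa1 h => ?_
  refine bindSub (enc_add c1 h16x) h8b h fun pa2 hpa2 h => ?_
  refine bindE (enc_add (enc_add c1 hx) h2b) h fun ff hff h => ?_
  refine bindSub (enc_add c4 h3b) hx h fun p1 hp1 h => ?_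
  refine bindSub (enc_add h4x h3b) c1 h fun n2 hn2 h => ?_
  refine bindSqrt hpa1 h fun A1 hA1 h => ?_
  refine bindSqrt hpa2 h fun A2 hA2 h => ?_
  refine bindSqrt hff h fun C hC h => ?_
  refine bindDiv hp1 hC h fun s1 hs1 h => ?_
  refine bindDiv hn2 hC h fun n hn h => ?_
  exact tailI_sound hx hA1 hs1 hA2 hn cs1 cs2 h

end Vale.Agent.Lib.P226.NumF
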