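import Vale.Agent.Lib.P226.NumFDefs

/-!
The kernel runs of the recursive cover for the two regions.
-/

namespace Vale.Agent.Lib.P226.NumF

theorem runII1 : cover chkII 4 30 0 524288 0 16777216 = true := by decide +kernel
theorem runII2 : cover chkII 4 30 524288 1048576 0 16777216 = true := by decide +kernel
theorem runII3 : cover chkII 4 30 1048576 2097152 0 16777216 = true := by decide +kernel
theorem runII4 : cover chkII 4 30 2097152 4194304 0 16777216 = true := by decide +kernel
theorem runII5 : cover chkII 4 30 4194304 6291456 0 16777216 = true := by decide +kernel
theorem runII6 : cover chkII 4 30 6291456 8388608 0 16777216 = true := by decide +kernel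

theorem runI1 : cover chkI 1 30 16777216 20971520 0 16777216 = true := by decide +kernel
theorem runI2 : cover chkI 1 30 20971520 25165824 0 16777216 = true := by decide +kernel
theorem runI3 : cover chkI 1 30 25165824 29360128 0 16777216 = true := by decide +kernel
theorem runI4 : cover chkI 1 30 29360128 33554432 0 16777216 = true := by decide +kernel

end Vale.Agent.Lib.P226.NumF
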