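import Vale.Agent.Lib.P226.Basic
import Vale.Agent.Lib.P226.NumFI
import Vale.Agent.Lib.P226.NumFRun

/-!
The numerical bound `Fabs_bound` for the truncated wedge moment: a verified subdivision on two
regions (direct form for `Rl ≤ 2 R0`, stable form for `Rl ≥ 2 R0`), and the algebra relating the
functional `Fabs` to the two checked expressions.
-/

namespace Vale.Agent.Lib.P226

namespace NumF

theorem enc_mk {t : ℝ} {a b : ℕ} (h1 : (a : ℝ) ≤ t * (SS : ℝ)) (h2 : t * (SS : ℝ) ≤ b) :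
    Enc t ⟨a, b⟩ := ⟨h1, h2⟩

theorem SS_val : (SS : ℝ) = 16777216 := by
  have : (SS : ℕ) = 16777216 := rfl
  rw [this]; norm_num

/-- The stable form holds on the region `t ≤ 1 / 2`. -/
theorem regionII {t b : ℝ} (h0 : 0 ≤ t) (h1 : t ≤ 1 / 2) (hb0 : 0 ≤ b) (hb1 : b ≤ 1) :
    GoalII t b := by
  have key := fun f tl th bl bh =>
    cover_sound (chk := chkII) (w := 4) (G := GoalII) chkII_sound f tl th bl bh
  have hS := SS_val
  have hb : Enc b ⟨0, 16777216⟩ := by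
    apply enc_mk
    · rw [hS]; simp only [Nat.cast_zero]; positivity
    · rw [hS]; push_cast; linarith
  have ht0 : 0 ≤ t * (SS : ℝ) := by rw [hS]; positivity
  have ht1 : t * (SS : ℝ) ≤ 8388608 := by rw [hS]; linarith
  rcases le_total (t * (SS : ℝ)) 524288 with a1 | a1
  · exact key _ _ _ _ _ runII1 t b (enc_mk (by simpa using ht0) (by exact_mod_cast a1)) hb
  rcases le_total (t * (SS : ℝ)) 1048576 with a2 | a2
  · exact key _ _ _ _ _ runII2 t b (enc_mk (by exact_mod_cast a1) (by exact_mod_cast a2)) hb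
  rcases le_total (t * (SS : ℝ)) 2097152 with a3 | a3
  · exact key _ _ _ _ _ runII3 t b (enc_mk (by exact_mod_cast a2) (by exact_mod_cast a3)) hb
  rcases le_total (t * (SS : ℝ)) 4194304 with a4 | a4
  · exact key _ _ _ _ _ runII4 t b (enc_mk (by exact_mod_cast a3) (by exact_mod_cast a4)) hb
  rcases le_total (t * (SS : ℝ)) 6291456 with a5 | a5
  · exact key _ _ _ _ _ runII5 t b (enc_mk (by exact_mod_cast a4) (by exact_mod_cast a5)) hb
  · exact key _ _ _ _ _ runII6 t b (enc_mk (by exact_mod_cast a5) (by exact_mod_cast ht1)) hb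

/-- The direct form holds on the region `1 ≤ x ≤ 2`. -/
theorem regionI {x b : ℝ} (h0 : 1 ≤ x) (h1 : x ≤ 2) (hb0 : 0 ≤ b) (hb1 : b ≤ 1) :
    GoalI x b := by
  have key := fun f tl th bl bh =>
    cover_sound (chk := chkI) (w := 1) (G := GoalI) chkI_sound f tl th bl bh
  have hS := SS_val
  have hb : Enc b ⟨0, 16777216⟩ := by
    apply enc_mk
    · rw [hS]; simp only [Nat.cast_zero]; positivity
    · rw [hS]; push_cast; linarith
  have ht0 : 16777216 ≤ x * (SS : ℝ) := by rw [hS]; linarith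
  have ht1 : x * (SS : ℝ) ≤ 33554432 := by rw [hS]; linarith
  rcases le_total (x * (SS : ℝ)) 20971520 with a1 | a1
  · exact key _ _ _ _ _ runI1 x b (enc_mk (by exact_mod_cast ht0) (by exact_mod_cast a1)) hb
  rcases le_total (x * (SS : ℝ)) 25165824 with a2 | a2
  · exact key _ _ _ _ _ runI2 x b (enc_mk (by exact_mod_cast a1) (by exact_mod_cast a2)) hb
  rcases le_total (x * (SS : ℝ)) 29360128 with a3 | a3
  · exact key _ _ _ _ _ runI3 x b (enc_mk (by exact_mod_cast a2) (by exact_mod_cast a3)) hb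
  · exact key _ _ _ _ _ runI4 x b (enc_mk (by exact_mod_cast a3) (by exact_mod_cast ht1)) hb

theorem sqrt_div_nine {Y : ℝ} (hY : 0 ≤ Y) : Real.sqrt (Y / 9) = Real.sqrt Y / 3 := by
  rw [Real.sqrt_div hY, show (9 : ℝ) = 3 ^ 2 by norm_num, Real.sqrt_sq (by norm_num)]

theorem Wd_nine {Y P F : ℝ} (hY : 0 ≤ Y) (hF : 0 < F) :
    Wd (Y / 9) (P / 3) F
      = (Real.sqrt Y + P / Real.sqrt F) ^ 2 * (2 * Real.sqrt Y - P / Real.sqrt F) / 81 := by
  have hc : 0 < Real.sqrt F := Real.sqrt_pos.2 hF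
  unfold Wd
  rw [sqrt_div_nine hY]
  set a := Real.sqrt Y with ha
  set c := Real.sqrt F with hc'
  have ea : Y = a ^ 2 := (Real.sq_sqrt hY).symm
  have ec : F = c ^ 2 := (Real.sq_sqrt hF.le).symm
  rw [ea, ec]
  field_simp
  ring

theorem Wd_stable {Y P F : ℝ} (hY : 0 ≤ Y) (hF : 0 < F)
    (hD : 0 < Real.sqrt Y - P / Real.sqrt F) :
    Wd (Y / 9) (P / 3) F
      = (Y * F - P ^ 2) ^ 2 / (81 * F ^ 2) * Rf (Real.sqrt Y) (Real.sqrt Y - P / Real.sqrt F) := by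
  have hc : 0 < Real.sqrt F := Real.sqrt_pos.2 hF
  rw [Wd_nine hY hF]
  unfold Rf
  set a := Real.sqrt Y with ha
  set c := Real.sqrt F with hc'
  have ea : Y = a ^ 2 := (Real.sq_sqrt hY).symm
  have ec : F = c ^ 2 := (Real.sq_sqrt hF.le).symm
  set s := P / c with hs
  have eP : P = s * c := by
    rw [hs]; field_simp
  set D := a - s with hDdef
  have e1 : Y * F - P ^ 2 = c ^ 2 * ((a + s) * D) := by
    rw [ea, ec, eP, hDdef]; ring
  have e2 : a + D = 2 * a - s := by rw [hDdef]; ring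
  rw [e1, e2, ec]
  field_simp

theorem Wd_scale {l p q r : ℝ} (hl : 0 < l) (hr : 0 < r) :
    Wd (l * p) (l * q) (l * r) = l * Real.sqrt l * Wd p q r := by
  have h1 : 0 < Real.sqrt l := Real.sqrt_pos.2 hl
  have h2 : 0 < Real.sqrt r := Real.sqrt_pos.2 hr
  unfold Wd
  rw [Real.sqrt_mul hl.le p, Real.sqrt_mul hl.le r]
  set m := Real.sqrt l with hm
  have em : l = m ^ 2 := (Real.sq_sqrt hl.le).symm
  rw [em]
  field_simp

theorem Fabs_scale {l a c w : ℝ} (hl : 0 < l) (hF : 0 < a + c - 2 * w) :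
    Fabs (l * a) (l * c) (l * w) = l * Real.sqrt l * Fabs a c w := by
  unfold Fabs
  have e1 : (16 * (l * a) + l * c + 8 * (l * w)) / 9 = l * ((16 * a + c + 8 * w) / 9) := by ring
  have e2 : (4 * (l * a) - 3 * (l * w) - l * c) / 3 = l * ((4 * a - 3 * w - c) / 3) := by ring
  have e3 : l * a + l * c - 2 * (l * w) = l * (a + c - 2 * w) := by ring
  have e4 : (l * a + 16 * (l * c) + 8 * (l * w)) / 9 = l * ((a + 16 * c + 8 * w) / 9) := by ring
  have e5 : (l * a + 3 * (l * w) - 4 * (l * c)) / 3 = l * ((a + 3 * w - 4 * c) / 3) := by ring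
  rw [e1, e2, e3, e4, e5, Wd_scale hl hF, Wd_scale hl hF]
  ring

/-- `Fabs` at `R0 = 1` in the direct form. -/
theorem Fabs_direct {x b : ℝ} (hx : 1 ≤ x) (hb0 : 0 ≤ b) (hb1 : b ≤ 1) :
    Fabs 1 x (-b)
      = ((Real.sqrt (16 + x - 8 * b) + (4 + 3 * b - x) / Real.sqrt (1 + x + 2 * b)) ^ 2
        * (2 * Real.sqrt (16 + x - 8 * b) - (4 + 3 * b - x) / Real.sqrt (1 + x + 2 * b))
      - (Real.sqrt (1 + 16 * x - 8 * b) - (4 * x + 3 * b - 1) / Real.sqrt (1 + x + 2 * b)) ^ 2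
        * (2 * Real.sqrt (1 + 16 * x - 8 * b) + (4 * x + 3 * b - 1) / Real.sqrt (1 + x + 2 * b)))
      / 81 := by
  unfold Fabs
  have hF : 0 < 1 + x + 2 * b := by linarith
  have e1 : (16 * 1 + x + 8 * (-b)) = 16 + x - 8 * b := by ring
  have e2 : (4 * 1 - 3 * (-b) - x) = 4 + 3 * b - x := by ring
  have e3 : 1 + x - 2 * (-b) = 1 + x + 2 * b := by ring
  have e4 : (1 + 16 * x + 8 * (-b)) = 1 + 16 * x - 8 * b := by ring
  have e5 : (1 + 3 * (-b) - 4 * x) = -(4 * x + 3 * b - 1) := by ring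
  rw [e1, e2, e3, e4, e5, Wd_nine (by linarith) hF, Wd_nine (by linarith) hF]
  rw [neg_div]
  have e6 : ∀ u v : ℝ, u + -v = u - v := fun u v => by ring
  have e7 : ∀ u v : ℝ, 2 * u - -v = 2 * u + v := fun u v => by ring
  rw [e6, e7]
  ring

/-- `Fabs` at `Rl = 1` in the stable form. -/
theorem Fabs_stable {t b : ℝ} (h0 : 0 ≤ t) (hb0 : 0 ≤ b) (hb1 : b ≤ 1) (ht1 : t ≤ 1)
    (h1 : 0 < D1f t b) (h2 : 0 < D2f t b) :
    Fabs t 1 (-(b * t))
      = t ^ 2 * ((625 / 81) * ((1 - b * (b * t)) / (1 + t + 2 * (b * t))) ^ 2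
        * (Rf (A1f t b) (D1f t b) - Rf (A2f t b) (D2f t b))) := by
  have hbt : 0 ≤ b * t := by positivity
  have hbt1 : b * t ≤ 1 := by nlinarith
  have hF : 0 < 1 + t + 2 * (b * t) := by linarith
  have hc : Real.sqrt (1 + t + 2 * (b * t)) ≠ 0 := (Real.sqrt_pos.2 hF).ne'
  have e1 : (16 * t + 1 + 8 * (-(b * t))) = 1 + (16 - 8 * b) * t := by ring
  have e2 : (4 * t - 3 * (-(b * t)) - 1) = 4 * t + 3 * (b * t) - 1 := by ring
  have e3 : t + 1 - 2 * (-(b * t)) = 1 + t + 2 * (b * t) := by ring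
  have e4 : (t + 16 * 1 + 8 * (-(b * t))) = 16 + t - 8 * (b * t) := by ring
  have e5 : (t + 3 * (-(b * t)) - 4 * 1) = t - 3 * (b * t) - 4 := by ring
  have hY1 : 0 ≤ 1 + (16 - 8 * b) * t := by
    have : 0 ≤ (16 - 8 * b) * t := mul_nonneg (by linarith) h0
    linarith
  have hY2 : 0 ≤ 16 + t - 8 * (b * t) := by linarith
  have d1 : D1f t b = Real.sqrt (1 + (16 - 8 * b) * t)
      - (4 * t + 3 * (b * t) - 1) / Real.sqrt (1 + t + 2 * (b * t)) := by
    unfold D1f A1f Cf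
    field_simp
    ring
  have d2 : D2f t b = Real.sqrt (16 + t - 8 * (b * t))
      - (t - 3 * (b * t) - 4) / Real.sqrt (1 + t + 2 * (b * t)) := by
    unfold D2f A2f Cf
    field_simp
    ring
  unfold Fabs
  rw [e1, e2, e3, e4, e5]
  have h1' := h1
  have h2' := h2
  rw [d1] at h1'
  rw [d2] at h2'
  rw [Wd_stable hY1 hF h1', Wd_stable hY2 hF h2', ← d1, ← d2]
  have f1 : (1 + (16 - 8 * b) * t) * (1 + t + 2 * (b * t)) - (4 * t + 3 * (b * t) - 1) ^ 2
      = 25 * t * (1 - b * (b * t)) := by ring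
  have f2 : (16 + t - 8 * (b * t)) * (1 + t + 2 * (b * t)) - (t - 3 * (b * t) - 4) ^ 2
      = 25 * t * (1 - b * (b * t)) := by ring
  rw [f1, f2]
  unfold A1f A2f
  field_simp
  ring

/-- The region `Rl ≤ 2 R0`. -/
theorem Fabs_bound_I {R0 Rl om : ℝ} (h0 : 0 < R0) (hl : R0 ≤ Rl) (hl2 : Rl ≤ 2 * R0)
    (hom0 : 0 ≤ om) (hom1 : om ≤ R0) :
    Fabs R0 Rl (-om) ^ 2 * (Rl + (9 / 4) * R0) ≤ (193 / 10) * R0 ^ 4 := by
  set x := Rl / R0 with hx
  set b := om / R0 with hb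
  have eR : Rl = R0 * x := by rw [hx]; field_simp
  have eo : om = R0 * b := by rw [hb]; field_simp
  have hx1 : 1 ≤ x := by rw [hx, le_div_iff₀ h0]; linarith
  have hx2 : x ≤ 2 := by rw [hx, div_le_iff₀ h0]; linarith
  have hb0 : 0 ≤ b := by rw [hb]; positivity
  have hb1 : b ≤ 1 := by rw [hb, div_le_iff₀ h0]; linarith
  have hG := regionI hx1 hx2 hb0 hb1 hx1 hb1
  rw [← Fabs_direct hx1 hb0 hb1] at hG
  have e : Fabs R0 Rl (-om) = R0 * Real.sqrt R0 * Fabs 1 x (-b) := by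
    have := Fabs_scale (a := 1) (c := x) (w := -b) h0 (by linarith)
    rw [mul_one, mul_neg, ← eR, ← eo] at this
    exact this
  have hs : Real.sqrt R0 ^ 2 = R0 := Real.sq_sqrt h0.le
  rw [e]
  have e2 : (R0 * Real.sqrt R0 * Fabs 1 x (-b)) ^ 2 * (Rl + (9 / 4) * R0)
      = R0 ^ 4 * (Fabs 1 x (-b) ^ 2 * (x + 9 / 4)) := by
    rw [mul_pow, mul_pow, hs, eR]
    ring
  rw [e2]
  calc R0 ^ 4 * (Fabs 1 x (-b) ^ 2 * (x + 9 / 4)) ≤ R0 ^ 4 * (193 / 10) :=
        mul_le_mul_of_nonneg_left hG (by positivity)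
    _ = _ := by ring

/-- The region `2 R0 ≤ Rl`. -/
theorem Fabs_bound_II {R0 Rl om : ℝ} (h0 : 0 < R0) (hl2 : 2 * R0 ≤ Rl)
    (hom0 : 0 ≤ om) (hom1 : om ≤ R0) :
    Fabs R0 Rl (-om) ^ 2 * (Rl + (9 / 4) * R0) ≤ (193 / 10) * R0 ^ 4 := by
  have hRl : 0 < Rl := by linarith
  set t := R0 / Rl with ht
  set b := om / R0 with hb
  have eR : R0 = Rl * t := by rw [ht]; field_simp
  have eo : om = Rl * (b * t) := by rw [hb, ht]; field_simp
  have ht0 : 0 < t := by rw [ht]; positivity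
  have ht1 : t ≤ 1 / 2 := by
    rw [ht, div_le_iff₀ hRl]; linarith
  have hb0 : 0 ≤ b := by rw [hb]; positivity
  have hb1 : b ≤ 1 := by rw [hb, div_le_iff₀ h0]; linarith
  obtain ⟨g1, g2, hG⟩ := regionII ht0.le ht1 hb0 hb1
  have hst := Fabs_stable ht0.le hb0 hb1 (by linarith) g1 g2
  have hbt : 0 ≤ b * t := by positivity
  have e : Fabs R0 Rl (-om) = Rl * Real.sqrt Rl * Fabs t 1 (-(b * t)) := by
    have := Fabs_scale (a := t) (c := 1) (w := -(b * t)) hRl (by linarith)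
    rw [mul_one, mul_neg, ← eR, ← eo] at this
    exact this
  have hs : Real.sqrt Rl ^ 2 = Rl := Real.sq_sqrt hRl.le
  rw [e, hst]
  set X := (625 / 81) * ((1 - b * (b * t)) / (1 + t + 2 * (b * t))) ^ 2
        * (Rf (A1f t b) (D1f t b) - Rf (A2f t b) (D2f t b)) with hX
  have e2 : (Rl * Real.sqrt Rl * (t ^ 2 * X)) ^ 2 * (Rl + (9 / 4) * R0)
      = (Rl * t) ^ 4 * (X ^ 2 * (1 + (9 / 4) * t)) := by
    rw [mul_pow, mul_pow, hs, eR]
    ring
  rw [e2, ← eR]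
  calc R0 ^ 4 * (X ^ 2 * (1 + (9 / 4) * t)) ≤ R0 ^ 4 * (193 / 10) :=
        mul_le_mul_of_nonneg_left hG (by positivity)
    _ = _ := by ring

end NumF

open NumF in
/-- The numerical bound for the truncated wedge moment. -/
theorem Fabs_bound {R0 Rl om : ℝ} (h0 : 0 < R0) (hl : R0 ≤ Rl) (hom0 : 0 ≤ om) (hom1 : om ≤ R0) :
    Fabs R0 Rl (-om) ^ 2 * (Rl + (9 / 4) * R0) ≤ (193 / 10) * R0 ^ 4 := by
  rcases le_total Rl (2 * R0) with h | h
  · exact Fabs_bound_I h0 hl h hom0 hom1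
  · exact Fabs_bound_II h0 h hom0 hom1

end Vale.Agent.Lib.P226
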