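import Vale.Agent.Lib.P226.Deletion

/-!
Exact widths of two and three points, and the chaining bound through a pair.
-/

open MeasureTheory ProbabilityTheory

namespace Vale.Agent.Lib.P226

variable {d : ℕ}

/-- Law of a single inner product. -/
theorem integral_comp_inner (u : E d) (f : ℝ → ℝ) (hf : Measurable f) :
    ∫ x, f (inner ℝ x u) ∂(gam d) = ∫ t, f (‖u‖ * t) ∂(gaussianReal 0 1) := by
  have hL : (gam d).map (innerSL ℝ u) = gaussianReal 0 (‖u‖ ^ 2).toNNReal := by
    rw [IsGaussian.map_eq_gaussianReal, integral_strongDual_stdGaussian,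
      variance_dual_stdGaussian, innerSL_apply_norm]
  have h1 : ∫ x, f (inner ℝ x u) ∂(gam d) = ∫ x, f (innerSL ℝ u x) ∂(gam d) := by
    simp only [innerSL_apply_apply, real_inner_comm]
  have h2 : ∫ x, f (innerSL ℝ u x) ∂(gam d) = ∫ t, f t ∂((gam d).map (innerSL ℝ u)) := by
    rw [integral_map (innerSL ℝ u).continuous.aemeasurable hf.aestronglyMeasurable]
  have h3 : gaussianReal 0 (‖u‖ ^ 2).toNNReal = (gaussianReal 0 1).map (fun t => ‖u‖ * t) := by
    rw [gaussianReal_map_const_mul]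
    congr 1
    · simp
    · ext
      simp
  rw [h1, h2, hL, h3, integral_map (by fun_prop) hf.aestronglyMeasurable]

/-- First absolute moment of the standard Gaussian. -/
theorem integral_abs_gaussian :
    ∫ t, |t| ∂(gaussianReal 0 1) = 2 / Real.sqrt (2 * Real.pi) := by
  rw [integral_gaussianReal_eq_integral_smul (by norm_num)]
  have h1 : ∀ t : ℝ, gaussianPDFReal 0 1 t • |t| = (Real.sqrt (2 * Real.pi))⁻¹ * (|t| * Real.exp (-(1 / 2) * |t| ^ 2)) := by
    intro t
    simp only [gaussianPDFReal, smul_eq_mul, sq_abs]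
    norm_num
    ring_nf
  simp_rw [h1]
  rw [integral_const_mul]
  have h2 := integral_comp_abs (f := fun s : ℝ => s * Real.exp (-(1 / 2) * s ^ 2))
  rw [h2]
  have h3 : ∫ s in Set.Ioi (0 : ℝ), s * Real.exp (-(1 / 2) * s ^ 2) = 1 := by
    have := integral_rpow_mul_exp_neg_mul_rpow (p := 2) (q := 1) (b := 1 / 2) (by norm_num) (by norm_num) (by norm_num)
    simp only [Real.rpow_one] at this
    norm_num at this
    simpa using this
  rw [h3]
  field_simp

theorem integral_abs_inner (u : E d) :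
    Real.sqrt (2 * Real.pi) * ∫ x, |(inner ℝ x u : ℝ)| ∂(gam d) = 2 * ‖u‖ := by
  rw [integral_comp_inner u (fun t => |t|) continuous_abs.measurable]
  simp_rw [abs_mul, abs_norm]
  rw [integral_const_mul, integral_abs_gaussian]
  have : Real.sqrt (2 * Real.pi) ≠ 0 := by positivity
  field_simp

theorem integrable_abs_inner (u : E d) : Integrable (fun x : E d => |(inner ℝ x u : ℝ)|) (gam d) :=
  (integrable_inner_gam u).abs

/-- Exact width of two points. -/
theorem width_two (a b : E d) :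
    Real.sqrt (2 * Real.pi) * ∫ x, max (inner ℝ x a : ℝ) (inner ℝ x b) ∂(gam d) = ‖a - b‖ := by
  have h1 : ∀ x : E d, max (inner ℝ x a : ℝ) (inner ℝ x b)
      = (1 / 2) * (inner ℝ x a + inner ℝ x b + |(inner ℝ x (a - b) : ℝ)|) := by
    intro x
    rw [inner_sub_right]
    rcases le_total (inner ℝ x a : ℝ) (inner ℝ x b) with h | h
    · rw [max_eq_right h, abs_of_nonpos (by linarith)]; ring
    · rw [max_eq_left h, abs_of_nonneg (by linarith)]; ring
  simp_rw [h1]
  have hab : Integrable (fun x : E d => (inner ℝ x a : ℝ) + inner ℝ x b) (gam d) :=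
    (integrable_inner_gam a).add (integrable_inner_gam b)
  rw [integral_const_mul, integral_add hab
    (integrable_abs_inner _), integral_add (integrable_inner_gam a) (integrable_inner_gam b),
    integral_inner_gam, integral_inner_gam]
  have := integral_abs_inner (a - b)
  linarith

theorem integrable_max2 (a b : E d) :
    Integrable (fun x => max (inner ℝ x a : ℝ) (inner ℝ x b)) (gam d) :=
  (integrable_inner_gam a).sup (integrable_inner_gam b)

theorem integrable_max3 (a b c : E d) :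
    Integrable (fun x => max (max (inner ℝ x a : ℝ) (inner ℝ x b)) (inner ℝ x c)) (gam d) :=
  (integrable_max2 a b).sup (integrable_inner_gam c)

/-- Symmetry of the Gaussian measure. -/
theorem integral_neg_gam (f : E d → ℝ) (hf : Continuous f) :
    ∫ x, f (-x) ∂(gam d) = ∫ x, f x ∂(gam d) := by
  have h : (gam d).map (LinearIsometryEquiv.neg ℝ (E := E d)) = gam d :=
    stdGaussian_map (E := E d) (LinearIsometryEquiv.neg ℝ (E := E d))
  calc ∫ x, f (-x) ∂(gam d)
      = ∫ y, f y ∂((gam d).map (LinearIsometryEquiv.neg ℝ (E := E d))) := by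
        rw [integral_map (LinearIsometryEquiv.neg ℝ (E := E d)).continuous.aemeasurable
          hf.aestronglyMeasurable]
        rfl
    _ = ∫ x, f x ∂(gam d) := by rw [h]

theorem max3_add_max3_neg (A B C : ℝ) :
    max (max A B) C + max (max (-A) (-B)) (-C) = (1 / 2) * (|A - B| + |A - C| + |B - C|) := by
  simp only [max_def, abs_eq_max_neg]
  split_ifs <;> linarith

/-- Exact width of three points. -/
theorem width_three (a b c : E d) :
    Real.sqrt (2 * Real.pi) * ∫ x, max (max (inner ℝ x a : ℝ) (inner ℝ x b)) (inner ℝ x c) ∂(gam d)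
      = (‖a - b‖ + ‖a - c‖ + ‖b - c‖) / 2 := by
  obtain ⟨f, hf⟩ : ∃ f : E d → ℝ, f = fun x => max (max (inner ℝ x a : ℝ) (inner ℝ x b)) (inner ℝ x c) :=
    ⟨_, rfl⟩
  rw [← hf]
  have hfc : Continuous f := by rw [hf]; fun_prop
  have hneg := integral_neg_gam f hfc
  have hint : Integrable f (gam d) := by rw [hf]; exact integrable_max3 a b c
  have hintn : Integrable (fun x => f (-x)) (gam d) := by
    have : (fun x => f (-x)) = fun x => max (max (inner ℝ x (-a) : ℝ) (inner ℝ x (-b))) (inner ℝ x (-c)) := by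
      ext x
      simp [hf, inner_neg_left, inner_neg_right]
    rw [this]
    exact integrable_max3 _ _ _
  have hpt : ∀ x : E d, f x + f (-x) = (1 / 2) * (|(inner ℝ x (a - b) : ℝ)| + |(inner ℝ x (a - c) : ℝ)|
      + |(inner ℝ x (b - c) : ℝ)|) := by
    intro x
    simp only [hf, inner_neg_left, inner_sub_right]
    exact max3_add_max3_neg _ _ _
  have h2 : ∫ x, f x + f (-x) ∂(gam d) = 2 * ∫ x, f x ∂(gam d) := by
    rw [integral_add hint hintn, hneg]; ring
  simp_rw [hpt] at h2
  have h12 : Integrable (fun x : E d => |(inner ℝ x (a - b) : ℝ)| + |(inner ℝ x (a - c) : ℝ)|) (gam d) :=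
    (integrable_abs_inner _).add (integrable_abs_inner _)
  rw [integral_const_mul, integral_add h12 (integrable_abs_inner _),
    integral_add (integrable_abs_inner _) (integrable_abs_inner _)] at h2
  have e1 := integral_abs_inner (a - b)
  have e2 := integral_abs_inner (a - c)
  have e3 := integral_abs_inner (b - c)
  have : Real.sqrt (2 * Real.pi) * (2 * ∫ x, f x ∂(gam d)) = ‖a - b‖ + ‖a - c‖ + ‖b - c‖ := by
    rw [← h2]
    linarith
  linarith

/-- The chaining bound through the pair `1,2`. -/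
theorem W_le_pair (y : Fin 5 → E d) :
    W y ≤ ‖y 1 - y 2‖ + ((‖y 0 - y 1‖ + ‖y 0 - y 2‖ - ‖y 1 - y 2‖) / 2
        + (‖y 3 - y 1‖ + ‖y 3 - y 2‖ - ‖y 1 - y 2‖) / 2
        + (‖y 4 - y 1‖ + ‖y 4 - y 2‖ - ‖y 1 - y 2‖) / 2) := by
  have hpt : ∀ x : E d, mx y x ≤
      max (max (inner ℝ x (y 1) : ℝ) (inner ℝ x (y 2))) (inner ℝ x (y 0))
      + max (max (inner ℝ x (y 1) : ℝ) (inner ℝ x (y 2))) (inner ℝ x (y 3))
      + max (max (inner ℝ x (y 1) : ℝ) (inner ℝ x (y 2))) (inner ℝ x (y 4))
      - 2 * max (inner ℝ x (y 1) : ℝ) (inner ℝ x (y 2)) := by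
    intro x
    apply Finset.sup'_le
    intro i _
    generalize hN : max (inner ℝ x (y 1) : ℝ) (inner ℝ x (y 2)) = N
    have h1 : (inner ℝ x (y 1) : ℝ) ≤ N := hN ▸ le_max_left _ _
    have h2 : (inner ℝ x (y 2) : ℝ) ≤ N := hN ▸ le_max_right _ _
    have a0 := le_max_left N (inner ℝ x (y 0) : ℝ)
    have a3 := le_max_left N (inner ℝ x (y 3) : ℝ)
    have a4 := le_max_left N (inner ℝ x (y 4) : ℝ)
    have b0 := le_max_right N (inner ℝ x (y 0) : ℝ)
    have b3 := le_max_right N (inner ℝ x (y 3) : ℝ)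
    have b4 := le_max_right N (inner ℝ x (y 4) : ℝ)
    fin_cases i
    · simp only [Fin.zero_eta]; linarith
    · simp only [Fin.mk_one]; linarith
    · show (inner ℝ x (y 2) : ℝ) ≤ _; linarith
    · show (inner ℝ x (y 3) : ℝ) ≤ _; linarith
    · show (inner ℝ x (y 4) : ℝ) ≤ _; linarith
  have i0 := integrable_max3 (y 1) (y 2) (y 0)
  have i3 := integrable_max3 (y 1) (y 2) (y 3)
  have i4 := integrable_max3 (y 1) (y 2) (y 4)
  have i2 := (integrable_max2 (y 1) (y 2)).const_mul 2
  have i03 : Integrable (fun x : E d => max (max (inner ℝ x (y 1) : ℝ) (inner ℝ x (y 2))) (inner ℝ x (y 0))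
      + max (max (inner ℝ x (y 1) : ℝ) (inner ℝ x (y 2))) (inner ℝ x (y 3))) (gam d) := i0.add i3
  have i034 : Integrable (fun x : E d => max (max (inner ℝ x (y 1) : ℝ) (inner ℝ x (y 2))) (inner ℝ x (y 0))
      + max (max (inner ℝ x (y 1) : ℝ) (inner ℝ x (y 2))) (inner ℝ x (y 3))
      + max (max (inner ℝ x (y 1) : ℝ) (inner ℝ x (y 2))) (inner ℝ x (y 4))) (gam d) := i03.add i4
  have hint : Integrable (fun x : E d => max (max (inner ℝ x (y 1) : ℝ) (inner ℝ x (y 2))) (inner ℝ x (y 0))
      + max (max (inner ℝ x (y 1) : ℝ) (inner ℝ x (y 2))) (inner ℝ x (y 3))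
      + max (max (inner ℝ x (y 1) : ℝ) (inner ℝ x (y 2))) (inner ℝ x (y 4))
      - 2 * max (inner ℝ x (y 1) : ℝ) (inner ℝ x (y 2))) (gam d) := i034.sub i2
  have hmono := integral_mono (integrable_mx y) hint hpt
  rw [integral_sub i034 i2, integral_add i03 i4, integral_add i0 i3, integral_const_mul] at hmono
  have h0 := width_three (y 1) (y 2) (y 0)
  have h3 := width_three (y 1) (y 2) (y 3)
  have h4 := width_three (y 1) (y 2) (y 4)
  have h2 := width_two (y 1) (y 2)
  have hs : 0 ≤ Real.sqrt (2 * Real.pi) := Real.sqrt_nonneg _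
  have hW : W y ≤ Real.sqrt (2 * Real.pi) * _ := mul_le_mul_of_nonneg_left hmono hs
  refine le_trans hW ?_
  rw [mul_sub, mul_add, mul_add, h0, h3, h4]
  have e : Real.sqrt (2 * Real.pi) * (2 * ∫ x, max (inner ℝ x (y 1) : ℝ) (inner ℝ x (y 2)) ∂(gam d))
      = 2 * ‖y 1 - y 2‖ := by
    rw [← h2]; ring
  rw [e, norm_sub_rev (y 1) (y 0), norm_sub_rev (y 2) (y 0), norm_sub_rev (y 1) (y 3),
    norm_sub_rev (y 2) (y 3), norm_sub_rev (y 1) (y 4), norm_sub_rev (y 2) (y 4)]
  linarith

end Vale.Agent.Lib.P226
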