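import Vale.Agent.Lib.P226.Basic

/-!
The wedge integral: for `β > 0`, `E[(α a + β b)_+^3 ; a > 0] = (3 / (2 √(2π))) (⅔ρ³ + ρ²α - α³/3)`
for independent standard Gaussian `a, b`, with `ρ = √(α² + β²)`.
-/

open MeasureTheory Set ProbabilityTheory

namespace Vale.Agent.Lib.P226

/-- the standard Gaussian on the line -/
noncomputable abbrev gstd : Measure ℝ := gaussianReal 0 1

/-- the density -/
theorem gpdf_eq (x : ℝ) :
    gaussianPDFReal 0 1 x = (Real.sqrt (2 * Real.pi))⁻¹ * Real.exp (-x ^ 2 / 2) := by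
  simp [gaussianPDFReal]

/-- integral against the product of two standard Gaussians as an integral against Lebesgue. -/
theorem integral_gauss_prod (F : ℝ × ℝ → ℝ) :
    ∫ z, F z ∂(gstd.prod gstd) =
      ∫ z : ℝ × ℝ, (gaussianPDFReal 0 1 z.1 * gaussianPDFReal 0 1 z.2) * F z ∂(volume.prod volume) := by
  have hμ : gstd = volume.withDensity (gaussianPDF 0 1) := gaussianReal_of_var_ne_zero 0 one_ne_zero
  have hm : Measurable (gaussianPDF 0 1) := measurable_gaussianPDF 0 1
  rw [hμ, prod_withDensity_left hm, prod_withDensity_right hm,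
    integral_withDensity_eq_integral_toReal_smul (f := fun z : ℝ × ℝ => gaussianPDF 0 1 z.1)
      (hm.comp measurable_fst) (Filter.Eventually.of_forall fun _ => gaussianPDF_lt_top),
    integral_withDensity_eq_integral_toReal_smul (f := fun z : ℝ × ℝ => gaussianPDF 0 1 z.2)
      (hm.comp measurable_snd) (Filter.Eventually.of_forall fun _ => gaussianPDF_lt_top)]
  congr 1
  ext z
  simp only [smul_eq_mul, toReal_gaussianPDF]
  ring

/-- Fourth radial moment. -/
theorem radial4 : ∫ r in Ioi (0 : ℝ), r ^ 4 * Real.exp (-r ^ 2 / 2) =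
    (3 / 2) * Real.sqrt (2 * Real.pi) := by
  have h := integral_rpow_mul_exp_neg_mul_rpow (p := 2) (q := 4) (b := 1 / 2) (by norm_num) (by norm_num)
    (by norm_num)
  have h1 : ∀ r : ℝ, r ∈ Ioi (0 : ℝ) → r ^ (4 : ℝ) * Real.exp (-(1 / 2) * r ^ (2 : ℝ)) =
      r ^ 4 * Real.exp (-r ^ 2 / 2) := by
    intro r _
    have e1 : r ^ (4 : ℝ) = r ^ 4 := by norm_cast
    have e2 : r ^ (2 : ℝ) = r ^ 2 := by norm_cast
    rw [e1, e2]
    congr 2
    ring
  rw [setIntegral_congr_fun measurableSet_Ioi h1] at h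
  rw [h]
  have e3 : ((4 : ℝ) + 1) / 2 = 3 / 2 + 1 := by norm_num
  have e4 : (3 / 2 : ℝ) = 1 / 2 + 1 := by norm_num
  rw [e3, Real.Gamma_add_one (by norm_num), e4, Real.Gamma_add_one (by norm_num),
    Real.Gamma_one_half_eq]
  have e5 : (1 / 2 : ℝ) ^ (-((4 : ℝ) + 1) / 2) = 4 * Real.sqrt 2 := by
    have : (-((4 : ℝ) + 1) / 2) = -(2 + 1 / 2) := by norm_num
    rw [this, Real.rpow_neg (by norm_num), Real.rpow_add (by norm_num), ← Real.sqrt_eq_rpow]
    have h2 : (1 / 2 : ℝ) ^ (2 : ℝ) = 1 / 4 := by norm_num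
    have h3 : Real.sqrt (1 / 2) = (Real.sqrt 2)⁻¹ := by
      rw [one_div, Real.sqrt_inv]
    rw [h2, h3]
    field_simp
  rw [e5, Real.sqrt_mul (by norm_num)]
  norm_num
  ring

/-- Angular integral. -/
theorem angular (α : ℝ) {β : ℝ} (hβ : 0 < β) :
    ∫ θ in Ioo (-Real.pi) Real.pi,
        (if 0 < Real.cos θ then (max (α * Real.cos θ + β * Real.sin θ) 0) ^ 3 else 0) =
      (2 / 3) * Real.sqrt (α ^ 2 + β ^ 2) ^ 3 + Real.sqrt (α ^ 2 + β ^ 2) ^ 2 * α - α ^ 3 / 3 := by
  set ρ := Real.sqrt (α ^ 2 + β ^ 2) with hρ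
  have hρ2 : ρ ^ 2 = α ^ 2 + β ^ 2 := Real.sq_sqrt (by positivity)
  have hρpos : 0 < ρ := Real.sqrt_pos.2 (by positivity)
  set θ0 := Real.arctan (-α / β) with hθ0
  have hθ1 : -(Real.pi / 2) < θ0 := Real.neg_pi_div_two_lt_arctan _
  have hθ2 : θ0 < Real.pi / 2 := Real.arctan_lt_pi_div_two _
  have hq : Real.sqrt (1 + (-α / β) ^ 2) = ρ / β := by
    rw [hρ, Real.sqrt_eq_iff_mul_self_eq (by positivity) (by positivity)]
    field_simp
    rw [Real.sq_sqrt (by positivity)]
    ring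
  have hsin : Real.sin θ0 = -α / ρ := by
    rw [hθ0, Real.sin_arctan, hq]
    field_simp
  have hcos : Real.cos θ0 = β / ρ := by
    rw [hθ0, Real.cos_arctan, hq]
    field_simp
  -- the form as a sine
  have hform : ∀ θ : ℝ, α * Real.cos θ + β * Real.sin θ = ρ * Real.sin (θ - θ0) := by
    intro θ
    rw [Real.sin_sub, hsin, hcos]
    field_simp
    ring
  have hpi := Real.pi_pos
  have hA : ∀ θ ∈ Ioo θ0 (Real.pi / 2),
      (if 0 < Real.cos θ then (max (α * Real.cos θ + β * Real.sin θ) 0) ^ 3 else 0) =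
      (α * Real.cos θ + β * Real.sin θ) ^ 3 := by
    intro θ hθ
    have hc : 0 < Real.cos θ := Real.cos_pos_of_mem_Ioo ⟨by linarith [hθ.1], hθ.2⟩
    have hs : 0 ≤ α * Real.cos θ + β * Real.sin θ := by
      rw [hform]
      apply mul_nonneg hρpos.le
      apply Real.sin_nonneg_of_nonneg_of_le_pi <;> linarith [hθ.1, hθ.2]
    rw [if_pos hc, max_eq_left hs]
  have hsub : Ioo θ0 (Real.pi / 2) ⊆ Ioo (-Real.pi) Real.pi := by
    intro θ hθ
    exact ⟨by linarith [hθ.1], by linarith [hθ.2]⟩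
  have hvan : ∀ θ ∈ Ioo (-Real.pi) Real.pi \ Ioo θ0 (Real.pi / 2),
      (if 0 < Real.cos θ then (max (α * Real.cos θ + β * Real.sin θ) 0) ^ 3 else 0) = 0 := by
    rintro θ ⟨hθ, hnot⟩
    by_cases hc : 0 < Real.cos θ
    · rw [if_pos hc]
      have hθ3 : θ ≤ θ0 := by
        by_contra hcon
        push Not at hcon
        apply hnot
        refine ⟨hcon, ?_⟩
        by_contra hcon2
        push Not at hcon2
        have := Real.cos_nonpos_of_pi_div_two_le_of_le hcon2 (by linarith [hθ.2])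
        linarith
      have hθ4 : -(Real.pi / 2) < θ := by
        by_contra hcon
        push Not at hcon
        have h5 : Real.cos θ = Real.cos (-θ) := (Real.cos_neg θ).symm
        have := Real.cos_nonpos_of_pi_div_two_le_of_le (x := -θ) (by linarith) (by linarith [hθ.1])
        linarith
      have hs : α * Real.cos θ + β * Real.sin θ ≤ 0 := by
        rw [hform]
        apply mul_nonpos_of_nonneg_of_nonpos hρpos.le
        have : Real.sin (θ - θ0) = -Real.sin (θ0 - θ) := by rw [← Real.sin_neg]; congr 1; ring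
        rw [this]
        have := Real.sin_nonneg_of_nonneg_of_le_pi (x := θ0 - θ) (by linarith) (by linarith)
        linarith
      rw [max_eq_right hs]
      norm_num
    · rw [if_neg hc]
  rw [setIntegral_eq_of_subset_of_forall_sdiff_eq_zero measurableSet_Ioo hsub hvan,
    setIntegral_congr_fun measurableSet_Ioo hA, ← integral_Ioc_eq_integral_Ioo,
    ← intervalIntegral.integral_of_le hθ2.le]
  -- FTC
  have hderiv : ∀ θ ∈ uIcc θ0 (Real.pi / 2), HasDerivAt
      (fun θ : ℝ => (-α * Real.sin θ + β * Real.cos θ) ^ 3 / 3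
        - ρ ^ 2 * (-α * Real.sin θ + β * Real.cos θ))
      ((α * Real.cos θ + β * Real.sin θ) ^ 3) θ := by
    intro θ _
    have h1 : HasDerivAt (fun θ : ℝ => -α * Real.sin θ + β * Real.cos θ)
        (-α * Real.cos θ + β * (-Real.sin θ)) θ :=
      ((Real.hasDerivAt_sin θ).const_mul (-α)).add ((Real.hasDerivAt_cos θ).const_mul β)
    have h2 := ((h1.fun_pow 3).div_const 3).fun_sub (h1.const_mul (ρ ^ 2))
    refine h2.congr_deriv ?_
    have hid : Real.sin θ ^ 2 + Real.cos θ ^ 2 = 1 := Real.sin_sq_add_cos_sq θ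
    rw [hρ2]
    have key : (α * Real.cos θ + β * Real.sin θ) ^ 2 + (-α * Real.sin θ + β * Real.cos θ) ^ 2
        = α ^ 2 + β ^ 2 := by
      have : (α * Real.cos θ + β * Real.sin θ) ^ 2 + (-α * Real.sin θ + β * Real.cos θ) ^ 2
          = (α ^ 2 + β ^ 2) * (Real.sin θ ^ 2 + Real.cos θ ^ 2) := by ring
      rw [this, hid, mul_one]
    have : ((α * Real.cos θ + β * Real.sin θ) ^ 3 : ℝ)
        = (α * Real.cos θ + β * Real.sin θ) * ((α ^ 2 + β ^ 2) - (-α * Real.sin θ + β * Real.cos θ) ^ 2) := by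
      rw [← key]; ring
    rw [this]
    simp only [Nat.cast_ofNat]
    ring
  rw [intervalIntegral.integral_eq_sub_of_hasDerivAt hderiv
    ((by fun_prop : Continuous fun θ : ℝ => (α * Real.cos θ + β * Real.sin θ) ^ 3).intervalIntegrable _ _)]
  simp only [Real.sin_pi_div_two, Real.cos_pi_div_two, hsin, hcos]
  have hB : -α * (-α / ρ) + β * (β / ρ) = ρ := by
    field_simp
    rw [hρ2]
  rw [hB, hρ2]
  have : ρ ^ 3 = ρ * (α ^ 2 + β ^ 2) := by rw [← hρ2]; ring
  rw [this]
  ring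

/-- wedge integrand -/
noncomputable def wedgeF (α β : ℝ) (z : ℝ × ℝ) : ℝ :=
  if 0 < z.1 then (max (α * z.1 + β * z.2) 0) ^ 3 else 0

theorem wedgeF_nonneg (α β : ℝ) (z : ℝ × ℝ) : 0 ≤ wedgeF α β z := by
  unfold wedgeF
  split_ifs
  · positivity
  · exact le_rfl

theorem measurable_wedgeF (α β : ℝ) : Measurable (wedgeF α β) := by
  unfold wedgeF
  apply Measurable.ite
  · exact measurableSet_lt measurable_const measurable_fst
  · fun_prop
  · fun_prop

/-- The wedge integral. -/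
theorem wedge_int (α : ℝ) {β : ℝ} (hβ : 0 < β) :
    ∫ z, wedgeF α β z ∂(gstd.prod gstd) =
      (3 / (2 * Real.sqrt (2 * Real.pi))) *
        ((2 / 3) * Real.sqrt (α ^ 2 + β ^ 2) ^ 3 + Real.sqrt (α ^ 2 + β ^ 2) ^ 2 * α - α ^ 3 / 3) := by
  rw [integral_gauss_prod, ← Measure.volume_eq_prod, ← integral_comp_polarCoord_symm,
    polarCoord_target]
  set A : ℝ → ℝ := fun θ =>
    if 0 < Real.cos θ then (max (α * Real.cos θ + β * Real.sin θ) 0) ^ 3 else 0 with hAdef
  have hsq2 : Real.sqrt (2 * Real.pi) ^ 2 = 2 * Real.pi := Real.sq_sqrt (by positivity)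
  have hspos : 0 < Real.sqrt (2 * Real.pi) := Real.sqrt_pos.2 (by positivity)
  have hpt : ∀ p ∈ Ioi (0 : ℝ) ×ˢ Ioo (-Real.pi) Real.pi,
      p.1 • ((gaussianPDFReal 0 1 (polarCoord.symm p).1 * gaussianPDFReal 0 1 (polarCoord.symm p).2)
        * wedgeF α β (polarCoord.symm p)) =
      ((1 / (2 * Real.pi)) * (p.1 ^ 4 * Real.exp (-p.1 ^ 2 / 2))) * A p.2 := by
    rintro ⟨r, θ⟩ ⟨hr, hθ⟩
    simp only [mem_Ioi] at hr
    simp only [polarCoord_symm_apply, smul_eq_mul, gpdf_eq, wedgeF, hAdef]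
    have hexp : Real.exp (-(r * Real.cos θ) ^ 2 / 2) * Real.exp (-(r * Real.sin θ) ^ 2 / 2)
        = Real.exp (-r ^ 2 / 2) := by
      rw [← Real.exp_add]
      congr 1
      have := Real.sin_sq_add_cos_sq θ
      nlinarith [this]
    have hrc : (0 < r * Real.cos θ) ↔ 0 < Real.cos θ := by
      constructor
      · intro h; exact (pos_iff_pos_of_mul_pos h).1 hr
      · intro h; positivity
    have hmax : α * (r * Real.cos θ) + β * (r * Real.sin θ) = r * (α * Real.cos θ + β * Real.sin θ) := by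
      ring
    have hmax2 : max (r * (α * Real.cos θ + β * Real.sin θ)) 0 = r * max (α * Real.cos θ + β * Real.sin θ) 0 := by
      rw [mul_max_of_nonneg _ _ hr.le, mul_zero]
    simp only [hrc, hmax, hmax2]
    split_ifs with hcos
    · have h1 : (Real.sqrt (2 * Real.pi))⁻¹ * Real.exp (-(r * Real.cos θ) ^ 2 / 2) *
          ((Real.sqrt (2 * Real.pi))⁻¹ * Real.exp (-(r * Real.sin θ) ^ 2 / 2))
          = (1 / (2 * Real.pi)) * Real.exp (-r ^ 2 / 2) := by
        have h0 : 1 / (2 * Real.pi) = (Real.sqrt (2 * Real.pi) ^ 2)⁻¹ := by rw [hsq2, one_div]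
        rw [← hexp, h0]
        ring
      rw [h1]
      ring
    · simp
  rw [setIntegral_congr_fun (measurableSet_Ioi.prod measurableSet_Ioo) hpt,
    Measure.volume_eq_prod]
  have hsplit := setIntegral_prod_mul (μ := (volume : Measure ℝ)) (ν := (volume : Measure ℝ))
    (fun r : ℝ => (1 / (2 * Real.pi)) * (r ^ 4 * Real.exp (-r ^ 2 / 2))) A (Ioi 0)
    (Ioo (-Real.pi) Real.pi)
  refine hsplit.trans ?_
  rw [integral_const_mul, radial4, angular α hβ]
  have : (1 / (2 * Real.pi)) * ((3 / 2) * Real.sqrt (2 * Real.pi)) = 3 / (2 * Real.sqrt (2 * Real.pi)) := by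
    have h0 : 2 * Real.pi = Real.sqrt (2 * Real.pi) * Real.sqrt (2 * Real.pi) := by
      rw [← pow_two, hsq2]
    rw [h0]
    have : Real.sqrt (Real.sqrt (2 * Real.pi) * Real.sqrt (2 * Real.pi)) = Real.sqrt (2 * Real.pi) := by
      rw [← h0]
    rw [this]
    field_simp
  rw [this]

/-- Integrability of the wedge integrand. -/
theorem integrable_wedgeF (α β : ℝ) : Integrable (wedgeF α β) (gstd.prod gstd) := by
  have hm3 : Integrable (fun x : ℝ => |x| ^ 3) gstd := by
    have := (memLp_id_gaussianReal (μ := 0) (v := 1) 3).integrable_norm_pow (by norm_num)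
    simpa using this
  have h1 := (hm3.comp_fst gstd).const_mul (4 * |α| ^ 3)
  have h2 := (hm3.comp_snd gstd).const_mul (4 * |β| ^ 3)
  refine Integrable.mono' (h1.add h2) (measurable_wedgeF α β).aestronglyMeasurable ?_
  refine Filter.Eventually.of_forall (fun z => ?_)
  rw [Real.norm_of_nonneg (wedgeF_nonneg α β z)]
  simp only [Pi.add_apply]
  have hx : ∀ x y : ℝ, 0 ≤ x → 0 ≤ y → (x + y) ^ 3 ≤ 4 * x ^ 3 + 4 * y ^ 3 := by
    intro x y hx hy
    nlinarith [mul_nonneg hx hy, sq_nonneg (x - y), mul_nonneg (add_nonneg hx hy) (sq_nonneg (x - y))]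
  have hmain : (max (α * z.1 + β * z.2) 0) ^ 3 ≤ (|α| * |z.1| + |β| * |z.2|) ^ 3 := by
    apply pow_le_pow_left₀ (le_max_right _ _)
    apply max_le
    · calc α * z.1 + β * z.2 ≤ |α * z.1 + β * z.2| := le_abs_self _
        _ ≤ |α * z.1| + |β * z.2| := abs_add_le _ _
        _ = |α| * |z.1| + |β| * |z.2| := by rw [abs_mul, abs_mul]
    · positivity
  have hb := hx (|α| * |z.1|) (|β| * |z.2|) (by positivity) (by positivity)
  have e : 4 * (|α| * |z.1|) ^ 3 + 4 * (|β| * |z.2|) ^ 3 =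
      4 * |α| ^ 3 * |z.1| ^ 3 + 4 * |β| ^ 3 * |z.2| ^ 3 := by ring
  unfold wedgeF
  split_ifs
  · linarith
  · positivity

end Vale.Agent.Lib.P226
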