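import Vale.Agent.Lib.P226.TentPyr
import Vale.Agent.Lib.P226.TentWedge

/-!
Integrating out the two Gaussian coordinates on which the tent depends affinely.
-/

open MeasureTheory Set ProbabilityTheory

namespace Vale.Agent.Lib.P226

theorem gpdf_nonneg (x : ℝ) : 0 ≤ gaussianPDFReal 0 1 x := gaussianPDFReal_nonneg 0 1 x

theorem gpdf_le (x : ℝ) : gaussianPDFReal 0 1 x ≤ (Real.sqrt (2 * Real.pi))⁻¹ := by
  rw [gpdf_eq]
  have h : Real.exp (-x ^ 2 / 2) ≤ 1 := by
    rw [Real.exp_le_one_iff]
    nlinarith [sq_nonneg x]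
  have h2 : 0 ≤ (Real.sqrt (2 * Real.pi))⁻¹ := by positivity
  nlinarith

/-- Lebesgue integrable functions are Gaussian integrable. -/
theorem gauss_integrable {f : ℝ → ℝ} (hi : Integrable f) : Integrable f gstd := by
  have hμ : gstd = volume.withDensity (gaussianPDF 0 1) := gaussianReal_of_var_ne_zero 0 one_ne_zero
  rw [hμ, integrable_withDensity_iff_integrable_smul' (measurable_gaussianPDF 0 1)
    (Filter.Eventually.of_forall fun _ => gaussianPDF_lt_top)]
  simp only [toReal_gaussianPDF, smul_eq_mul]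
  have hm : Measurable (gaussianPDFReal 0 1) := measurable_gaussianPDFReal 0 1
  refine (hi.norm.const_mul (Real.sqrt (2 * Real.pi))⁻¹).mono'
    (hm.aestronglyMeasurable.mul hi.aestronglyMeasurable) ?_
  refine Filter.Eventually.of_forall (fun x => ?_)
  rw [norm_mul, Real.norm_of_nonneg (gpdf_nonneg x)]
  exact mul_le_mul_of_nonneg_right (gpdf_le x) (norm_nonneg _)

/-- Density bound for one Gaussian coordinate. -/
theorem gauss_le_leb {f : ℝ → ℝ} (hf : ∀ x, 0 ≤ f x) (hi : Integrable f) :
    ∫ x, f x ∂gstd ≤ (Real.sqrt (2 * Real.pi))⁻¹ * ∫ x, f x := by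
  rw [integral_gaussianReal_eq_integral_smul (by norm_num), ← integral_const_mul]
  apply integral_mono_of_nonneg
  · exact Filter.Eventually.of_forall fun x => by
      simp only [smul_eq_mul, Pi.zero_apply]
      exact mul_nonneg (gpdf_nonneg x) (hf x)
  · exact hi.const_mul _
  · exact Filter.Eventually.of_forall fun x => by
      simp only [smul_eq_mul]
      exact mul_le_mul_of_nonneg_right (gpdf_le x) (hf x)

/-- Affine change of variable `x ↦ b - c x`. -/
theorem integral_affine (f : ℝ → ℝ) (b : ℝ) {c : ℝ} (hc : 0 < c) :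
    ∫ x, f (b - c * x) = c⁻¹ * ∫ y, f y := by
  have h1 : ∫ x, f (b - c * x) = |c⁻¹| • ∫ y, f (b - y) :=
    Measure.integral_comp_mul_left (fun y => f (b - y)) c
  rw [h1, integral_sub_left_eq_self f volume b, abs_of_pos (inv_pos.2 hc), smul_eq_mul]

theorem integrable_affine {f : ℝ → ℝ} (hf : Integrable f) (b : ℝ) {c : ℝ} (hc : 0 < c) :
    Integrable (fun x => f (b - c * x)) := by
  have h1 : Integrable (fun y => f (b - y)) := hf.comp_sub_left b
  exact h1.comp_mul_left' hc.ne'

theorem Hfun_nonneg (C s : ℝ) : 0 ≤ Hfun C s := by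
  rw [← tent_int]
  exact integral_nonneg fun u => integral_nonneg fun v => tentT_nonneg C s u v

/-- The inner bound. -/
theorem inner_bound (C s α β b1 b2 b3 : ℝ) (h1 : 0 < b1) (h3 : 0 < b3) :
    ∫⁻ c, ∫⁻ d, ENNReal.ofReal (tentT C s (α - b1 * c) (β - b2 * c - b3 * d)) ∂gstd ∂gstd ≤
      ENNReal.ofReal ((1 / (2 * Real.pi * b1 * b3)) * Hfun C s) := by
  set K : ℝ → ℝ := fun u => ∫ v, tentT C s u v with hK
  have hKi : Integrable K := integrable_integral_tentT C s
  have hK0 : ∀ u, 0 ≤ K u := fun u => integral_nonneg fun v => tentT_nonneg C s u v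
  have hsq : (Real.sqrt (2 * Real.pi))⁻¹ * (Real.sqrt (2 * Real.pi))⁻¹ = 1 / (2 * Real.pi) := by
    rw [← mul_inv, Real.mul_self_sqrt (by positivity), one_div]
  -- inner integral
  have hin : ∀ c : ℝ, ∫ d, tentT C s (α - b1 * c) (β - b2 * c - b3 * d) ∂gstd ≤
      (Real.sqrt (2 * Real.pi))⁻¹ * (b3⁻¹ * K (α - b1 * c)) := by
    intro c
    have := gauss_le_leb (f := fun d => tentT C s (α - b1 * c) (β - b2 * c - b3 * d))
      (fun d => tentT_nonneg _ _ _ _)
      (integrable_affine (integrable_tentT_slice C s (α - b1 * c)) (β - b2 * c) h3)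
    rwa [integral_affine (fun v => tentT C s (α - b1 * c) v) (β - b2 * c) h3] at this
  -- outer integral
  have hKa : Integrable (fun c => (Real.sqrt (2 * Real.pi))⁻¹ * (b3⁻¹ * K (α - b1 * c))) gstd := by
    exact gauss_integrable (((integrable_affine hKi α h1).const_mul _).const_mul _)
  have hout : ∫⁻ c, ∫⁻ d, ENNReal.ofReal (tentT C s (α - b1 * c) (β - b2 * c - b3 * d)) ∂gstd ∂gstd ≤
      ENNReal.ofReal (∫ c, (Real.sqrt (2 * Real.pi))⁻¹ * (b3⁻¹ * K (α - b1 * c)) ∂gstd) := by
    rw [ofReal_integral_eq_lintegral_ofReal hKa (Filter.Eventually.of_forall fun c => by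
      have := hK0 (α - b1 * c)
      simp only [Pi.zero_apply]
      positivity)]
    apply lintegral_mono
    intro c
    simp only
    rw [← ofReal_integral_eq_lintegral_ofReal
      (gauss_integrable (integrable_affine (integrable_tentT_slice C s (α - b1 * c)) (β - b2 * c) h3))
      (Filter.Eventually.of_forall fun d => tentT_nonneg _ _ _ _)]
    exact ENNReal.ofReal_le_ofReal (hin c)
  refine hout.trans (ENNReal.ofReal_le_ofReal ?_)
  have h2 := gauss_le_leb (f := fun c => (Real.sqrt (2 * Real.pi))⁻¹ * (b3⁻¹ * K (α - b1 * c)))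
    (fun c => by have := hK0 (α - b1 * c); positivity)
    (((integrable_affine hKi α h1).const_mul _).const_mul _)
  refine h2.trans (le_of_eq ?_)
  rw [integral_const_mul, integral_const_mul, integral_affine K α h1]
  have hH : ∫ u, K u = Hfun C s := tent_int C s
  rw [hH]
  have hb : (1 / (2 * Real.pi * b1 * b3)) = (1 / (2 * Real.pi)) * (b1⁻¹ * b3⁻¹) := by
    field_simp
  rw [hb, ← hsq]
  ring

end Vale.Agent.Lib.P226
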