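import Vale.Agent.Lib.P226.Law
import Vale.Agent.Lib.P226.TentInner

/-!
The tent bound.
-/

open MeasureTheory Set ProbabilityTheory WithLp

namespace Vale.Agent.Lib.P226

variable {d : ℕ}

/-! ### Fubini for four Gaussian coordinates -/

theorem lintegral_pi_cons {n : ℕ} (F : (Fin (n + 1) → ℝ) → ENNReal) (hF : Measurable F) :
    ∫⁻ t, F t ∂(Measure.pi fun _ => gstd) =
      ∫⁻ a, ∫⁻ y : Fin n → ℝ, F (Fin.cons a y) ∂(Measure.pi fun _ => gstd) ∂gstd := by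
  have m := measurePreserving_piFinSuccAbove (fun _ : Fin (n + 1) => gstd) 0
  rw [← m.symm.lintegral_comp hF]
  have hmeas : Measurable (fun z => F ((MeasurableEquiv.piFinSuccAbove (fun _ => ℝ) 0).symm z)) :=
    hF.comp (MeasurableEquiv.measurable _)
  rw [lintegral_prod _ hmeas.aemeasurable]
  refine lintegral_congr fun a => lintegral_congr fun y => ?_
  congr 1
  ext i
  refine Fin.cases ?_ (fun j => ?_) i
  · simp [MeasurableEquiv.piFinSuccAbove]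
  · simp [MeasurableEquiv.piFinSuccAbove]

theorem measurable_cons {n : ℕ} (a : ℝ) : Measurable (fun y : Fin n → ℝ => (Fin.cons a y : Fin (n + 1) → ℝ)) := by
  refine measurable_pi_iff.2 fun i => ?_
  refine Fin.cases ?_ (fun j => ?_) i
  · simp
  · simpa using measurable_pi_apply j

theorem lintegral_pi4 (G : ℝ → ℝ → ℝ → ℝ → ENNReal)
    (hG : Measurable (fun t : Fin 4 → ℝ => G (t 0) (t 1) (t 2) (t 3))) :
    ∫⁻ t : Fin 4 → ℝ, G (t 0) (t 1) (t 2) (t 3) ∂(Measure.pi fun _ => gstd) =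
      ∫⁻ a, ∫⁻ b, ∫⁻ c, ∫⁻ e, G a b c e ∂gstd ∂gstd ∂gstd ∂gstd := by
  rw [lintegral_pi_cons _ hG]
  refine lintegral_congr fun a => ?_
  have h3 : Measurable (fun y : Fin 3 → ℝ => G a (y 0) (y 1) (y 2)) := hG.comp (measurable_cons a)
  have e1 : (fun y : Fin 3 → ℝ => G ((Fin.cons a y : Fin 4 → ℝ) 0) ((Fin.cons a y : Fin 4 → ℝ) 1)
      ((Fin.cons a y : Fin 4 → ℝ) 2) ((Fin.cons a y : Fin 4 → ℝ) 3)) = fun y => G a (y 0) (y 1) (y 2) := rfl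
  rw [e1, lintegral_pi_cons _ h3]
  refine lintegral_congr fun b => ?_
  have h2 : Measurable (fun y : Fin 2 → ℝ => G a b (y 0) (y 1)) := h3.comp (measurable_cons b)
  have e2 : (fun y : Fin 2 → ℝ => G a ((Fin.cons b y : Fin 3 → ℝ) 0) ((Fin.cons b y : Fin 3 → ℝ) 1)
      ((Fin.cons b y : Fin 3 → ℝ) 2)) = fun y => G a b (y 0) (y 1) := rfl
  rw [e2, lintegral_pi_cons _ h2]
  refine lintegral_congr fun c => ?_
  have h1 : Measurable (fun y : Fin 1 → ℝ => G a b c (y 0)) := h2.comp (measurable_cons c)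
  have e3 : (fun y : Fin 1 → ℝ => G a b ((Fin.cons c y : Fin 2 → ℝ) 0) ((Fin.cons c y : Fin 2 → ℝ) 1))
      = fun y => G a b c (y 0) := rfl
  rw [e3, lintegral_pi_cons _ h1]
  refine lintegral_congr fun e => ?_
  have e4 : (fun y : Fin 0 → ℝ => G a b c ((Fin.cons e y : Fin 1 → ℝ) 0)) = fun _ => G a b c e := rfl
  rw [e4]
  simp

/-! ### Cholesky -/

theorem det3_chol (a0 al b c1 d1 X : ℝ) :
    det3 (a0 ^ 2 + b ^ 2) (al ^ 2 + b ^ 2) (c1 ^ 2 + d1 ^ 2 + X) (a0 * al + b ^ 2)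
      (a0 * c1 + b * d1) (al * c1 + b * d1) = ((a0 - al) * b) ^ 2 * X := by
  unfold det3; ring

theorem det4_chol (a0 al b c1 d1 b1 c2 d2 b2 X : ℝ) :
    det4 (a0 ^ 2 + b ^ 2) (al ^ 2 + b ^ 2) (c1 ^ 2 + d1 ^ 2 + b1 ^ 2) (c2 ^ 2 + d2 ^ 2 + b2 ^ 2 + X)
      (a0 * al + b ^ 2) (a0 * c1 + b * d1) (a0 * c2 + b * d2) (al * c1 + b * d1) (al * c2 + b * d2)
      (c1 * c2 + d1 * d2 + b1 * b2) = ((a0 - al) * b * b1) ^ 2 * X := by
  unfold det4; ring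

theorem chol_exists {R0 Rl R1 R2 w p0 pl q0 ql r : ℝ} (h1 : 0 < R0) (h2 : 0 < R0 * Rl - w ^ 2)
    (h3 : 0 < det3 R0 Rl R1 w p0 pl) (h4 : 0 < det4 R0 Rl R1 R2 w p0 q0 pl ql r) :
    ∃ a0 al b c1 d1 b1 c2 d2 b2 b3 : ℝ, 0 < b ∧ al < a0 ∧ 0 < b1 ∧ 0 < b3 ∧
      R0 = a0 ^ 2 + b ^ 2 ∧ Rl = al ^ 2 + b ^ 2 ∧ w = a0 * al + b ^ 2 ∧
      p0 = a0 * c1 + b * d1 ∧ pl = al * c1 + b * d1 ∧ R1 = c1 ^ 2 + d1 ^ 2 + b1 ^ 2 ∧
      q0 = a0 * c2 + b * d2 ∧ ql = al * c2 + b * d2 ∧ r = c1 * c2 + d1 * d2 + b1 * b2 ∧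
      R2 = c2 ^ 2 + d2 ^ 2 + b2 ^ 2 + b3 ^ 2 := by
  have hF : 0 < R0 + Rl - 2 * w := by
    have : (R0 + Rl - 2 * w) * R0 = (R0 - w) ^ 2 + (R0 * Rl - w ^ 2) := by ring
    have h5 : 0 < (R0 + Rl - 2 * w) * R0 := by rw [this]; positivity
    exact (pos_iff_pos_of_mul_pos h5).2 h1
  set φ := Real.sqrt (R0 + Rl - 2 * w) with hφ
  have hφpos : 0 < φ := Real.sqrt_pos.2 hF
  have hφ2 : φ ^ 2 = R0 + Rl - 2 * w := Real.sq_sqrt hF.le
  set b := Real.sqrt (R0 * Rl - w ^ 2) / φ with hb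
  have hbpos : 0 < b := div_pos (Real.sqrt_pos.2 h2) hφpos
  have hb2 : b ^ 2 = (R0 * Rl - w ^ 2) / φ ^ 2 := by
    rw [hb, div_pow, Real.sq_sqrt h2.le]
  set a0 := (R0 - w) / φ with ha0
  set al := (w - Rl) / φ with hal
  have hdiff : a0 - al = φ := by
    rw [ha0, hal]
    field_simp
    rw [hφ2]; ring
  have hR0 : R0 = a0 ^ 2 + b ^ 2 := by
    rw [hb2, ha0, div_pow, ← add_div, eq_div_iff (by positivity), hφ2]; ring
  have hRl : Rl = al ^ 2 + b ^ 2 := by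
    rw [hb2, hal, div_pow, ← add_div, eq_div_iff (by positivity), hφ2]; ring
  have hw : w = a0 * al + b ^ 2 := by
    rw [hb2, ha0, hal, div_mul_div_comm, ← pow_two, ← add_div, eq_div_iff (by positivity), hφ2]; ring
  set c1 := (p0 - pl) / φ with hc1
  set d1 := (p0 - a0 * c1) / b with hd1
  have hp0 : p0 = a0 * c1 + b * d1 := by
    rw [hd1]; field_simp; ring
  have hpl : pl = al * c1 + b * d1 := by
    have : al = a0 - φ := by rw [← hdiff]; ring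
    rw [this, hd1, hc1]; field_simp; ring
  have hdet3 := det3_chol a0 al b c1 d1 (R1 - c1 ^ 2 - d1 ^ 2)
  have hX1 : c1 ^ 2 + d1 ^ 2 + (R1 - c1 ^ 2 - d1 ^ 2) = R1 := by ring
  rw [hX1, ← hR0, ← hRl, ← hw, ← hp0, ← hpl, hdiff] at hdet3
  have hrem1 : 0 < R1 - c1 ^ 2 - d1 ^ 2 := by
    rw [hdet3] at h3
    have h5 : 0 < (φ * b) ^ 2 := by positivity
    exact (pos_iff_pos_of_mul_pos h3).1 h5
  set b1 := Real.sqrt (R1 - c1 ^ 2 - d1 ^ 2) with hb1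
  have hb1pos : 0 < b1 := Real.sqrt_pos.2 hrem1
  have hb1sq : b1 ^ 2 = R1 - c1 ^ 2 - d1 ^ 2 := Real.sq_sqrt hrem1.le
  have hR1 : R1 = c1 ^ 2 + d1 ^ 2 + b1 ^ 2 := by rw [hb1sq]; ring
  set c2 := (q0 - ql) / φ with hc2
  set d2 := (q0 - a0 * c2) / b with hd2
  have hq0 : q0 = a0 * c2 + b * d2 := by
    rw [hd2]; field_simp; ring
  have hql : ql = al * c2 + b * d2 := by
    have : al = a0 - φ := by rw [← hdiff]; ring
    rw [this, hd2, hc2]; field_simp; ring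
  set b2 := (r - c1 * c2 - d1 * d2) / b1 with hb2'
  have hr : r = c1 * c2 + d1 * d2 + b1 * b2 := by
    rw [hb2']; field_simp; ring
  have hdet4 := det4_chol a0 al b c1 d1 b1 c2 d2 b2 (R2 - c2 ^ 2 - d2 ^ 2 - b2 ^ 2)
  have hX2 : c2 ^ 2 + d2 ^ 2 + b2 ^ 2 + (R2 - c2 ^ 2 - d2 ^ 2 - b2 ^ 2) = R2 := by ring
  rw [hX2, ← hR0, ← hRl, ← hw, ← hp0, ← hpl, ← hR1, ← hq0, ← hql, ← hr, hdiff] at hdet4
  have hrem2 : 0 < R2 - c2 ^ 2 - d2 ^ 2 - b2 ^ 2 := by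
    rw [hdet4] at h4
    have h5 : 0 < (φ * b * b1) ^ 2 := by positivity
    exact (pos_iff_pos_of_mul_pos h4).1 h5
  refine ⟨a0, al, b, c1, d1, b1, c2, d2, b2, Real.sqrt (R2 - c2 ^ 2 - d2 ^ 2 - b2 ^ 2), hbpos, ?_,
    hb1pos, Real.sqrt_pos.2 hrem2, hR0, hRl, hw, hp0, hpl, hR1, hq0, hql, hr, ?_⟩
  · linarith
  · rw [Real.sq_sqrt hrem2.le]; ring

/-! ### The wedge expression -/

/-- The angular value. -/
noncomputable def Jw (α β : ℝ) : ℝ :=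
  (2 / 3) * Real.sqrt (α ^ 2 + β ^ 2) ^ 3 + Real.sqrt (α ^ 2 + β ^ 2) ^ 2 * α - α ^ 3 / 3

theorem Wd_eq (α β : ℝ) {φ : ℝ} (hφ : 0 < φ) :
    Wd (α ^ 2 + β ^ 2) (α * φ) (φ ^ 2) = Jw α β := by
  unfold Wd Jw
  rw [Real.sqrt_sq hφ.le]
  set ρ := Real.sqrt (α ^ 2 + β ^ 2) with hρ
  have hρ2 : ρ ^ 2 = α ^ 2 + β ^ 2 := Real.sq_sqrt (by positivity)
  rw [← hρ2]
  field_simp

theorem Fabs_chol (a0 al b : ℝ) (ha : al < a0) :
    Fabs (a0 ^ 2 + b ^ 2) (al ^ 2 + b ^ 2) (a0 * al + b ^ 2) =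
      Jw ((4 * a0 + al) / 3) (5 * b / 3) - Jw ((a0 + 4 * al) / 3) (5 * b / 3) := by
  have hφ : 0 < a0 - al := by linarith
  rw [← Wd_eq _ _ hφ, ← Wd_eq _ _ hφ]
  unfold Fabs
  congr 2 <;> ring

/-! ### The model computation -/

/-- The function of four inner products. -/
noncomputable def PhiT (t : Fin 4 → ℝ) : ℝ :=
  max 0 (min (t 0 - t 2) (min (t 0 - t 3) (min (2 * t 0 + t 1 + t 2 + t 3) (t 0 - t 1))))

theorem PhiT_nonneg (t : Fin 4 → ℝ) : 0 ≤ PhiT t := le_max_left _ _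

theorem measurable_PhiT : Measurable PhiT := by
  unfold PhiT
  fun_prop

/-- Model vectors. -/
noncomputable def vecs (a0 al b c1 d1 b1 c2 d2 b2 b3 : ℝ) : Fin 4 → E 4 :=
  ![toLp 2 ![a0, b, 0, 0], toLp 2 ![al, b, 0, 0], toLp 2 ![c1, d1, b1, 0], toLp 2 ![c2, d2, b2, b3]]

theorem inner_toLp_vec (t : Fin 4 → ℝ) (p q r s : ℝ) :
    inner ℝ (toLp 2 t : E 4) (toLp 2 ![p, q, r, s]) = t 0 * p + t 1 * q + t 2 * r + t 3 * s := by
  simp [PiLp.inner_apply, Fin.sum_univ_four]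
  ring

/-- The Hfun integrand in wedge form. -/
theorem Hfun_wedge (a0 al b : ℝ) (ha : al < a0) (z : ℝ × ℝ) :
    Hfun ((4 * a0 + al) * z.1 + 5 * b * z.2) ((a0 - al) * z.1) =
      (3 / 2) * (wedgeF ((4 * a0 + al) / 3) (5 * b / 3) z - wedgeF ((a0 + 4 * al) / 3) (5 * b / 3) z) := by
  have hφ : 0 < a0 - al := by linarith
  unfold Hfun wedgeF
  by_cases hz : 0 < z.1
  · rw [if_pos (by positivity), if_pos hz, if_pos hz]
    have h1 : (4 * a0 + al) * z.1 + 5 * b * z.2 = 3 * ((4 * a0 + al) / 3 * z.1 + 5 * b / 3 * z.2) := by ring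
    have h2 : (4 * a0 + al) * z.1 + 5 * b * z.2 - 3 * ((a0 - al) * z.1)
        = 3 * ((a0 + 4 * al) / 3 * z.1 + 5 * b / 3 * z.2) := by ring
    rw [h2, h1]
    have h3 : ∀ X : ℝ, max (3 * X) 0 = 3 * max X 0 := by
      intro X
      rw [mul_max_of_nonneg _ _ (by norm_num : (0 : ℝ) ≤ 3), mul_zero]
    rw [h3, h3]
    ring
  · rw [if_neg hz, if_neg hz, if_neg]
    · simp
    · push Not at hz ⊢
      exact mul_nonpos_of_nonneg_of_nonpos hφ.le hz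

theorem measurable_Hfun_comp (a0 al b : ℝ) (ha : al < a0) :
    Measurable (fun z : ℝ × ℝ => Hfun ((4 * a0 + al) * z.1 + 5 * b * z.2) ((a0 - al) * z.1)) := by
  have : (fun z : ℝ × ℝ => Hfun ((4 * a0 + al) * z.1 + 5 * b * z.2) ((a0 - al) * z.1)) = fun z =>
      (3 / 2) * (wedgeF ((4 * a0 + al) / 3) (5 * b / 3) z - wedgeF ((a0 + 4 * al) / 3) (5 * b / 3) z) := by
    funext z
    exact Hfun_wedge a0 al b ha z
  rw [this]
  exact ((measurable_wedgeF _ _).sub (measurable_wedgeF _ _)).const_mul _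

/-- The model bound. -/
theorem tent_model (a0 al b c1 d1 b1 c2 d2 b2 b3 : ℝ) (hb : 0 < b) (ha : al < a0) (hb1 : 0 < b1)
    (hb3 : 0 < b3) :
    ∫ x : E 4, PhiT (fun i => inner ℝ x (vecs a0 al b c1 d1 b1 c2 d2 b2 b3 i)) ∂(gam 4) ≤
      (1 / (2 * Real.pi * b1 * b3)) * ((3 / 2) * ((3 / (2 * Real.sqrt (2 * Real.pi))) *
        (Jw ((4 * a0 + al) / 3) (5 * b / 3) - Jw ((a0 + 4 * al) / 3) (5 * b / 3)))) := by
  set v := vecs a0 al b c1 d1 b1 c2 d2 b2 b3 with hv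
  set κ := 1 / (2 * Real.pi * b1 * b3) with hκ
  have hκpos : 0 < κ := by positivity
  set e1 := (4 * a0 + al) / 3 with he1
  set g1 := (a0 + 4 * al) / 3 with hg1
  have he2 : 0 < 5 * b / 3 := by positivity
  -- the nonnegative model function
  let BB : ℝ × ℝ → ℝ := fun z => κ * Hfun ((4 * a0 + al) * z.1 + 5 * b * z.2) ((a0 - al) * z.1)
  have hBB0 : ∀ z, 0 ≤ BB z := fun z => mul_nonneg hκpos.le (Hfun_nonneg _ _)
  have hBBeq : ∀ z, BB z = κ * ((3 / 2) * (wedgeF e1 (5 * b / 3) z - wedgeF g1 (5 * b / 3) z)) := by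
    intro z
    simp only [BB]
    rw [Hfun_wedge a0 al b ha z]
  have hBBi : Integrable BB ((gaussianReal 0 1).prod (gaussianReal 0 1)) := by
    have := (((integrable_wedgeF e1 (5 * b / 3)).sub (integrable_wedgeF g1 (5 * b / 3))).const_mul (3 / 2)).const_mul κ
    refine this.congr (Filter.Eventually.of_forall fun z => ?_)
    simp only [Pi.sub_apply]
    rw [hBBeq]
  have hBBm : Measurable BB := (measurable_Hfun_comp a0 al b ha).const_mul κ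
  have hBBint : ∫ z, BB z ∂((gaussianReal 0 1).prod (gaussianReal 0 1)) =
      κ * ((3 / 2) * ((3 / (2 * Real.sqrt (2 * Real.pi))) * (Jw e1 (5 * b / 3) - Jw g1 (5 * b / 3)))) := by
    simp_rw [hBBeq]
    rw [integral_const_mul, integral_const_mul,
      integral_sub (integrable_wedgeF e1 (5 * b / 3)) (integrable_wedgeF g1 (5 * b / 3)),
      wedge_int e1 he2, wedge_int g1 he2]
    unfold Jw
    ring
  -- reduce to lintegral
  have hnn : 0 ≤ᵐ[gam 4] fun x : E 4 => PhiT (fun i => inner ℝ x (v i)) :=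
    Filter.Eventually.of_forall fun x => PhiT_nonneg _
  have hmeasx : Measurable (fun x : E 4 => PhiT (fun i => inner ℝ x (v i))) :=
    measurable_PhiT.comp (measurable_pi_iff.2 fun i => by fun_prop)
  rw [integral_eq_lintegral_of_nonneg_ae hnn hmeasx.aestronglyMeasurable, ← hBBint]
  apply ENNReal.toReal_le_of_le_ofReal (integral_nonneg hBB0)
  rw [ofReal_integral_eq_lintegral_ofReal hBBi (Filter.Eventually.of_forall hBB0)]
  -- to the product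
  have hmap : gam 4 = (Measure.pi fun _ : Fin 4 => gstd).map (toLp 2) :=
    (map_pi_eq_stdGaussian).symm
  have htoLp : Measurable (toLp 2 : (Fin 4 → ℝ) → E 4) := by fun_prop
  have hmeasx' : Measurable (fun x : E 4 => ENNReal.ofReal (PhiT fun i => inner ℝ x (v i))) :=
    ENNReal.measurable_ofReal.comp hmeasx
  rw [hmap, lintegral_map hmeasx' htoLp]
  -- the form of the integrand
  let Ψ : ℝ → ℝ → ℝ → ℝ → ℝ := fun p q r s =>
    tentT ((4 * a0 + al) * p + 5 * b * q) ((a0 - al) * p)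
      (((a0 - c1) * p + (b - d1) * q) - b1 * r) (((a0 - c2) * p + (b - d2) * q) - b2 * r - b3 * s)
  have hpt : ∀ t : Fin 4 → ℝ, PhiT (fun i => inner ℝ (toLp 2 t : E 4) (v i)) = Ψ (t 0) (t 1) (t 2) (t 3) := by
    intro t
    have h0 : inner ℝ (toLp 2 t : E 4) (v 0) = t 0 * a0 + t 1 * b := by
      simp only [hv, vecs, Matrix.cons_val_zero, inner_toLp_vec]; ring
    have h1 : inner ℝ (toLp 2 t : E 4) (v 1) = t 0 * al + t 1 * b := by
      simp only [hv, vecs, Matrix.cons_val_one, Matrix.cons_val_zero, inner_toLp_vec]; ring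
    have h2 : inner ℝ (toLp 2 t : E 4) (v 2) = t 0 * c1 + t 1 * d1 + t 2 * b1 := by
      have : v 2 = toLp 2 ![c1, d1, b1, 0] := rfl
      rw [this, inner_toLp_vec]; ring
    have h3 : inner ℝ (toLp 2 t : E 4) (v 3) = t 0 * c2 + t 1 * d2 + t 2 * b2 + t 3 * b3 := by
      have : v 3 = toLp 2 ![c2, d2, b2, b3] := rfl
      rw [this, inner_toLp_vec]
    unfold PhiT
    simp only [Ψ, tentT, h0, h1, h2, h3]
    congr 2
    · ring
    · congr 1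
      · ring
      · congr 1
        · ring
        · ring
  simp only [hpt]
  have hΨm : Measurable (fun t : Fin 4 → ℝ => ENNReal.ofReal (Ψ (t 0) (t 1) (t 2) (t 3))) := by
    have : Measurable (fun t : Fin 4 → ℝ => Ψ (t 0) (t 1) (t 2) (t 3)) := by
      have hc : Continuous (fun z : ℝ × ℝ × ℝ × ℝ => Ψ z.1 z.2.1 z.2.2.1 z.2.2.2) := by
        simp only [Ψ, tentT]
        fun_prop
      have hm : Measurable (fun t : Fin 4 → ℝ => ((t 0, t 1, t 2, t 3) : ℝ × ℝ × ℝ × ℝ)) :=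
        (measurable_pi_apply 0).prodMk ((measurable_pi_apply 1).prodMk
          ((measurable_pi_apply 2).prodMk (measurable_pi_apply 3)))
      exact hc.measurable.comp hm
    exact ENNReal.measurable_ofReal.comp this
  rw [lintegral_pi4 (fun p q r s => ENNReal.ofReal (Ψ p q r s)) hΨm]
  have hmeasBB : Measurable (fun z : ℝ × ℝ => ENNReal.ofReal (BB z)) := ENNReal.measurable_ofReal.comp hBBm
  rw [lintegral_prod _ hmeasBB.aemeasurable]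
  refine lintegral_mono fun p => lintegral_mono fun q => ?_
  exact inner_bound _ _ _ _ b1 b2 b3 hb1 hb3

theorem gram_vecs (a0 al b c1 d1 b1 c2 d2 b2 b3 : ℝ) :
    (∀ i j : Fin 4, inner ℝ (vecs a0 al b c1 d1 b1 c2 d2 b2 b3 i) (vecs a0 al b c1 d1 b1 c2 d2 b2 b3 j) =
      (![![a0 ^ 2 + b ^ 2, a0 * al + b ^ 2, a0 * c1 + b * d1, a0 * c2 + b * d2],
        ![a0 * al + b ^ 2, al ^ 2 + b ^ 2, al * c1 + b * d1, al * c2 + b * d2],
        ![a0 * c1 + b * d1, al * c1 + b * d1, c1 ^ 2 + d1 ^ 2 + b1 ^ 2, c1 * c2 + d1 * d2 + b1 * b2],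
        ![a0 * c2 + b * d2, al * c2 + b * d2, c1 * c2 + d1 * d2 + b1 * b2,
          c2 ^ 2 + d2 ^ 2 + b2 ^ 2 + b3 ^ 2]] : Fin 4 → Fin 4 → ℝ) i j) := by
  have h00 : vecs a0 al b c1 d1 b1 c2 d2 b2 b3 0 = toLp 2 ![a0, b, 0, 0] := rfl
  have h01 : vecs a0 al b c1 d1 b1 c2 d2 b2 b3 1 = toLp 2 ![al, b, 0, 0] := rfl
  have h02 : vecs a0 al b c1 d1 b1 c2 d2 b2 b3 2 = toLp 2 ![c1, d1, b1, 0] := rfl
  have h03 : vecs a0 al b c1 d1 b1 c2 d2 b2 b3 3 = toLp 2 ![c2, d2, b2, b3] := rfl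
  intro i j
  fin_cases i <;> fin_cases j <;>
    simp only [Fin.zero_eta, Fin.mk_one, Fin.reduceFinMk, h00, h01, h02, h03, inner_toLp_vec] <;>
    simp <;> ring

/-- **The tent bound.** -/
theorem tent_bound (y0 yl y1 y2 yn : E d) (hsum : y0 + yl + y1 + y2 + yn = 0)
    (h1 : 0 < ‖y0‖ ^ 2)
    (h2 : 0 < ‖y0‖ ^ 2 * ‖yl‖ ^ 2 - (inner ℝ y0 yl : ℝ) ^ 2)
    (h3 : 0 < det3 (‖y0‖ ^ 2) (‖yl‖ ^ 2) (‖y1‖ ^ 2) (inner ℝ y0 yl) (inner ℝ y0 y1) (inner ℝ yl y1))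
    (h4 : 0 < det4 (‖y0‖ ^ 2) (‖yl‖ ^ 2) (‖y1‖ ^ 2) (‖y2‖ ^ 2) (inner ℝ y0 yl) (inner ℝ y0 y1)
        (inner ℝ y0 y2) (inner ℝ yl y1) (inner ℝ yl y2) (inner ℝ y1 y2)) :
    Real.sqrt (2 * Real.pi) * ∫ x : E d,
        max 0 (min (inner ℝ x (y0 - y1)) (min (inner ℝ x (y0 - y2))
          (min (inner ℝ x (y0 - yn)) (inner ℝ x (y0 - yl))))) ∂(gam d)
      ≤ (9 / (8 * Real.pi)) *
        Real.sqrt ((‖y0‖ ^ 2 * ‖yl‖ ^ 2 - (inner ℝ y0 yl : ℝ) ^ 2) /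
          det4 (‖y0‖ ^ 2) (‖yl‖ ^ 2) (‖y1‖ ^ 2) (‖y2‖ ^ 2) (inner ℝ y0 yl) (inner ℝ y0 y1)
            (inner ℝ y0 y2) (inner ℝ yl y1) (inner ℝ yl y2) (inner ℝ y1 y2))
        * Fabs (‖y0‖ ^ 2) (‖yl‖ ^ 2) (inner ℝ y0 yl) := by
  obtain ⟨a0, al, b, c1, d1, b1, c2, d2, b2, b3, hb, ha, hb1, hb3, hR0, hRl, hw, hp0, hpl, hR1, hq0,
    hql, hr, hR2⟩ := chol_exists h1 h2 h3 h4
  -- the integrand as a function of four inner products
  have hyn : yn = -(y0 + yl + y1 + y2) := eq_neg_of_add_eq_zero_right hsum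
  let u : Fin 4 → E d := ![y0, yl, y1, y2]
  have hint : (fun x : E d => max 0 (min (inner ℝ x (y0 - y1)) (min (inner ℝ x (y0 - y2))
          (min (inner ℝ x (y0 - yn)) (inner ℝ x (y0 - yl)))))) =
      fun x => PhiT (fun i => inner ℝ x (u i)) := by
    funext x
    have e0 : inner ℝ x (u 0) = inner ℝ x y0 := rfl
    have e1 : inner ℝ x (u 1) = inner ℝ x yl := rfl
    have e2 : inner ℝ x (u 2) = inner ℝ x y1 := rfl
    have e3 : inner ℝ x (u 3) = inner ℝ x y2 := rfl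
    unfold PhiT
    simp only [e0, e1, e2, e3]
    rw [hyn, inner_sub_right, inner_sub_right, inner_sub_right, inner_sub_right, inner_neg_right,
      inner_add_right, inner_add_right, inner_add_right]
    congr 3
    ring_nf
  set v := vecs a0 al b c1 d1 b1 c2 d2 b2 b3 with hv
  have hgram : ∀ i j, inner ℝ (u i) (u j) = (inner ℝ (v i) (v j) : ℝ) := by
    intro i j
    rw [hv, gram_vecs]
    have e01 : (inner ℝ yl y0 : ℝ) = inner ℝ y0 yl := real_inner_comm _ _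
    have e02 : (inner ℝ y1 y0 : ℝ) = inner ℝ y0 y1 := real_inner_comm _ _
    have e03 : (inner ℝ y2 y0 : ℝ) = inner ℝ y0 y2 := real_inner_comm _ _
    have e12 : (inner ℝ y1 yl : ℝ) = inner ℝ yl y1 := real_inner_comm _ _
    have e13 : (inner ℝ y2 yl : ℝ) = inner ℝ yl y2 := real_inner_comm _ _
    have e23 : (inner ℝ y2 y1 : ℝ) = inner ℝ y1 y2 := real_inner_comm _ _
    fin_cases i <;> fin_cases j <;>
      simp [u, e01, e02, e03, e12, e13, e23, hR0, hRl, hR1, hR2,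
        hw, hp0, hpl, hq0, hql, hr]
  rw [hint, integral_congr_gram u v hgram PhiT measurable_PhiT]
  have hmodel := tent_model a0 al b c1 d1 b1 c2 d2 b2 b3 hb ha hb1 hb3
  -- the algebra of the right side
  have hφ : 0 < a0 - al := by linarith
  have hD : det4 (‖y0‖ ^ 2) (‖yl‖ ^ 2) (‖y1‖ ^ 2) (‖y2‖ ^ 2) (inner ℝ y0 yl) (inner ℝ y0 y1)
        (inner ℝ y0 y2) (inner ℝ yl y1) (inner ℝ yl y2) (inner ℝ y1 y2) =
      ((a0 - al) * b * b1) ^ 2 * b3 ^ 2 := by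
    rw [hR0, hRl, hR1, hR2, hw, hp0, hpl, hq0, hql, hr]
    exact det4_chol _ _ _ _ _ _ _ _ _ _
  have hm2 : ‖y0‖ ^ 2 * ‖yl‖ ^ 2 - (inner ℝ y0 yl : ℝ) ^ 2 = ((a0 - al) * b) ^ 2 := by
    rw [hR0, hRl, hw]; ring
  have hsq : Real.sqrt ((‖y0‖ ^ 2 * ‖yl‖ ^ 2 - (inner ℝ y0 yl : ℝ) ^ 2) /
          det4 (‖y0‖ ^ 2) (‖yl‖ ^ 2) (‖y1‖ ^ 2) (‖y2‖ ^ 2) (inner ℝ y0 yl) (inner ℝ y0 y1)
            (inner ℝ y0 y2) (inner ℝ yl y1) (inner ℝ yl y2) (inner ℝ y1 y2)) = 1 / (b1 * b3) := by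
    rw [hD, hm2]
    have : ((a0 - al) * b) ^ 2 / (((a0 - al) * b * b1) ^ 2 * b3 ^ 2) = (1 / (b1 * b3)) ^ 2 := by
      field_simp
    rw [this, Real.sqrt_sq (by positivity)]
  have hF : Fabs (‖y0‖ ^ 2) (‖yl‖ ^ 2) (inner ℝ y0 yl) =
      Jw ((4 * a0 + al) / 3) (5 * b / 3) - Jw ((a0 + 4 * al) / 3) (5 * b / 3) := by
    rw [hR0, hRl, hw]
    exact Fabs_chol a0 al b ha
  rw [hsq, hF]
  have hs : 0 < Real.sqrt (2 * Real.pi) := Real.sqrt_pos.2 (by positivity)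
  have hle := mul_le_mul_of_nonneg_left hmodel hs.le
  refine hle.trans (le_of_eq ?_)
  have hpi : Real.pi ≠ 0 := Real.pi_ne_zero
  field_simp
  ring

end Vale.Agent.Lib.P226
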