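import Vale.Agent.Lib.P226.Basic

/-!
Part G of the deletion proof: the spanning-tree inequality and the positivity of the leading
minors of the weighted Laplacian (both by explicit expansion into monomials with nonnegative
coefficients), and the relaxation of the pair bound.
-/

namespace Vale.Agent.Lib.P226

private lemma tree_poly (w01 w02 w0n w0l w12 w1n w1l w2n w2l wnl : ℝ) :
    det4 (w01 + w02 + w0n + w0l) (w0l + w1l + w2l + wnl) (w01 + w12 + w1n + w1l)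
        (w02 + w12 + w2n + w2l) (-w0l) (-w01) (-w02) (-w1l) (-w2l) (-w12)
      * ((w1l + w2l) + wnl)
    - ((w01 + w02 + w0n + w0l) * (w0l + w1l + w2l + wnl) - w0l ^ 2) * w12
      * ((w1n + w2n) * ((w1l + w2l) + wnl) + wnl * (w1l + w2l))
    = (((((((w01*w02*w0l*w0n*w1l + (w01*w02*w0l*w0n*w2l + w01*w02*w0l*w0n*wnl)) + (w01*w02*w0l*w1l*w1n + (w01*w02*w0l*w1l*w2n + w01*w02*w0l*w1l*wnl))) + ((w01*w02*w0l*w1n*w2l + (w01*w02*w0l*w1n*wnl + w01*w02*w0l*w2l*w2n)) + ((w01*w02*w0l*w2l*wnl + w01*w02*w0l*w2n*wnl) + (w01*w02*w0l*wnl*wnl + w01*w02*w0n*w1l*w1l)))) + (((2*w01*w02*w0n*w1l*w2l + (2*w01*w02*w0n*w1l*wnl + w01*w02*w0n*w2l*w2l)) + (2*w01*w02*w0n*w2l*wnl + (w01*w02*w0n*wnl*wnl + w01*w02*w1l*w1l*w1n))) + ((w01*w02*w1l*w1l*w2n + (w01*w02*w1l*w1l*wnl + 2*w01*w02*w1l*w1n*w2l))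 + ((2*w01*w02*w1l*w1n*wnl + 2*w01*w02*w1l*w2l*w2n) + (2*w01*w02*w1l*w2l*wnl + 2*w01*w02*w1l*w2n*wnl))))) + ((((w01*w02*w1l*wnl*wnl + (w01*w02*w1n*w2l*w2l + 2*w01*w02*w1n*w2l*wnl)) + (w01*w02*w1n*wnl*wnl + (w01*w02*w2l*w2l*w2n + w01*w02*w2l*w2l*wnl))) + ((2*w01*w02*w2l*w2n*wnl + (w01*w02*w2l*wnl*wnl + w01*w02*w2n*wnl*wnl)) + ((w01*w0l*w0n*w12*w1l + w01*w0l*w0n*w12*w2l) + (w01*w0l*w0n*w12*wnl + w01*w0l*w0n*w1l*w2l)))) + (((w01*w0l*w0n*w1l*w2n + (w01*w0l*w0n*w2l*w2l + w01*w0l*w0n*w2l*w2n)) + (w01*w0l*w0n*w2l*wnl + (w01*w0l*w0n*w2n*wnl + w01*w0l*w12*wnl*wnl))) + ((w01*w0l*w1l*w1n*w2l + (w01*w0l*w1l*w1n*w2n + w01*w0l*w1l*w2l*w2n)) + ((w01*w0l*w1l*w2l*wnl + w01*w0l*w1l*w2n*wnl) + (w01*w0l*w1n*w2l*w2l + w01*w0l*w1n*w2l*w2n)))))) + (((((w01*w0l*w1n*w2l*wnl + (w01*w0l*w1n*w2n*wnl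 + w01*w0l*w2l*w2l*w2n)) + (w01*w0l*w2l*w2l*wnl + (2*w01*w0l*w2l*w2n*wnl + w01*w0l*w2l*wnl*wnl))) + ((w01*w0l*w2n*wnl*wnl + (w01*w0n*w12*w1l*w1l + 2*w01*w0n*w12*w1l*w2l)) + ((2*w01*w0n*w12*w1l*wnl + w01*w0n*w12*w2l*w2l) + (2*w01*w0n*w12*w2l*wnl + w01*w0n*w12*wnl*wnl)))) + (((w01*w0n*w1l*w1l*w2l + (w01*w0n*w1l*w1l*w2n + w01*w0n*w1l*w2l*w2l)) + (2*w01*w0n*w1l*w2l*w2n + (2*w01*w0n*w1l*w2l*wnl + 2*w01*w0n*w1l*w2n*wnl))) + ((w01*w0n*w2l*w2l*w2n + (w01*w0n*w2l*w2l*wnl + 2*w01*w0n*w2l*w2n*wnl)) + ((w01*w0n*w2l*wnl*wnl + w01*w0n*w2n*wnl*wnl) + (w01*w1l*w1l*w1n*w2l + w01*w1l*w1l*w1n*w2n))))) + ((((w01*w1l*w1l*w2l*w2n + (w01*w1l*w1l*w2l*wnl + w01*w1l*w1l*w2n*wnl)) + (w01*w1l*w1n*w2l*w2l + (2*w01*w1l*w1n*w2l*w2n + 2*w01*w1l*w1n*w2l*wnl))) + ((2*w01*w1l*w1n*w2n*wnl + (w01*w1l*w2l*w2l*w2n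 + w01*w1l*w2l*w2l*wnl)) + ((2*w01*w1l*w2l*w2n*wnl + w01*w1l*w2l*wnl*wnl) + (w01*w1l*w2n*wnl*wnl + w01*w1n*w2l*w2l*w2n)))) + (((w01*w1n*w2l*w2l*wnl + (2*w01*w1n*w2l*w2n*wnl + w01*w1n*w2l*wnl*wnl)) + (w01*w1n*w2n*wnl*wnl + (w02*w0l*w0n*w12*w1l + w02*w0l*w0n*w12*w2l))) + ((w02*w0l*w0n*w12*wnl + (w02*w0l*w0n*w1l*w1l + w02*w0l*w0n*w1l*w1n)) + ((w02*w0l*w0n*w1l*w2l + w02*w0l*w0n*w1l*wnl) + (w02*w0l*w0n*w1n*w2l + w02*w0l*w0n*w1n*wnl))))))) + ((((((w02*w0l*w12*wnl*wnl + (w02*w0l*w1l*w1l*w1n + w02*w0l*w1l*w1l*w2n)) + (w02*w0l*w1l*w1l*wnl + (w02*w0l*w1l*w1n*w2l + w02*w0l*w1l*w1n*w2n))) + ((2*w02*w0l*w1l*w1n*wnl + (w02*w0l*w1l*w2l*w2n + w02*w0l*w1l*w2l*wnl)) + ((w02*w0l*w1l*w2n*wnl + w02*w0l*w1l*wnl*wnl) + (w02*w0l*w1n*w2l*w2n + w02*w0l*w1n*w2l*wnl)))) + (((w02*w0l*w1n*w2n*wnl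 + (w02*w0l*w1n*wnl*wnl + w02*w0n*w12*w1l*w1l)) + (2*w02*w0n*w12*w1l*w2l + (2*w02*w0n*w12*w1l*wnl + w02*w0n*w12*w2l*w2l))) + ((2*w02*w0n*w12*w2l*wnl + (w02*w0n*w12*wnl*wnl + w02*w0n*w1l*w1l*w1n)) + ((w02*w0n*w1l*w1l*w2l + w02*w0n*w1l*w1l*wnl) + (2*w02*w0n*w1l*w1n*w2l + 2*w02*w0n*w1l*w1n*wnl))))) + ((((w02*w0n*w1l*w2l*w2l + (2*w02*w0n*w1l*w2l*wnl + w02*w0n*w1l*wnl*wnl)) + (w02*w0n*w1n*w2l*w2l + (2*w02*w0n*w1n*w2l*wnl + w02*w0n*w1n*wnl*wnl))) + ((w02*w1l*w1l*w1n*w2l + (w02*w1l*w1l*w1n*w2n + w02*w1l*w1l*w2l*w2n)) + ((w02*w1l*w1l*w2l*wnl + w02*w1l*w1l*w2n*wnl) + (w02*w1l*w1n*w2l*w2l + 2*w02*w1l*w1n*w2l*w2n)))) + (((2*w02*w1l*w1n*w2l*wnl + (2*w02*w1l*w1n*w2n*wnl + w02*w1l*w2l*w2l*w2n)) + (w02*w1l*w2l*w2l*wnl + (2*w02*w1l*w2l*w2n*wnl + w02*w1l*w2l*wnl*wnl))) + ((w02*w1l*w2n*wnl*wnl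 + (w02*w1n*w2l*w2l*w2n + w02*w1n*w2l*w2l*wnl)) + ((2*w02*w1n*w2l*w2n*wnl + w02*w1n*w2l*wnl*wnl) + (w02*w1n*w2n*wnl*wnl + w0l*w0n*w12*w1l*w1l)))))) + (((((2*w0l*w0n*w12*w1l*w2l + (w0l*w0n*w12*w2l*w2l + w0l*w0n*w1l*w1l*w2l)) + (w0l*w0n*w1l*w1l*w2n + (w0l*w0n*w1l*w1n*w2l + w0l*w0n*w1l*w1n*w2n))) + ((w0l*w0n*w1l*w2l*w2l + (w0l*w0n*w1l*w2l*w2n + w0l*w0n*w1l*w2l*wnl)) + ((w0l*w0n*w1l*w2n*wnl + w0l*w0n*w1n*w2l*w2l) + (w0l*w0n*w1n*w2l*w2n + w0l*w0n*w1n*w2l*wnl)))) + (((w0l*w0n*w1n*w2n*wnl + (w0l*w1l*w1l*w1n*w2l + w0l*w1l*w1l*w1n*w2n)) + (w0l*w1l*w1l*w2l*w2n + (w0l*w1l*w1l*w2l*wnl + w0l*w1l*w1l*w2n*wnl))) + ((w0l*w1l*w1n*w2l*w2l + (2*w0l*w1l*w1n*w2l*w2n + 2*w0l*w1l*w1n*w2l*wnl)) + ((2*w0l*w1l*w1n*w2n*wnl + w0l*w1l*w2l*w2l*w2n) + (w0l*w1l*w2l*w2l*wnl + 2*w0l*w1l*w2l*w2n*wnl)))))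 + ((((w0l*w1l*w2l*wnl*wnl + (w0l*w1l*w2n*wnl*wnl + w0l*w1n*w2l*w2l*w2n)) + (w0l*w1n*w2l*w2l*wnl + (2*w0l*w1n*w2l*w2n*wnl + w0l*w1n*w2l*wnl*wnl))) + ((w0l*w1n*w2n*wnl*wnl + (w0n*w1l*w1l*w1n*w2l + w0n*w1l*w1l*w1n*w2n)) + ((w0n*w1l*w1l*w2l*w2n + w0n*w1l*w1l*w2l*wnl) + (w0n*w1l*w1l*w2n*wnl + w0n*w1l*w1n*w2l*w2l)))) + (((2*w0n*w1l*w1n*w2l*w2n + (2*w0n*w1l*w1n*w2l*wnl + 2*w0n*w1l*w1n*w2n*wnl)) + (w0n*w1l*w2l*w2l*w2n + (w0n*w1l*w2l*w2l*wnl + 2*w0n*w1l*w2l*w2n*wnl))) + ((w0n*w1l*w2l*wnl*wnl + (w0n*w1l*w2n*wnl*wnl + w0n*w1n*w2l*w2l*w2n)) + ((w0n*w1n*w2l*w2l*wnl + 2*w0n*w1n*w2l*w2n*wnl) + (w0n*w1n*w2l*wnl*wnl + w0n*w1n*w2n*wnl*wnl)))))))) := by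
  unfold det4
  ring

/-- Matrix-tree lower bound: in terms of the edge weights of `K_5` on vertices `0,1,2,n,l`,
`w01 ...`. Here `R_i` are the weighted degrees and the Gram matrix of `y0,yl,y1,y2` is the
corresponding principal minor of the Laplacian. -/
theorem tree_ineq {w01 w02 w0n w0l w12 w1n w1l w2n w2l wnl : ℝ}
    (h01 : 0 ≤ w01) (h02 : 0 ≤ w02) (h0n : 0 ≤ w0n) (h0l : 0 ≤ w0l) (h12 : 0 ≤ w12) (h1n : 0 ≤ w1n)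
    (h1l : 0 ≤ w1l) (h2n : 0 ≤ w2n) (h2l : 0 ≤ w2l) (hnl : 0 ≤ wnl) :
    ((w01 + w02 + w0n + w0l) * (w0l + w1l + w2l + wnl) - w0l ^ 2) * w12
      * ((w1n + w2n) * ((w1l + w2l) + wnl) + wnl * (w1l + w2l))
    ≤ det4 (w01 + w02 + w0n + w0l) (w0l + w1l + w2l + wnl) (w01 + w12 + w1n + w1l)
        (w02 + w12 + w2n + w2l) (-w0l) (-w01) (-w02) (-w1l) (-w2l) (-w12)
      * ((w1l + w2l) + wnl) := by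
  have h := tree_poly w01 w02 w0n w0l w12 w1n w1l w2n w2l wnl
  have hp : 0 ≤ (((((((w01*w02*w0l*w0n*w1l + (w01*w02*w0l*w0n*w2l + w01*w02*w0l*w0n*wnl)) + (w01*w02*w0l*w1l*w1n + (w01*w02*w0l*w1l*w2n + w01*w02*w0l*w1l*wnl))) + ((w01*w02*w0l*w1n*w2l + (w01*w02*w0l*w1n*wnl + w01*w02*w0l*w2l*w2n)) + ((w01*w02*w0l*w2l*wnl + w01*w02*w0l*w2n*wnl) + (w01*w02*w0l*wnl*wnl + w01*w02*w0n*w1l*w1l)))) + (((2*w01*w02*w0n*w1l*w2l + (2*w01*w02*w0n*w1l*wnl + w01*w02*w0n*w2l*w2l)) + (2*w01*w02*w0n*w2l*wnl + (w01*w02*w0n*wnl*wnl + w01*w02*w1l*w1l*w1n))) + ((w01*w02*w1l*w1l*w2n + (w01*w02*w1l*w1l*wnl + 2*w01*w02*w1l*w1n*w2l)) + ((2*w01*w02*w1l*w1n*wnl + 2*w01*w02*w1l*w2l*w2n) + (2*w01*w02*w1l*w2l*wnl + 2*w01*w02*w1l*w2n*wnl))))) + ((((w01*w02*w1l*wnl*wnl + (w01*w02*w1n*w2l*w2l + 2*w01*w02*w1n*w2l*wnl))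 + (w01*w02*w1n*wnl*wnl + (w01*w02*w2l*w2l*w2n + w01*w02*w2l*w2l*wnl))) + ((2*w01*w02*w2l*w2n*wnl + (w01*w02*w2l*wnl*wnl + w01*w02*w2n*wnl*wnl)) + ((w01*w0l*w0n*w12*w1l + w01*w0l*w0n*w12*w2l) + (w01*w0l*w0n*w12*wnl + w01*w0l*w0n*w1l*w2l)))) + (((w01*w0l*w0n*w1l*w2n + (w01*w0l*w0n*w2l*w2l + w01*w0l*w0n*w2l*w2n)) + (w01*w0l*w0n*w2l*wnl + (w01*w0l*w0n*w2n*wnl + w01*w0l*w12*wnl*wnl))) + ((w01*w0l*w1l*w1n*w2l + (w01*w0l*w1l*w1n*w2n + w01*w0l*w1l*w2l*w2n)) + ((w01*w0l*w1l*w2l*wnl + w01*w0l*w1l*w2n*wnl) + (w01*w0l*w1n*w2l*w2l + w01*w0l*w1n*w2l*w2n)))))) + (((((w01*w0l*w1n*w2l*wnl + (w01*w0l*w1n*w2n*wnl + w01*w0l*w2l*w2l*w2n)) + (w01*w0l*w2l*w2l*wnl + (2*w01*w0l*w2l*w2n*wnl + w01*w0l*w2l*wnl*wnl))) + ((w01*w0l*w2n*wnl*wnl + (w01*w0n*w12*w1l*w1l + 2*w01*w0n*w12*w1l*w2l)) + ((2*w01*w0n*w12*w1l*wnl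 + w01*w0n*w12*w2l*w2l) + (2*w01*w0n*w12*w2l*wnl + w01*w0n*w12*wnl*wnl)))) + (((w01*w0n*w1l*w1l*w2l + (w01*w0n*w1l*w1l*w2n + w01*w0n*w1l*w2l*w2l)) + (2*w01*w0n*w1l*w2l*w2n + (2*w01*w0n*w1l*w2l*wnl + 2*w01*w0n*w1l*w2n*wnl))) + ((w01*w0n*w2l*w2l*w2n + (w01*w0n*w2l*w2l*wnl + 2*w01*w0n*w2l*w2n*wnl)) + ((w01*w0n*w2l*wnl*wnl + w01*w0n*w2n*wnl*wnl) + (w01*w1l*w1l*w1n*w2l + w01*w1l*w1l*w1n*w2n))))) + ((((w01*w1l*w1l*w2l*w2n + (w01*w1l*w1l*w2l*wnl + w01*w1l*w1l*w2n*wnl)) + (w01*w1l*w1n*w2l*w2l + (2*w01*w1l*w1n*w2l*w2n + 2*w01*w1l*w1n*w2l*wnl))) + ((2*w01*w1l*w1n*w2n*wnl + (w01*w1l*w2l*w2l*w2n + w01*w1l*w2l*w2l*wnl)) + ((2*w01*w1l*w2l*w2n*wnl + w01*w1l*w2l*wnl*wnl) + (w01*w1l*w2n*wnl*wnl + w01*w1n*w2l*w2l*w2n)))) + (((w01*w1n*w2l*w2l*wnl + (2*w01*w1n*w2l*w2n*wnl + w01*w1n*w2l*wnl*wnl))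 + (w01*w1n*w2n*wnl*wnl + (w02*w0l*w0n*w12*w1l + w02*w0l*w0n*w12*w2l))) + ((w02*w0l*w0n*w12*wnl + (w02*w0l*w0n*w1l*w1l + w02*w0l*w0n*w1l*w1n)) + ((w02*w0l*w0n*w1l*w2l + w02*w0l*w0n*w1l*wnl) + (w02*w0l*w0n*w1n*w2l + w02*w0l*w0n*w1n*wnl))))))) + ((((((w02*w0l*w12*wnl*wnl + (w02*w0l*w1l*w1l*w1n + w02*w0l*w1l*w1l*w2n)) + (w02*w0l*w1l*w1l*wnl + (w02*w0l*w1l*w1n*w2l + w02*w0l*w1l*w1n*w2n))) + ((2*w02*w0l*w1l*w1n*wnl + (w02*w0l*w1l*w2l*w2n + w02*w0l*w1l*w2l*wnl)) + ((w02*w0l*w1l*w2n*wnl + w02*w0l*w1l*wnl*wnl) + (w02*w0l*w1n*w2l*w2n + w02*w0l*w1n*w2l*wnl)))) + (((w02*w0l*w1n*w2n*wnl + (w02*w0l*w1n*wnl*wnl + w02*w0n*w12*w1l*w1l)) + (2*w02*w0n*w12*w1l*w2l + (2*w02*w0n*w12*w1l*wnl + w02*w0n*w12*w2l*w2l))) + ((2*w02*w0n*w12*w2l*wnl + (w02*w0n*w12*wnl*wnl + w02*w0n*w1l*w1l*w1n))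 + ((w02*w0n*w1l*w1l*w2l + w02*w0n*w1l*w1l*wnl) + (2*w02*w0n*w1l*w1n*w2l + 2*w02*w0n*w1l*w1n*wnl))))) + ((((w02*w0n*w1l*w2l*w2l + (2*w02*w0n*w1l*w2l*wnl + w02*w0n*w1l*wnl*wnl)) + (w02*w0n*w1n*w2l*w2l + (2*w02*w0n*w1n*w2l*wnl + w02*w0n*w1n*wnl*wnl))) + ((w02*w1l*w1l*w1n*w2l + (w02*w1l*w1l*w1n*w2n + w02*w1l*w1l*w2l*w2n)) + ((w02*w1l*w1l*w2l*wnl + w02*w1l*w1l*w2n*wnl) + (w02*w1l*w1n*w2l*w2l + 2*w02*w1l*w1n*w2l*w2n)))) + (((2*w02*w1l*w1n*w2l*wnl + (2*w02*w1l*w1n*w2n*wnl + w02*w1l*w2l*w2l*w2n)) + (w02*w1l*w2l*w2l*wnl + (2*w02*w1l*w2l*w2n*wnl + w02*w1l*w2l*wnl*wnl))) + ((w02*w1l*w2n*wnl*wnl + (w02*w1n*w2l*w2l*w2n + w02*w1n*w2l*w2l*wnl)) + ((2*w02*w1n*w2l*w2n*wnl + w02*w1n*w2l*wnl*wnl) + (w02*w1n*w2n*wnl*wnl + w0l*w0n*w12*w1l*w1l)))))) + (((((2*w0l*w0n*w12*w1l*w2l + (w0l*w0n*w12*w2l*w2l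 + w0l*w0n*w1l*w1l*w2l)) + (w0l*w0n*w1l*w1l*w2n + (w0l*w0n*w1l*w1n*w2l + w0l*w0n*w1l*w1n*w2n))) + ((w0l*w0n*w1l*w2l*w2l + (w0l*w0n*w1l*w2l*w2n + w0l*w0n*w1l*w2l*wnl)) + ((w0l*w0n*w1l*w2n*wnl + w0l*w0n*w1n*w2l*w2l) + (w0l*w0n*w1n*w2l*w2n + w0l*w0n*w1n*w2l*wnl)))) + (((w0l*w0n*w1n*w2n*wnl + (w0l*w1l*w1l*w1n*w2l + w0l*w1l*w1l*w1n*w2n)) + (w0l*w1l*w1l*w2l*w2n + (w0l*w1l*w1l*w2l*wnl + w0l*w1l*w1l*w2n*wnl))) + ((w0l*w1l*w1n*w2l*w2l + (2*w0l*w1l*w1n*w2l*w2n + 2*w0l*w1l*w1n*w2l*wnl)) + ((2*w0l*w1l*w1n*w2n*wnl + w0l*w1l*w2l*w2l*w2n) + (w0l*w1l*w2l*w2l*wnl + 2*w0l*w1l*w2l*w2n*wnl))))) + ((((w0l*w1l*w2l*wnl*wnl + (w0l*w1l*w2n*wnl*wnl + w0l*w1n*w2l*w2l*w2n)) + (w0l*w1n*w2l*w2l*wnl + (2*w0l*w1n*w2l*w2n*wnl + w0l*w1n*w2l*wnl*wnl))) + ((w0l*w1n*w2n*wnl*wnl + (w0n*w1l*w1l*w1n*w2l +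 w0n*w1l*w1l*w1n*w2n)) + ((w0n*w1l*w1l*w2l*w2n + w0n*w1l*w1l*w2l*wnl) + (w0n*w1l*w1l*w2n*wnl + w0n*w1l*w1n*w2l*w2l)))) + (((2*w0n*w1l*w1n*w2l*w2n + (2*w0n*w1l*w1n*w2l*wnl + 2*w0n*w1l*w1n*w2n*wnl)) + (w0n*w1l*w2l*w2l*w2n + (w0n*w1l*w2l*w2l*wnl + 2*w0n*w1l*w2l*w2n*wnl))) + ((w0n*w1l*w2l*wnl*wnl + (w0n*w1l*w2n*wnl*wnl + w0n*w1n*w2l*w2l*w2n)) + ((w0n*w1n*w2l*w2l*wnl + 2*w0n*w1n*w2l*w2n*wnl) + (w0n*w1n*w2l*wnl*wnl + w0n*w1n*w2n*wnl*wnl)))))))) := by positivity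
  linarith

/-- Leading minors are positive when all weights are positive. -/
theorem minors_pos {w01 w02 w0n w0l w12 w1n w1l w2n w2l wnl : ℝ}
    (h01 : 0 < w01) (h02 : 0 < w02) (h0n : 0 < w0n) (h0l : 0 < w0l) (h12 : 0 < w12) (h1n : 0 < w1n)
    (h1l : 0 < w1l) (h2n : 0 < w2n) (h2l : 0 < w2l) (hnl : 0 < wnl) :
    0 < (w01 + w02 + w0n + w0l) * (w0l + w1l + w2l + wnl) - w0l ^ 2 ∧
    0 < det3 (w01 + w02 + w0n + w0l) (w0l + w1l + w2l + wnl) (w01 + w12 + w1n + w1l)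
        (-w0l) (-w01) (-w1l) ∧
    0 < det4 (w01 + w02 + w0n + w0l) (w0l + w1l + w2l + wnl) (w01 + w12 + w1n + w1l)
        (w02 + w12 + w2n + w2l) (-w0l) (-w01) (-w02) (-w1l) (-w2l) (-w12) := by
  refine ⟨?_, ?_, ?_⟩
  · have h : (w01 + w02 + w0n + w0l) * (w0l + w1l + w2l + wnl) - w0l ^ 2 = (((w01*w0l + (w01*w1l + w01*w2l)) + ((w01*wnl + w02*w0l) + (w02*w1l + w02*w2l))) + (((w02*wnl + w0l*w0n) + (w0l*w1l + w0l*w2l)) + ((w0l*wnl + w0n*w1l) + (w0n*w2l + w0n*wnl)))) := by ring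
    rw [h]; positivity
  · have h : det3 (w01 + w02 + w0n + w0l) (w0l + w1l + w2l + wnl) (w01 + w12 + w1n + w1l)
        (-w0l) (-w01) (-w1l) = (((((w01*w02*w0l + (w01*w02*w1l + w01*w02*w2l)) + (w01*w02*wnl + (w01*w0l*w0n + w01*w0l*w12))) + ((w01*w0l*w1n + (w01*w0l*w2l + w01*w0l*wnl)) + (w01*w0n*w1l + (w01*w0n*w2l + w01*w0n*wnl)))) + (((w01*w12*w1l + (w01*w12*w2l + w01*w12*wnl)) + (w01*w1l*w1n + (w01*w1l*w2l + w01*w1l*wnl))) + ((w01*w1n*w2l + (w01*w1n*wnl + w02*w0l*w12)) + ((w02*w0l*w1l + w02*w0l*w1n) + (w02*w12*w1l + w02*w12*w2l))))) + ((((w02*w12*wnl + (w02*w1l*w1n + w02*w1l*w2l)) + (w02*w1l*wnl + (w02*w1n*w2l + w02*w1n*wnl))) + ((w0l*w0n*w12 + (w0l*w0n*w1l + w0l*w0n*w1n)) + (w0l*w12*w1l + (w0l*w12*w2l + w0l*w12*wnl)))) + (((w0l*w1l*w1n + (w0l*w1l*w2l + w0l*w1l*wnl))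 + (w0l*w1n*w2l + (w0l*w1n*wnl + w0n*w12*w1l))) + ((w0n*w12*w2l + (w0n*w12*wnl + w0n*w1l*w1n)) + ((w0n*w1l*w2l + w0n*w1l*wnl) + (w0n*w1n*w2l + w0n*w1n*wnl)))))) := by
      unfold det3; ring
    rw [h]; positivity
  · have h : det4 (w01 + w02 + w0n + w0l) (w0l + w1l + w2l + wnl) (w01 + w12 + w1n + w1l)
        (w02 + w12 + w2n + w2l) (-w0l) (-w01) (-w02) (-w1l) (-w2l) (-w12) = ((((((w01*w02*w0l*w0n + (w01*w02*w0l*w1n + w01*w02*w0l*w2n)) + ((w01*w02*w0l*wnl + w01*w02*w0n*w1l) + (w01*w02*w0n*w2l + w01*w02*w0n*wnl))) + (((w01*w02*w1l*w1n + w01*w02*w1l*w2n) + (w01*w02*w1l*wnl + w01*w02*w1n*w2l)) + ((w01*w02*w1n*wnl + w01*w02*w2l*w2n) + (w01*w02*w2l*wnl + w01*w02*w2n*wnl)))) + ((((w01*w0l*w0n*w12 + w01*w0l*w0n*w2l) + (w01*w0l*w0n*w2n + w01*w0l*w12*w1n)) + ((w01*w0l*w12*w2n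 + w01*w0l*w12*wnl) + (w01*w0l*w1n*w2l + w01*w0l*w1n*w2n))) + (((w01*w0l*w2l*w2n + w01*w0l*w2l*wnl) + (w01*w0l*w2n*wnl + w01*w0n*w12*w1l)) + ((w01*w0n*w12*w2l + w01*w0n*w12*wnl) + (w01*w0n*w1l*w2l + w01*w0n*w1l*w2n))))) + ((((w01*w0n*w2l*w2n + (w01*w0n*w2l*wnl + w01*w0n*w2n*wnl)) + ((w01*w12*w1l*w1n + w01*w12*w1l*w2n) + (w01*w12*w1l*wnl + w01*w12*w1n*w2l))) + (((w01*w12*w1n*wnl + w01*w12*w2l*w2n) + (w01*w12*w2l*wnl + w01*w12*w2n*wnl)) + ((w01*w1l*w1n*w2l + w01*w1l*w1n*w2n) + (w01*w1l*w2l*w2n + w01*w1l*w2l*wnl)))) + ((((w01*w1l*w2n*wnl + w01*w1n*w2l*w2n) + (w01*w1n*w2l*wnl + w01*w1n*w2n*wnl)) + ((w02*w0l*w0n*w12 + w02*w0l*w0n*w1l) + (w02*w0l*w0n*w1n + w02*w0l*w12*w1n))) + (((w02*w0l*w12*w2n + w02*w0l*w12*wnl) + (w02*w0l*w1l*w1n + w02*w0l*w1l*w2n)) + ((w02*w0l*w1l*wnl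 + w02*w0l*w1n*w2n) + (w02*w0l*w1n*wnl + w02*w0n*w12*w1l)))))) + (((((w02*w0n*w12*w2l + (w02*w0n*w12*wnl + w02*w0n*w1l*w1n)) + ((w02*w0n*w1l*w2l + w02*w0n*w1l*wnl) + (w02*w0n*w1n*w2l + w02*w0n*w1n*wnl))) + (((w02*w12*w1l*w1n + w02*w12*w1l*w2n) + (w02*w12*w1l*wnl + w02*w12*w1n*w2l)) + ((w02*w12*w1n*wnl + w02*w12*w2l*w2n) + (w02*w12*w2l*wnl + w02*w12*w2n*wnl)))) + ((((w02*w1l*w1n*w2l + w02*w1l*w1n*w2n) + (w02*w1l*w2l*w2n + w02*w1l*w2l*wnl)) + ((w02*w1l*w2n*wnl + w02*w1n*w2l*w2n) + (w02*w1n*w2l*wnl + w02*w1n*w2n*wnl))) + (((w0l*w0n*w12*w1l + w0l*w0n*w12*w1n) + (w0l*w0n*w12*w2l + w0l*w0n*w12*w2n)) + ((w0l*w0n*w1l*w2l + w0l*w0n*w1l*w2n) + (w0l*w0n*w1n*w2l + w0l*w0n*w1n*w2n))))) + (((((w0l*w12*w1l*w1n + w0l*w12*w1l*w2n) + (w0l*w12*w1l*wnl + w0l*w12*w1n*w2l)) + ((w0l*w12*w1n*wnl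 + w0l*w12*w2l*w2n) + (w0l*w12*w2l*wnl + w0l*w12*w2n*wnl))) + (((w0l*w1l*w1n*w2l + w0l*w1l*w1n*w2n) + (w0l*w1l*w2l*w2n + w0l*w1l*w2l*wnl)) + ((w0l*w1l*w2n*wnl + w0l*w1n*w2l*w2n) + (w0l*w1n*w2l*wnl + w0l*w1n*w2n*wnl)))) + ((((w0n*w12*w1l*w1n + w0n*w12*w1l*w2n) + (w0n*w12*w1l*wnl + w0n*w12*w1n*w2l)) + ((w0n*w12*w1n*wnl + w0n*w12*w2l*w2n) + (w0n*w12*w2l*wnl + w0n*w12*w2n*wnl))) + (((w0n*w1l*w1n*w2l + w0n*w1l*w1n*w2n) + (w0n*w1l*w2l*w2n + w0n*w1l*w2l*wnl)) + ((w0n*w1l*w2n*wnl + w0n*w1n*w2l*w2n) + (w0n*w1n*w2l*wnl + w0n*w1n*w2n*wnl))))))) := by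
      unfold det4; ring
    rw [h]; positivity

private lemma avg_sqrt {u v : ℝ} (hu : 0 ≤ u) (hv : 0 ≤ v) :
    Real.sqrt u + Real.sqrt v ≤ 2 * Real.sqrt ((u + v) / 2) := by
  have h1 := Real.sq_sqrt hu
  have h2 := Real.sq_sqrt hv
  have h3 := Real.sq_sqrt (show 0 ≤ (u + v) / 2 by positivity)
  have h4 := Real.sqrt_nonneg u
  have h5 := Real.sqrt_nonneg v
  have h6 := Real.sqrt_nonneg ((u + v) / 2)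
  by_contra hlt
  push Not at hlt
  nlinarith [sq_nonneg (Real.sqrt u - Real.sqrt v)]

/-- The two-sided increment comparison of square roots. -/
private lemma sqrt_incr {s1 s2 t1 t2 d : ℝ} (hs1 : 0 ≤ s1) (ht1 : 0 < t1)
    (hs12 : s1 ≤ s2) (ht12 : t1 ≤ t2)
    (hs : s2 ^ 2 - s1 ^ 2 = 6 * d) (ht : t2 ^ 2 - t1 ^ 2 = d) (hst : s2 ≤ 6 * t1) :
    t2 - t1 ≤ s2 - s1 := by
  have hd : 0 ≤ d := by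
    rw [← ht]; nlinarith
  have h1 : (s2 - s1) * (s1 + s2) = 6 * d := by rw [← hs]; ring
  have h2 : (t2 - t1) * (t1 + t2) = d := by rw [← ht]; ring
  have h3 : s1 + s2 ≤ 6 * (t1 + t2) := by nlinarith
  by_contra hlt
  push Not at hlt
  have hpos : 0 < t1 + t2 := by linarith
  have h4 : 0 ≤ s2 - s1 := by linarith
  have h5 : 0 ≤ s1 + s2 := by linarith
  -- `(s2 - s1) (s1 + s2) < (t2 - t1) · 6 (t1 + t2)` unless both vanish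
  have h6 : (s2 - s1) * (s1 + s2) ≤ (s2 - s1) * (6 * (t1 + t2)) :=
    mul_le_mul_of_nonneg_left h3 h4
  have h7 : (s2 - s1) * (6 * (t1 + t2)) < (t2 - t1) * (6 * (t1 + t2)) :=
    mul_lt_mul_of_pos_right hlt (by positivity)
  nlinarith

private lemma pair_relax_aux {w01 w02 w03 w04 w12 w13 w14 w23 w24 w34 : ℝ}
    (h01 : 0 ≤ w01) (h02 : 0 ≤ w02) (h03 : 0 ≤ w03) (h04 : 0 ≤ w04) (h12 : 0 ≤ w12) (h13 : 0 ≤ w13)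
    (h14 : 0 ≤ w14) (h23 : 0 ≤ w23) (h24 : 0 ≤ w24) (h34 : 0 ≤ w34)
    (hsum : w01 + w02 + w03 + w04 + w12 + w13 + w14 + w23 + w24 + w34 = 9 / 8)
    (hheavy : 9 / 8 - (w01 + w02 + w03 + w04) ≤ 6 * w12) (hsmall : w01 + w02 + w03 + w04 ≤ 3 / 50) :
    ∀ R0 R1 R2 R3 R4 : ℝ, R0 = w01 + w02 + w03 + w04 → R1 = w01 + w12 + w13 + w14 →
    R2 = w02 + w12 + w23 + w24 → R3 = w03 + w13 + w23 + w34 → R4 = w04 + w14 + w24 + w34 →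
    Real.sqrt (R1 + R2 + 2 * w12)
      + ((Real.sqrt (R0 + R1 + 2 * w01) + Real.sqrt (R0 + R2 + 2 * w02) - Real.sqrt (R1 + R2 + 2 * w12)) / 2
       + (Real.sqrt (R3 + R1 + 2 * w13) + Real.sqrt (R3 + R2 + 2 * w23) - Real.sqrt (R1 + R2 + 2 * w12)) / 2
       + (Real.sqrt (R4 + R1 + 2 * w14) + Real.sqrt (R4 + R2 + 2 * w24) - Real.sqrt (R1 + R2 + 2 * w12)) / 2)
    ≤ Bhat R0 (w13 + w23 + w14 + w24) w34 := by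
  intro R0 R1 R2 R3 R4 hR0d hR1d hR2d hR3d hR4d
  -- abbreviations
  obtain ⟨a, ha⟩ : ∃ a, a = w13 + w23 + w14 + w24 := ⟨_, rfl⟩
  obtain ⟨p, hp⟩ : ∃ p, p = w01 + w02 := ⟨_, rfl⟩
  have hR0 : R0 = p + w03 + w04 := by rw [hR0d, hp]
  have hw12 : w12 = 9 / 8 - R0 - a - w34 := by rw [hR0d, ha]; linarith
  have ha0 : 0 ≤ a := by rw [ha]; positivity
  have hp0 : 0 ≤ p := by rw [hp]; positivity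
  have hpR : p ≤ R0 := by rw [hR0]; linarith
  have hR0s : R0 ≤ 3 / 50 := by rw [hR0d]; exact hsmall
  have hR00 : 0 ≤ R0 := by rw [hR0]; positivity
  have hR1n : 0 ≤ R1 := by rw [hR1d]; positivity
  have hR2n : 0 ≤ R2 := by rw [hR2d]; positivity
  have hR3n : 0 ≤ R3 := by rw [hR3d]; positivity
  have hR4n : 0 ≤ R4 := by rw [hR4d]; positivity
  have hheavy' : 9 / 8 - R0 ≤ 6 * w12 := by rw [hR0d]; exact hheavy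
  -- the three groups of distances
  have e12 : R1 + R2 + 2 * w12 = 4 * (9 / 8 - R0 - 3 / 4 * a - w34 + p / 4) := by
    rw [hR1d, hR2d, hR0d, hp, ha]
    linarith
  obtain ⟨t1, ht1⟩ : ∃ t, t = Real.sqrt (9 / 8 - R0 - 3 / 4 * a - w34 + p / 4) := ⟨_, rfl⟩
  have hrad1 : 0 ≤ 9 / 8 - R0 - 3 / 4 * a - w34 + p / 4 := by
    have : 0 ≤ R1 + R2 + 2 * w12 := by
      positivity
    rw [e12] at this; linarith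
  have hd12 : Real.sqrt (R1 + R2 + 2 * w12) = 2 * t1 := by
    rw [e12, ht1, show (4 : ℝ) = 2 ^ 2 by norm_num, Real.sqrt_mul (by positivity),
      Real.sqrt_sq (by norm_num)]
  -- first group
  have e0 : ((R0 + R1 + 2 * w01) + (R0 + R2 + 2 * w02)) / 2 = 9 / 8 + 3 / 2 * p - a / 2 - w34 := by
    rw [hR1d, hR2d, hR0d, hp, ha]
    linarith
  have h0g : Real.sqrt (R0 + R1 + 2 * w01) + Real.sqrt (R0 + R2 + 2 * w02)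
      ≤ 2 * Real.sqrt (9 / 8 + 3 / 2 * p - a / 2 - w34) := by
    rw [← e0]
    apply avg_sqrt <;> positivity
  -- second group
  have e3 : ((R3 + R1 + 2 * w13) + (R3 + R2 + 2 * w23)) / 2
      + ((R4 + R1 + 2 * w14) + (R4 + R2 + 2 * w24)) / 2 = 2 * (9 / 8 + a / 2 - R0 / 2) := by
    rw [hR1d, hR2d, hR3d, hR4d, hR0d, ha]
    linarith
  have h3g : Real.sqrt (R3 + R1 + 2 * w13) + Real.sqrt (R3 + R2 + 2 * w23)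
      ≤ 2 * Real.sqrt (((R3 + R1 + 2 * w13) + (R3 + R2 + 2 * w23)) / 2) := by
    apply avg_sqrt <;> positivity
  have h4g : Real.sqrt (R4 + R1 + 2 * w14) + Real.sqrt (R4 + R2 + 2 * w24)
      ≤ 2 * Real.sqrt (((R4 + R1 + 2 * w14) + (R4 + R2 + 2 * w24)) / 2) := by
    apply avg_sqrt <;> positivity
  have h34g : Real.sqrt (((R3 + R1 + 2 * w13) + (R3 + R2 + 2 * w23)) / 2)
        + Real.sqrt (((R4 + R1 + 2 * w14) + (R4 + R2 + 2 * w24)) / 2)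
      ≤ 2 * Real.sqrt (9 / 8 + a / 2 - R0 / 2) := by
    have := avg_sqrt (u := ((R3 + R1 + 2 * w13) + (R3 + R2 + 2 * w23)) / 2)
      (v := ((R4 + R1 + 2 * w14) + (R4 + R2 + 2 * w24)) / 2)
      (by positivity) (by positivity)
    rw [e3, show (2 * (9 / 8 + a / 2 - R0 / 2)) / 2 = 9 / 8 + a / 2 - R0 / 2 by ring] at this
    exact this
  -- monotonicity in `p`
  have hkey : Real.sqrt (9 / 8 + 3 / 2 * p - a / 2 - w34) - t1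
      ≤ Real.sqrt (9 / 8 + 3 / 2 * R0 - a / 2 - w34)
        - Real.sqrt (9 / 8 - 3 / 4 * R0 - 3 / 4 * a - w34) := by
    have hr1 : 0 ≤ 9 / 8 + 3 / 2 * p - a / 2 - w34 := by
      rw [← e0]; positivity
    have hr2 : 0 ≤ 9 / 8 + 3 / 2 * R0 - a / 2 - w34 := by linarith
    have hr3 : 0 ≤ 9 / 8 - 3 / 4 * R0 - 3 / 4 * a - w34 := by linarith
    have ht1sq := Real.sq_sqrt hrad1
    rw [← ht1] at ht1sq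
    have ht1nn : 0 ≤ t1 := by rw [ht1]; exact Real.sqrt_nonneg _
    have hlow : w12 ≤ t1 ^ 2 := by
      rw [ht1sq, hw12]; linarith
    have hhi : (9 / 8 + 3 / 2 * R0 - a / 2 - w34) ≤ (6 * t1) ^ 2 := by
      have h36 : (6 * t1) ^ 2 = 36 * t1 ^ 2 := by ring
      rw [h36]
      linarith
    have ht1pos : 0 < t1 := by
      rcases ht1nn.lt_or_eq with h | h
      · exact h
      · exfalso; rw [← h] at hlow; norm_num at hlow; linarith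
    have := sqrt_incr (s1 := Real.sqrt (9 / 8 + 3 / 2 * p - a / 2 - w34))
      (s2 := Real.sqrt (9 / 8 + 3 / 2 * R0 - a / 2 - w34)) (t1 := t1)
      (t2 := Real.sqrt (9 / 8 - 3 / 4 * R0 - 3 / 4 * a - w34)) (d := (R0 - p) / 4)
      (Real.sqrt_nonneg _) ht1pos (Real.sqrt_le_sqrt (by linarith))
      (by
        rw [ht1]
        exact Real.sqrt_le_sqrt (by linarith))
      (by rw [Real.sq_sqrt hr2, Real.sq_sqrt hr1]; ring)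
      (by rw [Real.sq_sqrt hr3, ht1sq]; ring)
      (by
        apply Real.sqrt_le_iff.mpr
        exact ⟨by positivity, hhi⟩)
    linarith
  -- assemble
  rw [hd12]
  unfold Bhat
  rw [← ha]
  have hBh : Real.sqrt (9 / 8 + 3 / 2 * R0 - a / 2 - w34) + 2 * Real.sqrt (9 / 8 + a / 2 - R0 / 2)
      - Real.sqrt (9 / 8 - 3 / 4 * R0 - 3 / 4 * a - w34)
      ≥ Real.sqrt (9 / 8 + 3 / 2 * p - a / 2 - w34) - t1 + 2 * Real.sqrt (9 / 8 + a / 2 - R0 / 2) := by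
    linarith
  have hfin : 2 * t1 + ((Real.sqrt (R0 + R1 + 2 * w01) + Real.sqrt (R0 + R2 + 2 * w02) - 2 * t1) / 2
       + (Real.sqrt (R3 + R1 + 2 * w13) + Real.sqrt (R3 + R2 + 2 * w23) - 2 * t1) / 2
       + (Real.sqrt (R4 + R1 + 2 * w14) + Real.sqrt (R4 + R2 + 2 * w24) - 2 * t1) / 2)
      ≤ Real.sqrt (9 / 8 + 3 / 2 * p - a / 2 - w34) - t1 + 2 * Real.sqrt (9 / 8 + a / 2 - R0 / 2) := by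
    linarith
  exact hfin.trans hBh

/-- Relaxation of the pair bound: `d_ij^2 = R_i + R_j + 2 w_ij`. -/
theorem pair_relax {w01 w02 w03 w04 w12 w13 w14 w23 w24 w34 : ℝ}
    (h01 : 0 ≤ w01) (h02 : 0 ≤ w02) (h03 : 0 ≤ w03) (h04 : 0 ≤ w04) (h12 : 0 ≤ w12) (h13 : 0 ≤ w13)
    (h14 : 0 ≤ w14) (h23 : 0 ≤ w23) (h24 : 0 ≤ w24) (h34 : 0 ≤ w34)
    (hsum : w01 + w02 + w03 + w04 + w12 + w13 + w14 + w23 + w24 + w34 = 9 / 8)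
    (hheavy : 9 / 8 - (w01 + w02 + w03 + w04) ≤ 6 * w12) (hsmall : w01 + w02 + w03 + w04 ≤ 3 / 50) :
    let R0 := w01 + w02 + w03 + w04
    let R1 := w01 + w12 + w13 + w14
    let R2 := w02 + w12 + w23 + w24
    let R3 := w03 + w13 + w23 + w34
    let R4 := w04 + w14 + w24 + w34
    Real.sqrt (R1 + R2 + 2 * w12)
      + ((Real.sqrt (R0 + R1 + 2 * w01) + Real.sqrt (R0 + R2 + 2 * w02) - Real.sqrt (R1 + R2 + 2 * w12)) / 2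
       + (Real.sqrt (R3 + R1 + 2 * w13) + Real.sqrt (R3 + R2 + 2 * w23) - Real.sqrt (R1 + R2 + 2 * w12)) / 2
       + (Real.sqrt (R4 + R1 + 2 * w14) + Real.sqrt (R4 + R2 + 2 * w24) - Real.sqrt (R1 + R2 + 2 * w12)) / 2)
    ≤ Bhat R0 (w13 + w23 + w14 + w24) w34 := by
  intro R0 R1 R2 R3 R4
  exact pair_relax_aux h01 h02 h03 h04 h12 h13 h14 h23 h24 h34 hsum hheavy hsmall R0 R1 R2 R3 R4
    rfl rfl rfl rfl rfl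

end Vale.Agent.Lib.P226
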