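import Vale.Agent.Lib.P226.Gauss
import Vale.Agent.Lib.P226.Law
import Vale.Agent.Lib.P226.Deletion
import Vale.Agent.Lib.P226.Pair
import Vale.Agent.Lib.P226.Tent
import Vale.Agent.Lib.P226.Cap
import Vale.Agent.Lib.P226.CapNum
import Vale.Agent.Lib.P226.NumF
import Vale.Agent.Lib.P226.NumCore
import Vale.Agent.Lib.P226.Tree

/-!
Assembly of the proof of `PartitionBound 4 → PartitionBound 5`.
-/

open MeasureTheory ProbabilityTheory

namespace Vale.Agent.Lib.P226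

variable {d : ℕ}

/-- Real-variable step: from the numeric inequality to the bound on the tent term. -/
theorem tent_numeric {m2 m4 Fa A K R0 Rl : ℝ} (hm2 : 0 < m2) (hm4 : 0 < m4) (hA : 0 < A) (hK : 0 < K)
    (hR0 : 0 < R0) (hRl : 0 < Rl)
    (htree : m2 * A * K ≤ m4)
    (hF : Fa ^ 2 * (Rl + (9 / 4) * R0) ≤ (193 / 10) * R0 ^ 4)
    (hnum : (317 / 50) * R0 ^ 2 ≤ A * K * (Rl + (9 / 4) * R0)) :
    (9 / (8 * Real.pi)) * Real.sqrt (m2 / m4) * Fa ≤ (5 / 8) * R0 := by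
  have hpi : 3.1415 < Real.pi := by linarith [Real.pi_gt_d4]
  have hpi0 : 0 < Real.pi := Real.pi_pos
  by_cases hFa : Fa ≤ 0
  · have : (9 / (8 * Real.pi)) * Real.sqrt (m2 / m4) * Fa ≤ 0 := by
      apply mul_nonpos_of_nonneg_of_nonpos _ hFa
      positivity
    nlinarith
  · have hFa := not_le.mp hFa
    have hL : 0 < Rl + (9 / 4) * R0 := by positivity
    -- square both sides
    have hsq : ((9 / (8 * Real.pi)) * Real.sqrt (m2 / m4) * Fa) ^ 2 ≤ ((5 / 8) * R0) ^ 2 := by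
      have h1 : Real.sqrt (m2 / m4) ^ 2 = m2 / m4 := Real.sq_sqrt (by positivity)
      have h2 : m2 / m4 ≤ 1 / (A * K) := by
        rw [div_le_div_iff₀ hm4 (by positivity)]
        nlinarith
      have h3 : Fa ^ 2 / (A * K) ≤ (193 / 10) * R0 ^ 4 / (317 / 50 * R0 ^ 2) := by
        rw [div_le_div_iff₀ (by positivity) (by positivity)]
        have e1 : Fa ^ 2 * (317 / 50 * R0 ^ 2) ≤ Fa ^ 2 * (A * K * (Rl + 9 / 4 * R0)) :=
          mul_le_mul_of_nonneg_left hnum (by positivity)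
        have e2 : (Fa ^ 2 * (Rl + 9 / 4 * R0)) * (A * K) ≤ (193 / 10 * R0 ^ 4) * (A * K) :=
          mul_le_mul_of_nonneg_right hF (by positivity)
        nlinarith
      have h4 : (193 / 10) * R0 ^ 4 / (317 / 50 * R0 ^ 2) = (965 / 317) * R0 ^ 2 := by
        field_simp
        ring
      have h5 : ((9 / (8 * Real.pi)) * Real.sqrt (m2 / m4) * Fa) ^ 2
          = (81 / (64 * Real.pi ^ 2)) * (m2 / m4) * Fa ^ 2 := by
        rw [mul_pow, mul_pow, h1]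
        field_simp
        ring
      rw [h5]
      have h6 : (m2 / m4) * Fa ^ 2 ≤ (965 / 317) * R0 ^ 2 := by
        calc (m2 / m4) * Fa ^ 2 ≤ (1 / (A * K)) * Fa ^ 2 :=
              mul_le_mul_of_nonneg_right h2 (by positivity)
          _ = Fa ^ 2 / (A * K) := by ring
          _ ≤ _ := by rw [← h4]; exact h3
      have h7 : (81 / (64 * Real.pi ^ 2)) * (965 / 317) ≤ 25 / 64 := by
        rw [div_mul_div_comm, div_le_div_iff₀ (by positivity) (by norm_num)]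
        nlinarith [mul_pos hpi0 hpi0]
      calc (81 / (64 * Real.pi ^ 2)) * (m2 / m4) * Fa ^ 2
          = (81 / (64 * Real.pi ^ 2)) * ((m2 / m4) * Fa ^ 2) := by ring
        _ ≤ (81 / (64 * Real.pi ^ 2)) * ((965 / 317) * R0 ^ 2) :=
            mul_le_mul_of_nonneg_left h6 (by positivity)
        _ = ((81 / (64 * Real.pi ^ 2)) * (965 / 317)) * R0 ^ 2 := by ring
        _ ≤ (25 / 64) * R0 ^ 2 := mul_le_mul_of_nonneg_right h7 (by positivity)
        _ = ((5 / 8) * R0) ^ 2 := by ring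
    exact (pow_le_pow_iff_left₀ (by positivity) (by positivity) (by norm_num)).mp hsq

/-- Squared distance in terms of weights. -/
theorem norm_sub_eq (u v : E d) : ‖u - v‖ = Real.sqrt (‖u‖ ^ 2 + ‖v‖ ^ 2 + 2 * (-(inner ℝ u v : ℝ))) := by
  rw [← Real.sqrt_sq (norm_nonneg (u - v)), @norm_sub_sq_real]
  congr 1
  ring

/-- Simple square-root step. -/
theorem sqrt_step {R0 : ℝ} (h1 : R0 ≤ 3 / 50) :
    Real.sqrt (9 / 4 - 5 / 4 * R0) ≤ 3 / 2 - (5 / 12) * R0 := by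
  apply Real.sqrt_le_iff.mpr
  constructor
  · linarith
  · nlinarith [sq_nonneg R0]

/-- The tent integral is at most `(5/8) R0`, given the numeric inequality. -/
theorem gain_bound (y0 yl y1 y2 yn : E d) (hsum : y0 + yl + y1 + y2 + yn = 0)
    (h01 : (inner ℝ y0 y1 : ℝ) < 0) (h02 : (inner ℝ y0 y2 : ℝ) < 0) (h0n : (inner ℝ y0 yn : ℝ) < 0)
    (h0l : (inner ℝ y0 yl : ℝ) < 0) (h12 : (inner ℝ y1 y2 : ℝ) < 0) (h1n : (inner ℝ y1 yn : ℝ) < 0)
    (h1l : (inner ℝ y1 yl : ℝ) < 0) (h2n : (inner ℝ y2 yn : ℝ) < 0) (h2l : (inner ℝ y2 yl : ℝ) < 0)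
    (hnl : (inner ℝ yn yl : ℝ) < 0) (hmin : ‖y0‖ ^ 2 ≤ ‖yl‖ ^ 2)
    (hnum : (317 / 50) * (‖y0‖ ^ 2) ^ 2 ≤
      (-(inner ℝ y1 y2 : ℝ)) * ((-(inner ℝ y1 yn : ℝ) + -(inner ℝ y2 yn : ℝ))
            * ((-(inner ℝ y1 yl : ℝ) + -(inner ℝ y2 yl : ℝ)) + -(inner ℝ yn yl : ℝ))
          + -(inner ℝ yn yl : ℝ) * (-(inner ℝ y1 yl : ℝ) + -(inner ℝ y2 yl : ℝ)))
        / ((-(inner ℝ y1 yl : ℝ) + -(inner ℝ y2 yl : ℝ)) + -(inner ℝ yn yl : ℝ))
        * (max (‖y0‖ ^ 2) ((-(inner ℝ y1 yl : ℝ) + -(inner ℝ y2 yl : ℝ)) + -(inner ℝ yn yl : ℝ))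
          + (9 / 4) * ‖y0‖ ^ 2)) :
    Real.sqrt (2 * Real.pi) * ∫ x : E d,
        max 0 (min (inner ℝ x (y0 - y1)) (min (inner ℝ x (y0 - y2))
          (min (inner ℝ x (y0 - yn)) (inner ℝ x (y0 - yl))))) ∂(gam d) ≤ (5 / 8) * ‖y0‖ ^ 2 := by
  -- degrees
  have deg : ∀ u : E d, (inner ℝ y0 u : ℝ) + inner ℝ yl u + inner ℝ y1 u + inner ℝ y2 u
      + inner ℝ yn u = 0 := by
    intro u
    have := congrArg (fun v : E d => (inner ℝ v u : ℝ)) hsum
    simpa [inner_add_left] using this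
  have nsq : ∀ v : E d, ‖v‖ ^ 2 = (inner ℝ v v : ℝ) := fun v => (real_inner_self_eq_norm_sq _).symm
  obtain ⟨w01, hw01⟩ : ∃ w, w = -(inner ℝ y0 y1 : ℝ) := ⟨_, rfl⟩
  obtain ⟨w02, hw02⟩ : ∃ w, w = -(inner ℝ y0 y2 : ℝ) := ⟨_, rfl⟩
  obtain ⟨w0n, hw0n⟩ : ∃ w, w = -(inner ℝ y0 yn : ℝ) := ⟨_, rfl⟩
  obtain ⟨w0l, hw0l⟩ : ∃ w, w = -(inner ℝ y0 yl : ℝ) := ⟨_, rfl⟩
  obtain ⟨w12, hw12⟩ : ∃ w, w = -(inner ℝ y1 y2 : ℝ) := ⟨_, rfl⟩
  obtain ⟨w1n, hw1n⟩ : ∃ w, w = -(inner ℝ y1 yn : ℝ) := ⟨_, rfl⟩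
  obtain ⟨w1l, hw1l⟩ : ∃ w, w = -(inner ℝ y1 yl : ℝ) := ⟨_, rfl⟩
  obtain ⟨w2n, hw2n⟩ : ∃ w, w = -(inner ℝ y2 yn : ℝ) := ⟨_, rfl⟩
  obtain ⟨w2l, hw2l⟩ : ∃ w, w = -(inner ℝ y2 yl : ℝ) := ⟨_, rfl⟩
  obtain ⟨wnl, hwnl⟩ : ∃ w, w = -(inner ℝ yn yl : ℝ) := ⟨_, rfl⟩
  have p01 : 0 < w01 := by linarith
  have p02 : 0 < w02 := by linarith
  have p0n : 0 < w0n := by linarith
  have p0l : 0 < w0l := by linarith
  have p12 : 0 < w12 := by linarith
  have p1n : 0 < w1n := by linarith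
  have p1l : 0 < w1l := by linarith
  have p2n : 0 < w2n := by linarith
  have p2l : 0 < w2l := by linarith
  have pnl : 0 < wnl := by linarith
  have R0eq : ‖y0‖ ^ 2 = w01 + w02 + w0n + w0l := by
    have := deg y0
    rw [nsq y0, hw01, hw02, hw0n, hw0l]
    rw [real_inner_comm y0 yl, real_inner_comm y0 y1, real_inner_comm y0 y2, real_inner_comm y0 yn] at this
    linarith
  have Rleq : ‖yl‖ ^ 2 = w0l + w1l + w2l + wnl := by
    have := deg yl
    rw [nsq yl, hw0l, hw1l, hw2l, hwnl]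
    linarith
  have R1eq : ‖y1‖ ^ 2 = w01 + w12 + w1n + w1l := by
    have := deg y1
    rw [nsq y1, hw01, hw12, hw1n, hw1l]
    rw [real_inner_comm y1 yl, real_inner_comm y1 y2, real_inner_comm y1 yn] at this
    linarith
  have R2eq : ‖y2‖ ^ 2 = w02 + w12 + w2n + w2l := by
    have := deg y2
    rw [nsq y2, hw02, hw12, hw2n, hw2l]
    rw [real_inner_comm y2 yl, real_inner_comm y2 yn] at this
    linarith
  have e0l : (inner ℝ y0 yl : ℝ) = -w0l := by linarith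
  have e01 : (inner ℝ y0 y1 : ℝ) = -w01 := by linarith
  have e02 : (inner ℝ y0 y2 : ℝ) = -w02 := by linarith
  have e1l : (inner ℝ yl y1 : ℝ) = -w1l := by rw [real_inner_comm]; linarith
  have e2l : (inner ℝ yl y2 : ℝ) = -w2l := by rw [real_inner_comm]; linarith
  have e12 : (inner ℝ y1 y2 : ℝ) = -w12 := by linarith
  obtain ⟨hm2, hm3, hm4⟩ := minors_pos p01 p02 p0n p0l p12 p1n p1l p2n p2l pnl
  have hT := tent_bound y0 yl y1 y2 yn hsum
    (by rw [R0eq]; positivity)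
    (by rw [R0eq, Rleq, e0l]; simpa using hm2)
    (by rw [R0eq, Rleq, R1eq, e0l, e01, e1l]; exact hm3)
    (by rw [R0eq, Rleq, R1eq, R2eq, e0l, e01, e02, e1l, e2l, e12]; exact hm4)
  refine le_trans hT ?_
  have htree := tree_ineq p01.le p02.le p0n.le p0l.le p12.le p1n.le p1l.le p2n.le p2l.le pnl.le
  rw [R0eq, Rleq, R1eq, R2eq, e0l, e01, e02, e1l, e2l, e12]
  rw [R0eq] at hmin hnum
  rw [Rleq] at hmin
  rw [← hw12, ← hw1n, ← hw2n, ← hw1l, ← hw2l, ← hwnl] at hnum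
  have hR0 : 0 < w01 + w02 + w0n + w0l := by positivity
  have hFab := Fabs_bound (R0 := w01 + w02 + w0n + w0l) (Rl := w0l + w1l + w2l + wnl) (om := w0l)
    hR0 hmin p0l.le (by linarith)
  have hS : 0 < w1l + w2l + wnl := by positivity
  have hK : 0 < ((w1n + w2n) * (w1l + w2l + wnl) + wnl * (w1l + w2l)) / (w1l + w2l + wnl) := by
    positivity
  have hL : max (w01 + w02 + w0n + w0l) (w1l + w2l + wnl) ≤ w0l + w1l + w2l + wnl := by
    apply max_le hmin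
    linarith
  refine tent_numeric (m2 := (w01 + w02 + w0n + w0l) * (w0l + w1l + w2l + wnl) - (-w0l) ^ 2)
    (A := w12) (K := ((w1n + w2n) * (w1l + w2l + wnl) + wnl * (w1l + w2l)) / (w1l + w2l + wnl))
    (Rl := w0l + w1l + w2l + wnl) (by simpa using hm2) hm4 p12 hK hR0 (by positivity) ?_ hFab ?_
  · -- tree inequality with division
    rw [mul_div_assoc', div_le_iff₀ hS]
    have : (-w0l) ^ 2 = w0l ^ 2 := by ring
    rw [this]
    exact htree
  · have h1 : w12 * ((w1n + w2n) * (w1l + w2l + wnl) + wnl * (w1l + w2l)) / (w1l + w2l + wnl) =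
        w12 * (((w1n + w2n) * (w1l + w2l + wnl) + wnl * (w1l + w2l)) / (w1l + w2l + wnl)) := by ring
    rw [h1] at hnum
    refine le_trans hnum ?_
    apply mul_le_mul_of_nonneg_left _ (by positivity)
    linarith

/-- Core contradiction: scaled simplex, smallest vertex `0`, heaviest edge `12`. -/
theorem core (h4 : VBound 4) (y : Fin 5 → E d) (hsum : ∑ i, y i = 0) (hT : TT y = 9 / 4)
    (hob : ∀ i j, i ≠ j → (inner ℝ (y i) (y j) : ℝ) < 0)
    (hmin : ∀ i, ‖y 0‖ ^ 2 ≤ ‖y i‖ ^ 2)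
    (hheavy : ∀ i j : Fin 5, i ≠ 0 → j ≠ 0 → i ≠ j → -(inner ℝ (y i) (y j) : ℝ) ≤ -(inner ℝ (y 1) (y 2) : ℝ))
    (hW : 9 / 4 < W y) (hR0 : ‖y 0‖ ^ 2 ≤ 3 / 50)
    (hcap : capExpr (‖y 0‖ ^ 2) (-(inner ℝ (y 1) (y 3) : ℝ) + -(inner ℝ (y 2) (y 3) : ℝ))
      (-(inner ℝ (y 1) (y 4) : ℝ) + -(inner ℝ (y 2) (y 4) : ℝ)) (-(inner ℝ (y 3) (y 4) : ℝ)) ≤ 1) :
    False := by
  -- weights
  obtain ⟨w01, hw01⟩ : ∃ w, w = -(inner ℝ (y 0) (y 1) : ℝ) := ⟨_, rfl⟩
  obtain ⟨w02, hw02⟩ : ∃ w, w = -(inner ℝ (y 0) (y 2) : ℝ) := ⟨_, rfl⟩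
  obtain ⟨w03, hw03⟩ : ∃ w, w = -(inner ℝ (y 0) (y 3) : ℝ) := ⟨_, rfl⟩
  obtain ⟨w04, hw04⟩ : ∃ w, w = -(inner ℝ (y 0) (y 4) : ℝ) := ⟨_, rfl⟩
  obtain ⟨w12, hw12⟩ : ∃ w, w = -(inner ℝ (y 1) (y 2) : ℝ) := ⟨_, rfl⟩
  obtain ⟨w13, hw13⟩ : ∃ w, w = -(inner ℝ (y 1) (y 3) : ℝ) := ⟨_, rfl⟩
  obtain ⟨w14, hw14⟩ : ∃ w, w = -(inner ℝ (y 1) (y 4) : ℝ) := ⟨_, rfl⟩
  obtain ⟨w23, hw23⟩ : ∃ w, w = -(inner ℝ (y 2) (y 3) : ℝ) := ⟨_, rfl⟩
  obtain ⟨w24, hw24⟩ : ∃ w, w = -(inner ℝ (y 2) (y 4) : ℝ) := ⟨_, rfl⟩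
  obtain ⟨w34, hw34⟩ : ∃ w, w = -(inner ℝ (y 3) (y 4) : ℝ) := ⟨_, rfl⟩
  have p01 : 0 < w01 := by have := hob 0 1 (by decide); linarith
  have p02 : 0 < w02 := by have := hob 0 2 (by decide); linarith
  have p03 : 0 < w03 := by have := hob 0 3 (by decide); linarith
  have p04 : 0 < w04 := by have := hob 0 4 (by decide); linarith
  have p12 : 0 < w12 := by have := hob 1 2 (by decide); linarith
  have p13 : 0 < w13 := by have := hob 1 3 (by decide); linarith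
  have p14 : 0 < w14 := by have := hob 1 4 (by decide); linarith
  have p23 : 0 < w23 := by have := hob 2 3 (by decide); linarith
  have p24 : 0 < w24 := by have := hob 2 4 (by decide); linarith
  have p34 : 0 < w34 := by have := hob 3 4 (by decide); linarith
  -- degrees from centering
  have hs := hsum
  rw [Fin.sum_univ_five] at hs
  have deg : ∀ u : E d, (inner ℝ (y 0) u : ℝ) + inner ℝ (y 1) u + inner ℝ (y 2) u + inner ℝ (y 3) u
      + inner ℝ (y 4) u = 0 := by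
    intro u
    have := congrArg (fun v : E d => (inner ℝ v u : ℝ)) hs
    simpa [inner_add_left] using this
  have sym : ∀ i j : Fin 5, (inner ℝ (y i) (y j) : ℝ) = inner ℝ (y j) (y i) :=
    fun i j => real_inner_comm _ _
  have nsq : ∀ i : Fin 5, ‖y i‖ ^ 2 = (inner ℝ (y i) (y i) : ℝ) := fun i => (real_inner_self_eq_norm_sq _).symm
  have R0eq : ‖y 0‖ ^ 2 = w01 + w02 + w03 + w04 := by
    have := deg (y 0); rw [nsq 0, hw01, hw02, hw03, hw04, sym 0 1, sym 0 2, sym 0 3, sym 0 4]; linarith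
  have R1eq : ‖y 1‖ ^ 2 = w01 + w12 + w13 + w14 := by
    have := deg (y 1); rw [nsq 1, hw01, hw12, hw13, hw14, sym 1 2, sym 1 3, sym 1 4]; linarith
  have R2eq : ‖y 2‖ ^ 2 = w02 + w12 + w23 + w24 := by
    have := deg (y 2); rw [nsq 2, hw02, hw12, hw23, hw24, sym 2 3, sym 2 4]; linarith
  have R3eq : ‖y 3‖ ^ 2 = w03 + w13 + w23 + w34 := by
    have := deg (y 3); rw [nsq 3, hw03, hw13, hw23, hw34, sym 3 4]; linarith
  have R4eq : ‖y 4‖ ^ 2 = w04 + w14 + w24 + w34 := by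
    have := deg (y 4); rw [nsq 4, hw04, hw14, hw24, hw34]; linarith
  have hsum98 : w01 + w02 + w03 + w04 + w12 + w13 + w14 + w23 + w24 + w34 = 9 / 8 := by
    have : TT y = ‖y 0‖ ^ 2 + ‖y 1‖ ^ 2 + ‖y 2‖ ^ 2 + ‖y 3‖ ^ 2 + ‖y 4‖ ^ 2 := by
      simp [TT, Fin.sum_univ_five]
    rw [hT, R0eq, R1eq, R2eq, R3eq, R4eq] at this
    linarith
  obtain ⟨R0, hR0def⟩ : ∃ R, R = w01 + w02 + w03 + w04 := ⟨_, rfl⟩
  have R0eq' : ‖y 0‖ ^ 2 = R0 := by rw [R0eq, hR0def]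
  have hR0pos : 0 < R0 := by rw [hR0def]; positivity
  have hR0le : R0 ≤ 3 / 50 := by rw [← R0eq']; exact hR0
  have h13 := hheavy 1 3 (by decide) (by decide) (by decide)
  have h14 := hheavy 1 4 (by decide) (by decide) (by decide)
  have h23 := hheavy 2 3 (by decide) (by decide) (by decide)
  have h24 := hheavy 2 4 (by decide) (by decide) (by decide)
  have h34 := hheavy 3 4 (by decide) (by decide) (by decide)
  rw [← hw12, ← hw13] at h13
  rw [← hw12, ← hw14] at h14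
  rw [← hw12, ← hw23] at h23
  rw [← hw12, ← hw24] at h24
  rw [← hw12, ← hw34] at h34
  have h6 : 9 / 8 - R0 ≤ 6 * w12 := by
    rw [hR0def]; linarith
  -- pair bound
  have hpair := W_le_pair y
  have hrel := pair_relax p01.le p02.le p03.le p04.le p12.le p13.le p14.le p23.le p24.le p34.le
    hsum98 (by rw [← hR0def]; exact h6) (by rw [← hR0def]; exact hR0le)
  simp only at hrel
  rw [← hR0def] at hrel
  have hB : 9 / 4 < Bhat R0 (w13 + w23 + w14 + w24) w34 := by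
    refine lt_of_lt_of_le hW (le_trans hpair ?_)
    refine le_trans (le_of_eq ?_) hrel
    rw [norm_sub_eq (y 1) (y 2), norm_sub_eq (y 0) (y 1), norm_sub_eq (y 0) (y 2),
      norm_sub_eq (y 3) (y 1), norm_sub_eq (y 3) (y 2), norm_sub_eq (y 4) (y 1),
      norm_sub_eq (y 4) (y 2), R0eq', R1eq, R2eq, R3eq, R4eq, sym 3 1, sym 3 2, sym 4 1, sym 4 2,
      ← hw01, ← hw02, ← hw12, ← hw13, ← hw14, ← hw23, ← hw24]
  -- numeric core
  have hnum := num_core (R0 := R0) (a3 := w13 + w23) (a4 := w14 + w24) (c := w34) (A := w12)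
    hR0pos hR0le (by positivity) (by positivity) p34 (by rw [hR0def]; linarith) h34
    (by linarith) (by linarith) h6
    (by rw [show w13 + w23 + (w14 + w24) = w13 + w23 + w14 + w24 by ring]; exact hB)
    (by rw [← R0eq', hw13, hw14, hw23, hw24, hw34]; exact hcap)
  -- the deletion step
  have hdel := W_deletion y
  have hTdel := TT_deletion y hsum
  have hsdel := sum_deletion y hsum
  have hV := h4 d _ hsdel
  rw [hTdel, hT, R0eq'] at hV
  have hsqrt := sqrt_step hR0le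
  -- suffices the bound for GG
  suffices hG : GG y ≤ (5 / 8) * R0 by
    have h1 : (3 / 2 : ℝ) * Real.sqrt (9 / 4 - 5 / 4 * R0) ≤ (3 / 2) * (3 / 2 - (5 / 12) * R0) :=
      mul_le_mul_of_nonneg_left hsqrt (by norm_num)
    linarith
  have hs5 : y 0 + y 3 + y 1 + y 2 + y 4 = 0 := by
    rw [← hs]; abel
  have hs5' : y 0 + y 4 + y 1 + y 2 + y 3 = 0 := by
    rw [← hs]; abel
  have hob' := hob
  rcases hnum with hnum | hnum
  · -- l = 3, n = 4
    refine le_trans (GG_le y 0 1 3 2) ?_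
    have := gain_bound (y 0) (y 3) (y 1) (y 2) (y 4) hs5 (hob _ _ (by decide)) (hob _ _ (by decide))
      (hob _ _ (by decide)) (hob _ _ (by decide)) (hob _ _ (by decide)) (hob _ _ (by decide))
      (hob _ _ (by decide)) (hob _ _ (by decide)) (hob _ _ (by decide)) (hob _ _ (by decide))
      (hmin 3) (by
        rw [R0eq', ← hw12, ← hw13, ← hw14, ← hw23, ← hw24, sym 4 3, ← hw34]
        exact hnum)
    rw [R0eq'] at this
    exact this
  · -- l = 4, n = 3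
    refine le_trans (GG_le y 0 1 2 3) ?_
    have := gain_bound (y 0) (y 4) (y 1) (y 2) (y 3) hs5' (hob _ _ (by decide)) (hob _ _ (by decide))
      (hob _ _ (by decide)) (hob _ _ (by decide)) (hob _ _ (by decide)) (hob _ _ (by decide))
      (hob _ _ (by decide)) (hob _ _ (by decide)) (hob _ _ (by decide)) (hob _ _ (by decide))
      (hmin 4) (by
        rw [R0eq', ← hw12, ← hw13, ← hw14, ← hw23, ← hw24, ← hw34]
        exact hnum)
    rw [R0eq'] at this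
    exact this

/-- The cap expression is at most one. -/
theorem capExpr_le (y : Fin 5 → E d) (hsum : ∑ i, y i = 0) (hT : TT y = 9 / 4)
    (hob : ∀ i j, i ≠ j → (inner ℝ (y i) (y j) : ℝ) < 0)
    (hmin : ∀ i, ‖y 0‖ ^ 2 ≤ ‖y i‖ ^ 2)
    (a : Fin 5 → ℝ) (ha0 : ∀ i, 0 ≤ a i) (hasum : ∑ i, a i = 1)
    (hl1 : ∀ i, ‖y i‖ ^ 2 ≤ 21 / 50 + (13 / 10) * a i)
    (hl2 : ∀ i, ‖y i‖ ≤ 99 / 2000 + (67 / 20) * a i) :
    capExpr (‖y 0‖ ^ 2) (-(inner ℝ (y 1) (y 3) : ℝ) + -(inner ℝ (y 2) (y 3) : ℝ))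
      (-(inner ℝ (y 1) (y 4) : ℝ) + -(inner ℝ (y 2) (y 4) : ℝ)) (-(inner ℝ (y 3) (y 4) : ℝ)) ≤ 1 := by
  obtain ⟨w01, hw01⟩ : ∃ w, w = -(inner ℝ (y 0) (y 1) : ℝ) := ⟨_, rfl⟩
  obtain ⟨w02, hw02⟩ : ∃ w, w = -(inner ℝ (y 0) (y 2) : ℝ) := ⟨_, rfl⟩
  obtain ⟨w03, hw03⟩ : ∃ w, w = -(inner ℝ (y 0) (y 3) : ℝ) := ⟨_, rfl⟩
  obtain ⟨w04, hw04⟩ : ∃ w, w = -(inner ℝ (y 0) (y 4) : ℝ) := ⟨_, rfl⟩
  obtain ⟨w12, hw12⟩ : ∃ w, w = -(inner ℝ (y 1) (y 2) : ℝ) := ⟨_, rfl⟩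
  obtain ⟨w13, hw13⟩ : ∃ w, w = -(inner ℝ (y 1) (y 3) : ℝ) := ⟨_, rfl⟩
  obtain ⟨w14, hw14⟩ : ∃ w, w = -(inner ℝ (y 1) (y 4) : ℝ) := ⟨_, rfl⟩
  obtain ⟨w23, hw23⟩ : ∃ w, w = -(inner ℝ (y 2) (y 3) : ℝ) := ⟨_, rfl⟩
  obtain ⟨w24, hw24⟩ : ∃ w, w = -(inner ℝ (y 2) (y 4) : ℝ) := ⟨_, rfl⟩
  obtain ⟨w34, hw34⟩ : ∃ w, w = -(inner ℝ (y 3) (y 4) : ℝ) := ⟨_, rfl⟩
  have p01 : 0 < w01 := by have := hob 0 1 (by decide); linarith
  have p02 : 0 < w02 := by have := hob 0 2 (by decide); linarith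
  have p03 : 0 < w03 := by have := hob 0 3 (by decide); linarith
  have p04 : 0 < w04 := by have := hob 0 4 (by decide); linarith
  have hs := hsum
  rw [Fin.sum_univ_five] at hs
  have deg : ∀ u : E d, (inner ℝ (y 0) u : ℝ) + inner ℝ (y 1) u + inner ℝ (y 2) u + inner ℝ (y 3) u
      + inner ℝ (y 4) u = 0 := by
    intro u
    have := congrArg (fun v : E d => (inner ℝ v u : ℝ)) hs
    simpa [inner_add_left] using this
  have sym : ∀ i j : Fin 5, (inner ℝ (y i) (y j) : ℝ) = inner ℝ (y j) (y i) :=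
    fun i j => real_inner_comm _ _
  have nsq : ∀ i : Fin 5, ‖y i‖ ^ 2 = (inner ℝ (y i) (y i) : ℝ) := fun i => (real_inner_self_eq_norm_sq _).symm
  have R0eq : ‖y 0‖ ^ 2 = w01 + w02 + w03 + w04 := by
    have := deg (y 0); rw [nsq 0, hw01, hw02, hw03, hw04, sym 0 1, sym 0 2, sym 0 3, sym 0 4]; linarith
  have R1eq : ‖y 1‖ ^ 2 = w01 + w12 + w13 + w14 := by
    have := deg (y 1); rw [nsq 1, hw01, hw12, hw13, hw14, sym 1 2, sym 1 3, sym 1 4]; linarith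
  have R2eq : ‖y 2‖ ^ 2 = w02 + w12 + w23 + w24 := by
    have := deg (y 2); rw [nsq 2, hw02, hw12, hw23, hw24, sym 2 3, sym 2 4]; linarith
  have R3eq : ‖y 3‖ ^ 2 = w03 + w13 + w23 + w34 := by
    have := deg (y 3); rw [nsq 3, hw03, hw13, hw23, hw34, sym 3 4]; linarith
  have R4eq : ‖y 4‖ ^ 2 = w04 + w14 + w24 + w34 := by
    have := deg (y 4); rw [nsq 4, hw04, hw14, hw24, hw34]; linarith
  have hsum98 : w01 + w02 + w03 + w04 + w12 + w13 + w14 + w23 + w24 + w34 = 9 / 8 := by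
    have : TT y = ‖y 0‖ ^ 2 + ‖y 1‖ ^ 2 + ‖y 2‖ ^ 2 + ‖y 3‖ ^ 2 + ‖y 4‖ ^ 2 := by
      simp [TT, Fin.sum_univ_five]
    rw [hT, R0eq, R1eq, R2eq, R3eq, R4eq] at this
    linarith
  rw [← hw13, ← hw14, ← hw23, ← hw24, ← hw34]
  have hasum' : a 0 + a 1 + a 2 + a 3 + a 4 = 1 := by
    rw [← hasum, Fin.sum_univ_five]
  unfold capExpr
  have t1 : max 0 ((2 * (9 / 8 - ‖y 0‖ ^ 2 - (w13 + w23 + (w14 + w24)) / 2 - w34) - 2 * (21 / 50)) / (13 / 10))
      ≤ a 1 + a 2 := by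
    apply max_le (add_nonneg (ha0 1) (ha0 2))
    have h1 := hl1 1
    have h2 := hl1 2
    rw [R1eq] at h1
    rw [R2eq] at h2
    rw [R0eq, div_le_iff₀ (by norm_num)]
    linarith
  have hm3 : max (‖y 0‖ ^ 2) (w13 + w23 + w34) ≤ ‖y 3‖ ^ 2 := by
    apply max_le (hmin 3)
    rw [R3eq]; linarith
  have hm4 : max (‖y 0‖ ^ 2) (w14 + w24 + w34) ≤ ‖y 4‖ ^ 2 := by
    apply max_le (hmin 4)
    rw [R4eq]; linarith
  have t3 : max 0 ((Real.sqrt (max (‖y 0‖ ^ 2) (w13 + w23 + w34)) - 99 / 2000) / (67 / 20)) ≤ a 3 := by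
    apply max_le (ha0 3)
    have h1 : Real.sqrt (max (‖y 0‖ ^ 2) (w13 + w23 + w34)) ≤ ‖y 3‖ := by
      apply Real.sqrt_le_iff.mpr
      exact ⟨norm_nonneg _, hm3⟩
    have := hl2 3
    rw [div_le_iff₀ (by norm_num)]
    linarith
  have t4 : max 0 ((Real.sqrt (max (‖y 0‖ ^ 2) (w14 + w24 + w34)) - 99 / 2000) / (67 / 20)) ≤ a 4 := by
    apply max_le (ha0 4)
    have h1 : Real.sqrt (max (‖y 0‖ ^ 2) (w14 + w24 + w34)) ≤ ‖y 4‖ := by
      apply Real.sqrt_le_iff.mpr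
      exact ⟨norm_nonneg _, hm4⟩
    have := hl2 4
    rw [div_le_iff₀ (by norm_num)]
    linarith
  have t0 : max 0 ((Real.sqrt (‖y 0‖ ^ 2) - 99 / 2000) / (67 / 20)) ≤ a 0 := by
    apply max_le (ha0 0)
    rw [Real.sqrt_sq (norm_nonneg _)]
    have := hl2 0
    rw [div_le_iff₀ (by norm_num)]
    linarith
  linarith

/-- Existence of a good ordering. -/
theorem exists_good_perm (R : Fin 5 → ℝ) (w : Fin 5 → Fin 5 → ℝ) :
    ∃ σ : Equiv.Perm (Fin 5), (∀ i, R (σ 0) ≤ R i) ∧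
      ∀ i j : Fin 5, i ≠ 0 → j ≠ 0 → i ≠ j → w (σ i) (σ j) ≤ w (σ 1) (σ 2) := by
  classical
  obtain ⟨i0, -, hi0⟩ := Finset.exists_min_image Finset.univ R Finset.univ_nonempty
  -- maximize `w` over pairs that avoid `i0`
  let S : Finset (Fin 5 × Fin 5) :=
    Finset.univ.filter (fun p => p.1 ≠ i0 ∧ p.2 ≠ i0 ∧ p.1 ≠ p.2)
  have hS0 : ∀ i0 : Fin 5, ∃ p q : Fin 5, p ≠ i0 ∧ q ≠ i0 ∧ p ≠ q := by decide
  have hS : S.Nonempty := by
    obtain ⟨p, q, h1, h2, h3⟩ := hS0 i0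
    exact ⟨(p, q), by simp [S, h1, h2, h3]⟩
  obtain ⟨⟨p, q⟩, hpq, hmax⟩ := Finset.exists_max_image S (fun p => w p.1 p.2) hS
  simp only [S, Finset.mem_filter, Finset.mem_univ, true_and] at hpq
  obtain ⟨hp, hq, hne⟩ := hpq
  -- a permutation with `σ 0 = i0`, `σ 1 = p`, `σ 2 = q`
  have hb1 : (Equiv.swap 0 i0).symm p ≠ 0 := by
    intro h
    have := congrArg (Equiv.swap 0 i0) h
    simp only [Equiv.symm_swap, Equiv.swap_apply_self, Equiv.swap_apply_left] at this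
    exact hp this
  obtain ⟨b1, hb1d⟩ : ∃ b1, b1 = (Equiv.swap 0 i0).symm p := ⟨_, rfl⟩
  rw [← hb1d] at hb1
  have hs1b : Equiv.swap 0 i0 b1 = p := by rw [hb1d]; simp
  have hs20 : Equiv.swap (1 : Fin 5) b1 0 = 0 :=
    Equiv.swap_apply_of_ne_of_ne (by decide) (Ne.symm hb1)
  obtain ⟨c2, hc2d⟩ : ∃ c2, c2 = (Equiv.swap (1 : Fin 5) b1).symm ((Equiv.swap 0 i0).symm q) := ⟨_, rfl⟩
  have hs12c : Equiv.swap 0 i0 (Equiv.swap (1 : Fin 5) b1 c2) = q := by rw [hc2d]; simp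
  have hc0 : c2 ≠ 0 := by
    intro h
    rw [h, hs20] at hs12c
    simp only [Equiv.swap_apply_left] at hs12c
    exact hq hs12c.symm
  have hc1 : c2 ≠ 1 := by
    intro h
    rw [h] at hs12c
    simp only [Equiv.swap_apply_left] at hs12c
    rw [hs1b] at hs12c
    exact hne hs12c
  have hs30 : Equiv.swap (2 : Fin 5) c2 0 = 0 :=
    Equiv.swap_apply_of_ne_of_ne (by decide) (Ne.symm hc0)
  have hs31 : Equiv.swap (2 : Fin 5) c2 1 = 1 :=
    Equiv.swap_apply_of_ne_of_ne (by decide) (Ne.symm hc1)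
  obtain ⟨σ, hσd⟩ : ∃ σ : Equiv.Perm (Fin 5),
      σ = Equiv.swap 0 i0 * Equiv.swap (1 : Fin 5) b1 * Equiv.swap (2 : Fin 5) c2 := ⟨_, rfl⟩
  have h0 : σ 0 = i0 := by
    rw [hσd]; simp only [Equiv.Perm.mul_apply, hs30, hs20, Equiv.swap_apply_left]
  have h1 : σ 1 = p := by
    rw [hσd]; simp only [Equiv.Perm.mul_apply, hs31, Equiv.swap_apply_left, hs1b]
  have h2 : σ 2 = q := by
    rw [hσd]; simp only [Equiv.Perm.mul_apply, Equiv.swap_apply_left, hs12c]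
  refine ⟨σ, ?_, ?_⟩
  · intro i
    rw [h0]
    exact hi0 i (Finset.mem_univ _)
  · intro i j hi hj hij
    rw [h1, h2]
    refine hmax (σ i, σ j) ?_
    simp only [S, Finset.mem_filter, Finset.mem_univ, true_and]
    refine ⟨?_, ?_, fun h => hij (σ.injective h)⟩
    · rw [← h0]; exact fun h => hi (σ.injective h)
    · rw [← h0]; exact fun h => hj (σ.injective h)

/-- The main bound for cone partitions of `ℝ^4` with five cells. -/
theorem cone_bound (h4 : PartitionBound 4) {B : Fin 5 → Set (E 4)} (hB : IsPart B)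
    (hc : ∀ i, ∀ x ∈ B i, ∀ c : ℝ, 0 < c → c • x ∈ B i) : FF B ≤ 9 / (8 * Real.pi) := by
  classical
  by_contra hcon
  have hcon := not_le.mp hcon
  have hpi0 : 0 < Real.pi := Real.pi_pos
  have hsp : Real.sqrt (2 * Real.pi) ^ 2 = 2 * Real.pi := Real.sq_sqrt (by positivity)
  have hsp0 : 0 < Real.sqrt (2 * Real.pi) := by positivity
  -- normalized moments
  set yh : Fin 5 → E 4 := fun i => nz (B i) with hyh
  have hTh : TT yh = 2 * Real.pi * FF B := TT_nz_eq B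
  have hTh1 : 9 / 4 < TT yh := by
    rw [hTh]
    have : 2 * Real.pi * (9 / (8 * Real.pi)) = 9 / 4 := by field_simp; ring
    rw [← this]
    exact mul_lt_mul_of_pos_left hcon (by positivity)
  have hsumh : ∑ i, yh i = 0 := sum_nz_eq_zero hB
  -- T ≤ W
  have hTW : TT yh ≤ W yh := by
    have := sum_inner_nz_le_W hB yh
    refine le_trans (le_of_eq ?_) this
    simp [TT, hyh]
  -- obtuseness
  have hobh : ∀ i j, i ≠ j → (inner ℝ (yh i) (yh j) : ℝ) < 0 := by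
    intro i j hij
    by_contra hge
    have hge := not_lt.mp hge
    have : 0 ≤ (inner ℝ (mom (B i)) (mom (B j)) : ℝ) := by
      have e : (inner ℝ (yh i) (yh j) : ℝ) = 2 * Real.pi * inner ℝ (mom (B i)) (mom (B j)) := by
        simp only [hyh, nz, real_inner_smul_left, real_inner_smul_right]
        rw [← mul_assoc, ← sq, hsp]
      rw [e] at hge
      by_contra hn
      have hn := not_le.mp hn
      have : 2 * Real.pi * (inner ℝ (mom (B i)) (mom (B j)) : ℝ) < 0 :=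
        mul_neg_of_pos_of_neg (by positivity) hn
      linarith
    exact absurd (merge_bound h4 hB hij this) (not_le.mpr hcon)
  -- caps
  set a : Fin 5 → ℝ := fun i => (gam 4).real (B i) with ha
  have hcap : ∀ i, CapHyp ‖yh i‖ (a i) := by
    intro i β h0 h1
    exact cap_bound (hB.meas i) (hc i) h0 h1
  have ha0 : ∀ i, 0 ≤ a i := fun i => measureReal_nonneg
  have hasum : ∑ i, a i = 1 := sum_real_eq_one hB
  have ha1 : ∀ i, a i ≤ 1 := by
    intro i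
    rw [← hasum]
    exact Finset.single_le_sum (fun j _ => ha0 j) (Finset.mem_univ i)
  -- ordering
  obtain ⟨σ, hσ1, hσ2⟩ := exists_good_perm (fun i => ‖yh i‖ ^ 2) (fun i j => -(inner ℝ (yh i) (yh j) : ℝ))
  -- scaling factor
  set sT : ℝ := Real.sqrt (TT yh) with hsT
  have hTpos : 0 < TT yh := by linarith
  have hsTpos : 0 < sT := Real.sqrt_pos.mpr hTpos
  have hsTsq : sT ^ 2 = TT yh := Real.sq_sqrt hTpos.le
  have hsT32 : 3 / 2 < sT := by
    have : (3 / 2 : ℝ) ^ 2 < sT ^ 2 := by rw [hsTsq]; linarith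
    exact lt_of_pow_lt_pow_left₀ 2 hsTpos.le this
  set s : ℝ := (3 / 2) / sT with hs
  have hs0 : 0 < s := by positivity
  have hs1 : s < 1 := by rw [hs, div_lt_one hsTpos]; exact hsT32
  have hs2 : s ^ 2 * TT yh = 9 / 4 := by
    rw [hs, div_pow, ← hsTsq]
    field_simp
    norm_num
  have hs2le : s ^ 2 ≤ 1 := by nlinarith
  -- the scaled reordered simplex
  set y : Fin 5 → E 4 := fun i => s • yh (σ i) with hy
  have hnorm : ∀ i, ‖y i‖ ^ 2 = s ^ 2 * ‖yh (σ i)‖ ^ 2 := by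
    intro i
    simp only [hy, norm_smul, Real.norm_eq_abs, abs_of_pos hs0]
    ring
  have hinner : ∀ i j, (inner ℝ (y i) (y j) : ℝ) = s ^ 2 * inner ℝ (yh (σ i)) (yh (σ j)) := by
    intro i j
    simp only [hy, real_inner_smul_left, real_inner_smul_right]
    ring
  have hsumy : ∑ i, y i = 0 := by
    simp only [hy]
    rw [← Finset.smul_sum, Equiv.sum_comp σ yh, hsumh, smul_zero]
  have hTTperm : TT (fun i => yh (σ i)) = TT yh := by
    simp only [TT]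
    exact Equiv.sum_comp σ (fun i => ‖yh i‖ ^ 2)
  have hTy : TT y = 9 / 4 := by
    have : TT y = s ^ 2 * TT yh := by
      rw [← hTTperm]
      simp only [TT, hnorm, Finset.mul_sum]
    rw [this, hs2]
  have hWy : 9 / 4 < W y := by
    have e1 : W y = s * W yh := by
      have h1 : W y = s * W (yh ∘ σ) := W_smul (yh ∘ σ) hs0.le
      rw [h1, W_comp_perm]
    rw [e1]
    have e2 : s * TT yh = (3 / 2) * sT := by
      rw [hs, ← hsTsq]
      field_simp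
    have e3 : s * TT yh ≤ s * W yh := mul_le_mul_of_nonneg_left hTW hs0.le
    nlinarith
  have hob : ∀ i j, i ≠ j → (inner ℝ (y i) (y j) : ℝ) < 0 := by
    intro i j hij
    rw [hinner]
    exact mul_neg_of_pos_of_neg (by positivity) (hobh _ _ (fun h => hij (σ.injective h)))
  have hmin : ∀ i, ‖y 0‖ ^ 2 ≤ ‖y i‖ ^ 2 := by
    intro i
    rw [hnorm, hnorm]
    exact mul_le_mul_of_nonneg_left (hσ1 (σ i)) (by positivity)
  have hheavy : ∀ i j : Fin 5, i ≠ 0 → j ≠ 0 → i ≠ j →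
      -(inner ℝ (y i) (y j) : ℝ) ≤ -(inner ℝ (y 1) (y 2) : ℝ) := by
    intro i j hi hj hij
    rw [hinner, hinner]
    have := hσ2 i j hi hj hij
    have h2 : s ^ 2 * -(inner ℝ (yh (σ i)) (yh (σ j)) : ℝ) ≤ s ^ 2 * -(inner ℝ (yh (σ 1)) (yh (σ 2)) : ℝ) :=
      mul_le_mul_of_nonneg_left this (by positivity)
    linarith
  -- comparison of scaled and unscaled sizes
  have hRle : ∀ i, ‖y i‖ ^ 2 ≤ ‖yh (σ i)‖ ^ 2 := by
    intro i
    rw [hnorm]
    exact mul_le_of_le_one_left (by positivity) hs2le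
  have hsumall : ∑ i, ‖yh (σ i)‖ ^ 2 = TT yh := hTTperm
  have hsuma : ∑ i, a (σ i) = 1 := by rw [Equiv.sum_comp σ a, hasum]
  -- `R0 ≤ 0.06`
  have hR0 : ‖y 0‖ ^ 2 ≤ 3 / 50 := by
    by_contra hgt
    have hgt := not_le.mp hgt
    have hl3 : ∀ i, ‖yh (σ i)‖ ^ 2 ≤ -(211 / 2000) + (13873 / 5000) * a (σ i) := by
      intro i
      refine cap_line3 (norm_nonneg _) (ha0 _) (ha1 _) (hcap _) ?_
      have := hmin i
      have := hRle i
      linarith
    have hsum3 : TT yh ≤ ∑ i, (-(211 / 2000) + (13873 / 5000) * a (σ i)) := by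
      rw [← hsumall]
      exact Finset.sum_le_sum (fun i _ => hl3 i)
    rw [Finset.sum_add_distrib, ← Finset.mul_sum, hsuma] at hsum3
    simp at hsum3
    norm_num at hsum3
    linarith
  -- the cap expression
  have hcapE : capExpr (‖y 0‖ ^ 2) (-(inner ℝ (y 1) (y 3) : ℝ) + -(inner ℝ (y 2) (y 3) : ℝ))
      (-(inner ℝ (y 1) (y 4) : ℝ) + -(inner ℝ (y 2) (y 4) : ℝ)) (-(inner ℝ (y 3) (y 4) : ℝ)) ≤ 1 := by
    refine capExpr_le y hsumy hTy hob hmin (fun i => a (σ i)) (fun i => ha0 _) hsuma ?_ ?_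
    · intro i
      exact le_trans (hRle i) (cap_line1 (norm_nonneg _) (ha0 _) (ha1 _) (hcap _))
    · intro i
      have h1 : ‖y i‖ ≤ ‖yh (σ i)‖ := by
        simp only [hy, norm_smul, Real.norm_eq_abs, abs_of_pos hs0]
        exact mul_le_of_le_one_left (norm_nonneg _) hs1.le
      exact le_trans h1 (cap_line2 (norm_nonneg _) (ha0 _) (ha1 _) (hcap _))
  have h4V : VBound 4 := vbound_of_partition h4
  exact core h4V y hsumy hTy hob hmin hheavy hWy hR0 hcapE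

/-- `PartitionBound 4` implies the width bound for five vectors. -/
theorem vbound5 (h4 : PartitionBound 4) : VBound 5 := by
  intro d y hy
  obtain ⟨v, hv⟩ := exists_embed5 y hy
  rw [W_congr_gram y v hv]
  obtain ⟨B, hB, hc, hW⟩ := exists_voronoi v
  have hF := cone_bound h4 hB hc
  have hT : TT (fun i => nz (B i)) ≤ 9 / 4 := by
    rw [TT_nz_eq]
    have hpi0 : 0 < Real.pi := Real.pi_pos
    have : 2 * Real.pi * (9 / (8 * Real.pi)) = 9 / 4 := by field_simp; ring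
    rw [← this]
    exact mul_le_mul_of_nonneg_left hF (by positivity)
  have hTv : TT v = TT y := by
    simp only [TT]
    refine Finset.sum_congr rfl (fun i _ => ?_)
    rw [← real_inner_self_eq_norm_sq, ← real_inner_self_eq_norm_sq, hv]
  rw [hW, ← hTv]
  -- Cauchy-Schwarz
  have hCS : ∑ i, (inner ℝ (nz (B i)) (v i) : ℝ) ≤
      Real.sqrt (TT (fun i => nz (B i))) * Real.sqrt (TT v) := by
    have h1 : ∑ i, (inner ℝ (nz (B i)) (v i) : ℝ) ≤ ∑ i, ‖nz (B i)‖ * ‖v i‖ :=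
      Finset.sum_le_sum (fun i _ => real_inner_le_norm _ _)
    refine le_trans h1 ?_
    exact Real.sum_mul_le_sqrt_mul_sqrt _ _ _
  refine le_trans hCS ?_
  apply mul_le_mul_of_nonneg_right _ (Real.sqrt_nonneg _)
  rw [show (3 / 2 : ℝ) = Real.sqrt (9 / 4) by
    rw [show (9 / 4 : ℝ) = (3 / 2) ^ 2 by norm_num]; exact (Real.sqrt_sq (by norm_num)).symm]
  exact Real.sqrt_le_sqrt hT

/-- The main theorem: the propeller inequality for four cells implies it for five cells. -/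
theorem main_five (h4 : PartitionBound 4) : PartitionBound 5 :=
  partition_of_vbound (vbound5 h4)

end Vale.Agent.Lib.P226
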