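/-!
Fixed point interval arithmetic on natural numbers (scale `2 ^ 24`), in continuation passing
style with forced intermediate values, so that the kernel evaluates the checks quickly.
-/

namespace Vale.Agent.Lib.P226.NumF

/-- The scale. -/
def SS : Nat := 16777216

/-- An interval with fixed point endpoints. -/
structure I where
  l : Nat
  h : Nat

/-- Evaluate a number before passing it on. -/
def force (n : Nat) (c : Nat → Bool) : Bool :=
  match n with
  | 0 => c 0
  | m + 1 => c (Nat.succ m)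

/-- Evaluate an interval before passing it on. -/
def forceI (p : I) (c : I → Bool) : Bool :=
  force p.l fun a => force p.h fun b => c ⟨a, b⟩

/-- Product, rounded down. -/
def mD (a b : Nat) : Nat := Nat.shiftRight (Nat.mul a b) 24
/-- Product, rounded up. -/
def mU (a b : Nat) : Nat := Nat.add (Nat.shiftRight (Nat.mul a b) 24) 1
/-- Quotient, rounded down. -/
def dD (a b : Nat) : Nat := Nat.div (Nat.shiftLeft a 24) b
/-- Quotient, rounded up. -/
def dU (a b : Nat) : Nat := Nat.add (Nat.div (Nat.shiftLeft a 24) b) 1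

/-- Constant integer interval. -/
def cI (k : Nat) : I := ⟨Nat.mul k SS, Nat.mul k SS⟩
/-- Sum. -/
def addI (p q : I) : I := ⟨Nat.add p.l q.l, Nat.add p.h q.h⟩
/-- Integer multiple. -/
def smulI (k : Nat) (p : I) : I := ⟨Nat.mul k p.l, Nat.mul k p.h⟩
/-- Product. -/
def mulI (p q : I) : I := ⟨mD p.l q.l, mU p.h q.h⟩
/-- Quotient. -/
def divI (p q : I) : I := ⟨dD p.l q.h, dU p.h q.l⟩

/-- Checked difference. -/
def subC (p q : I) (c : I → Bool) : Bool :=
  and (Nat.ble q.h p.l) (forceI ⟨Nat.sub p.l q.h, Nat.sub p.h q.l⟩ c)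

/-- Checked quotient. -/
def divC (p q : I) (c : I → Bool) : Bool :=
  and (Nat.ble 1 q.l) (forceI (divI p q) c)

/-- One Newton step for the square root. -/
def nw (n r : Nat) : Nat := Nat.shiftRight (Nat.add r (Nat.div n r)) 1

/-- Checked square root; `r0` is the starting value. The candidates are verified by squaring. -/
def sqrtC (r0 : Nat) (p : I) (c : I → Bool) : Bool :=
  force (Nat.shiftLeft p.l 24) fun n1 =>
  force (Nat.shiftLeft p.h 24) fun n2 =>
  force (nw n1 r0) fun r1 =>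
  force (nw n1 r1) fun r2 =>
  force (nw n1 r2) fun r3 =>
  force (nw n1 r3) fun r4 =>
  force (nw n1 r4) fun r5 =>
  force (Nat.div n1 r5) fun q =>
  force (nw n2 r5) fun r6 =>
  force (nw n2 r6) fun r7 =>
  force (bif Nat.ble r5 q then r5 else q) fun rl =>
  force (Nat.add r7 1) fun rh =>
  and (Nat.ble (Nat.mul rl rl) n1) (and (Nat.ble n2 (Nat.mul rh rh)) (c ⟨rl, rh⟩))

/-- Enclosure of `(A + D) / D ^ 2`, from the two endpoints of `A` and `D`. -/
def rI (A D : I) : I :=
  ⟨dD (dD (Nat.add A.h D.h) D.h) D.h, dU (dU (Nat.add A.l D.l) D.l) D.l⟩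

/-- The larger of two numbers. -/
def maxN (a b : Nat) : Nat := bif Nat.ble a b then b else a

/-- The final test for the stable form. -/
def tailII (t q r1 r2 : I) : Bool :=
  force (maxN (Nat.sub r1.h r2.l) (Nat.sub r2.h r1.l)) fun rd =>
  force (mU q.h q.h) fun q2 =>
  force (Nat.mul 625 (mU q2 rd)) fun y =>
  Nat.ble (Nat.mul (Nat.mul (Nat.mul y y) (Nat.add (Nat.mul 4 SS) (Nat.mul 9 t.h))) 10)
    (Nat.mul 5065092 (Nat.mul SS (Nat.mul SS SS)))

/-- The check for the stable form on the box `t × b`. -/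
def chkII (t b : I) : Bool :=
  forceI (mulI b t) fun bt =>
  subC (cI 16) (smulI 8 b) fun u =>
  forceI (addI (cI 1) (mulI u t)) fun pa1 =>
  subC (addI (cI 16) t) (smulI 8 bt) fun pa2 =>
  forceI (addI (addI (cI 1) t) (smulI 2 bt)) fun ff =>
  forceI (addI (smulI 4 t) (smulI 3 bt)) fun n1 =>
  subC (addI (cI 4) (smulI 3 bt)) t fun n2 =>
  forceI (mulI b bt) fun b2t =>
  subC (cI 1) b2t fun e =>
  sqrtC (Nat.mul 3 SS) pa1 fun A1 =>
  sqrtC (Nat.mul 5 SS) pa2 fun A2 =>
  sqrtC (Nat.mul 2 SS) ff fun C =>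
  divC (cI 1) C fun inv =>
  forceI (mulI n1 inv) fun w1 =>
  forceI (mulI n2 inv) fun w2 =>
  subC (addI A1 inv) w1 fun D1 =>
  forceI (addI A2 w2) fun D2 =>
  and (Nat.ble 1 D1.l) (and (Nat.ble 1 D2.l) (
  forceI (rI A1 D1) fun r1 =>
  forceI (rI A2 D2) fun r2 =>
  divC e ff fun q =>
  tailII t q r1 r2))

/-- The value `(a + s) ^ 2 * (2 * a - s)`. -/
def wP (a s : Nat) : Nat :=
  Nat.mul (Nat.mul (Nat.add a s) (Nat.add a s)) (Nat.sub (Nat.mul 2 a) s)

/-- The value `(a - n) ^ 2 * (2 * a + n)`. -/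
def wM (a n : Nat) : Nat :=
  Nat.mul (Nat.mul (Nat.sub a n) (Nat.sub a n)) (Nat.add (Nat.mul 2 a) n)

/-- The final test for the direct form. -/
def tailI (x A1 s1 A2 n : I) : Bool :=
  and (Nat.ble s1.h A1.h) (
  force (maxN (Nat.sub (wP A1.h s1.h) (bif Nat.ble n.h A2.l then wM A2.l n.h else 0))
    (wM A2.h n.l)) fun u =>
  Nat.ble (Nat.mul (Nat.mul (Nat.mul u u) (Nat.add (Nat.mul 4 x.h) (Nat.mul 9 SS))) 10)
    (Nat.mul 5065092 (Nat.pow SS 7)))

/-- The check for the direct form on the box `x × b`. -/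
def chkI (x b : I) : Bool :=
  subC (addI (cI 16) x) (smulI 8 b) fun pa1 =>
  subC (addI (cI 1) (smulI 16 x)) (smulI 8 b) fun pa2 =>
  forceI (addI (addI (cI 1) x) (smulI 2 b)) fun ff =>
  subC (addI (cI 4) (smulI 3 b)) x fun p1 =>
  subC (addI (smulI 4 x) (smulI 3 b)) (cI 1) fun n2 =>
  sqrtC (Nat.mul 5 SS) pa1 fun A1 =>
  sqrtC (Nat.mul 6 SS) pa2 fun A2 =>
  sqrtC (Nat.mul 2 SS) ff fun C =>
  divC p1 C fun s1 =>
  divC n2 C fun n =>
  tailI x A1 s1 A2 n

/-- Midpoint. -/
def mid (a b : Nat) : Nat := Nat.shiftRight (Nat.add a b) 1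

/-- Recursive cover of a box by boxes passing the check `chk`. The parameter `w` weighs the
first coordinate when choosing the side to split. -/
def cover (chk : I → I → Bool) (w : Nat) : Nat → Nat → Nat → Nat → Nat → Bool
  | 0, tl, th, bl, bh => chk ⟨tl, th⟩ ⟨bl, bh⟩
  | f + 1, tl, th, bl, bh =>
    bif chk ⟨tl, th⟩ ⟨bl, bh⟩ then true else
    bif Nat.ble (Nat.sub bh bl) (Nat.mul w (Nat.sub th tl)) then
      force (mid tl th) fun m =>
      bif cover chk w f tl m bl bh then cover chk w f m th bl bh else false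
    else
      force (mid bl bh) fun m =>
      bif cover chk w f tl th bl m then cover chk w f tl th m bh else false

end Vale.Agent.Lib.P226.NumF
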