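import Vale.Agent.Lib.P226.NumFSound

/-!
Soundness of the check `chkII` (the stable form of the wedge moment difference).
-/

namespace Vale.Agent.Lib.P226.NumF

/-- Bind for a forced enclosure. -/
theorem bindE {v : ℝ} {p : I} {c : I → Bool} {G : Prop} (hp : Enc v p)
    (h : forceI p c = true) (k : ∀ q, Enc v q → c q = true → G) : G :=
  bindF (P := Enc v) hp h k

/-- The expression `(A + d) / d ^ 2`. -/
noncomputable def Rf (A d : ℝ) : ℝ := (A + d) / d ^ 2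

theorem R_up {Al A dl d : ℝ} (h0 : 0 ≤ Al) (hA : Al ≤ A) (hd : 0 < dl) (h : dl + (A - Al) ≤ d) :
    Rf A d ≤ Rf Al dl := by
  unfold Rf
  have hα : 0 ≤ A - Al := by linarith
  have hβ : 0 ≤ d - dl - (A - Al) := by linarith
  have hd' : 0 < d := by linarith
  rw [div_le_div_iff₀ (by positivity) (by positivity)]
  have e : (Al + dl) * d ^ 2 - (A + d) * dl ^ 2
      = (Al + dl) * ((A - Al) + (d - dl - (A - Al))) ^ 2
        + 2 * Al * dl * ((A - Al) + (d - dl - (A - Al)))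
        + dl ^ 2 * (d - dl - (A - Al)) := by ring
  have h1 : 0 ≤ (Al + dl) * ((A - Al) + (d - dl - (A - Al))) ^ 2 := by positivity
  have h2 : 0 ≤ 2 * Al * dl * ((A - Al) + (d - dl - (A - Al))) := by positivity
  have h3 : 0 ≤ dl ^ 2 * (d - dl - (A - Al)) := by positivity
  linarith

/-- The relation between the enclosures of `A` and `d`. -/
def EncD (A d : ℝ) (Ap Dp : I) : Prop :=
  (Dp.l : ℝ) + (A * SS - Ap.l) ≤ d * SS ∧ d * SS + ((Ap.h : ℝ) - A * SS) ≤ Dp.h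

theorem encD_add {A w : ℝ} {Ap wp : I} (hw : Enc w wp) :
    EncD A (A + w) Ap (addI Ap wp) := by
  have h1 := hw.1
  have h2 := hw.2
  have e : (A + w) * (SS : ℝ) = A * SS + w * SS := by ring
  constructor
  · simp only [addI, Nat.add_eq, Nat.cast_add]; rw [e]; linarith
  · simp only [addI, Nat.add_eq, Nat.cast_add]; rw [e]; linarith

theorem encD_sub {A i w : ℝ} {Ap ip wp : I} (hA : Enc A Ap) (hi : Enc i ip) (hw : Enc w wp)
    (hh : wp.h ≤ (addI Ap ip).l) :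
    EncD A (A + i - w) Ap
      ⟨Nat.sub (addI Ap ip).l wp.h, Nat.sub (addI Ap ip).h wp.l⟩ := by
  have h1 := hw.1
  have h2 := hw.2
  have h3 := hi.1
  have h4 := hi.2
  have e : (A + i - w) * (SS : ℝ) = A * SS + i * SS - w * SS := by ring
  have hh' : wp.h ≤ Ap.l + ip.l := hh
  have hle : wp.l ≤ Ap.h + ip.h := by
    have a1 : (wp.l : ℝ) ≤ wp.h := hw.le
    have a2 : (Ap.l : ℝ) ≤ Ap.h := hA.le
    have a3 : (ip.l : ℝ) ≤ ip.h := hi.le
    have a4 : (wp.h : ℝ) ≤ Ap.l + ip.l := by exact_mod_cast hh'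
    have a5 : (wp.l : ℝ) ≤ Ap.h + ip.h := by linarith
    exact_mod_cast a5
  constructor
  · simp only [addI, Nat.add_eq, Nat.sub_eq]
    rw [Nat.cast_sub hh', Nat.cast_add, e]; linarith
  · simp only [addI, Nat.add_eq, Nat.sub_eq]
    rw [Nat.cast_sub hle, Nat.cast_add, e]; linarith

theorem dU_two (a D : ℕ) (hD : 0 < D) :
    (a : ℝ) * (SS : ℝ) ^ 2 ≤ ((dU (dU a D) D : ℕ) : ℝ) * (D : ℝ) ^ 2 := by
  have h1 := dU_ge a D hD
  have h2 := dU_ge (dU a D) D hD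
  have hS := SS_pos
  have hD' : (0 : ℝ) < D := by exact_mod_cast hD
  calc (a : ℝ) * (SS : ℝ) ^ 2 = ((a : ℝ) * SS) * SS := by ring
    _ ≤ (((dU a D : ℕ) : ℝ) * D) * SS := mul_le_mul_of_nonneg_right h1 hS.le
    _ = (((dU a D : ℕ) : ℝ) * SS) * D := by ring
    _ ≤ (((dU (dU a D) D : ℕ) : ℝ) * D) * D := mul_le_mul_of_nonneg_right h2 hD'.le
    _ = _ := by ring

theorem dD_two (a D : ℕ) :
    ((dD (dD a D) D : ℕ) : ℝ) * (D : ℝ) ^ 2 ≤ (a : ℝ) * (SS : ℝ) ^ 2 := by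
  have h1 := dD_le a D
  have h2 := dD_le (dD a D) D
  have hS := SS_pos
  have hD' : (0 : ℝ) ≤ D := Nat.cast_nonneg _
  calc ((dD (dD a D) D : ℕ) : ℝ) * (D : ℝ) ^ 2
      = (((dD (dD a D) D : ℕ) : ℝ) * D) * D := by ring
    _ ≤ (((dD a D : ℕ) : ℝ) * SS) * D := mul_le_mul_of_nonneg_right h2 hD'
    _ = (((dD a D : ℕ) : ℝ) * D) * SS := by ring
    _ ≤ ((a : ℝ) * SS) * SS := mul_le_mul_of_nonneg_right h1 hS.le
    _ = _ := by ring

theorem Rf_scale (a D : ℝ) (hD : D ≠ 0) (hS : (SS : ℝ) ≠ 0) :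
    Rf (a / SS) (D / SS) * SS = (a + D) * (SS : ℝ) ^ 2 / D ^ 2 := by
  unfold Rf
  field_simp

theorem enc_R {A d : ℝ} {Ap Dp : I} (hA : Enc A Ap) (hD : EncD A d Ap Dp) (h1 : 1 ≤ Dp.l) :
    0 < d ∧ Enc (Rf A d) (rI Ap Dp) := by
  have hS := SS_pos
  have hA0 := hA.nonneg
  obtain ⟨hA1, hA2⟩ := hA
  obtain ⟨hD1, hD2⟩ := hD
  have hDl : (0 : ℝ) < Dp.l := by exact_mod_cast h1
  have hdS : 0 < d * SS := by linarith
  have hd : 0 < d := (mul_pos_iff_of_pos_right hS).1 hdS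
  have hDh : (0 : ℝ) < Dp.h := by linarith
  have hDh' : 0 < Dp.h := by exact_mod_cast hDh
  refine ⟨hd, ?_, ?_⟩
  · -- lower end: compare with the upper endpoints
    have h2 : Rf ((Ap.h : ℝ) / SS) ((Dp.h : ℝ) / SS) ≤ Rf A d := by
      apply R_up hA0
      · rw [le_div_iff₀ hS]; exact hA2
      · exact hd
      · rw [le_div_iff₀ hS] at *
        have e : (d + ((Ap.h : ℝ) / SS - A)) * SS = d * SS + ((Ap.h : ℝ) - A * SS) := by
          field_simp
        rw [e]; exact hD2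
    have h3 := Rf_scale (Ap.h : ℝ) (Dp.h : ℝ) hDh.ne' hS.ne'
    have h4 := dD_two (Nat.add Ap.h Dp.h) Dp.h
    have h5 : ((Nat.add Ap.h Dp.h : ℕ) : ℝ) = (Ap.h : ℝ) + Dp.h := by
      simp only [Nat.add_eq, Nat.cast_add]
    rw [h5] at h4
    show ((dD (dD (Nat.add Ap.h Dp.h) Dp.h) Dp.h : ℕ) : ℝ) ≤ Rf A d * SS
    calc ((dD (dD (Nat.add Ap.h Dp.h) Dp.h) Dp.h : ℕ) : ℝ)
        ≤ ((Ap.h : ℝ) + Dp.h) * (SS : ℝ) ^ 2 / (Dp.h : ℝ) ^ 2 := by
          rw [le_div_iff₀ (by positivity)]; exact h4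
      _ = Rf ((Ap.h : ℝ) / SS) ((Dp.h : ℝ) / SS) * SS := h3.symm
      _ ≤ Rf A d * SS := mul_le_mul_of_nonneg_right h2 hS.le
  · -- upper end: compare with the lower endpoints
    have h2 : Rf A d ≤ Rf ((Ap.l : ℝ) / SS) ((Dp.l : ℝ) / SS) := by
      apply R_up (by positivity)
      · rw [div_le_iff₀ hS]; exact hA1
      · positivity
      · have e : ((Dp.l : ℝ) / SS + (A - (Ap.l : ℝ) / SS)) * SS
            = (Dp.l : ℝ) + (A * SS - Ap.l) := by
          field_simp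
        have h7 : ((Dp.l : ℝ) / SS + (A - (Ap.l : ℝ) / SS)) * SS ≤ d * SS := by
          rw [e]; exact hD1
        exact le_of_mul_le_mul_right h7 hS
    have h3 := Rf_scale (Ap.l : ℝ) (Dp.l : ℝ) hDl.ne' hS.ne'
    have h4 := dU_two (Nat.add Ap.l Dp.l) Dp.l h1
    have h5 : ((Nat.add Ap.l Dp.l : ℕ) : ℝ) = (Ap.l : ℝ) + Dp.l := by
      simp only [Nat.add_eq, Nat.cast_add]
    rw [h5] at h4
    show Rf A d * SS ≤ ((dU (dU (Nat.add Ap.l Dp.l) Dp.l) Dp.l : ℕ) : ℝ)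
    calc Rf A d * SS ≤ Rf ((Ap.l : ℝ) / SS) ((Dp.l : ℝ) / SS) * SS :=
          mul_le_mul_of_nonneg_right h2 hS.le
      _ = ((Ap.l : ℝ) + Dp.l) * (SS : ℝ) ^ 2 / (Dp.l : ℝ) ^ 2 := h3
      _ ≤ _ := by
          rw [div_le_iff₀ (by positivity)]; exact h4

theorem maxN_left (a b : ℕ) : a ≤ maxN a b := by
  unfold maxN
  cases h : Nat.ble a b with
  | true => simpa using Nat.le_of_ble_eq_true h
  | false => simp

theorem maxN_right (a b : ℕ) : b ≤ maxN a b := by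
  unfold maxN
  cases h : Nat.ble a b with
  | true => simp
  | false =>
    have : ¬ a ≤ b := fun hh => by simp [Nat.ble_eq_true_of_le hh] at h
    simp only [cond_false]
    omega

theorem cast_trunc (a b : ℕ) : (a : ℝ) - b ≤ ((Nat.sub a b : ℕ) : ℝ) := by
  rcases le_total b a with h | h
  · simp only [Nat.sub_eq]; rw [Nat.cast_sub h]
  · have : (a : ℝ) ≤ b := by exact_mod_cast h
    have h2 : (0 : ℝ) ≤ ((Nat.sub a b : ℕ) : ℝ) := Nat.cast_nonneg _
    linarith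

/-- Soundness of the final test of the stable form. -/
theorem tailII_sound {t q r1 r2 : ℝ} {tI qI r1I r2I : I} (ht : Enc t tI) (hq : Enc q qI)
    (h1 : Enc r1 r1I) (h2 : Enc r2 r2I) (h : tailII tI qI r1I r2I = true) :
    ((625 / 81) * q ^ 2 * (r1 - r2)) ^ 2 * (1 + (9 / 4) * t) ≤ 193 / 10 := by
  have hS := SS_pos
  have hq0 := hq.nonneg
  have ht0 := ht.nonneg
  simp only [tailII, force_eq, Nat.ble_eq] at h
  set rd := maxN (Nat.sub r1I.h r2I.l) (Nat.sub r2I.h r1I.l) with hrd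
  set q2 := mU qI.h qI.h with hq2
  set y := Nat.mul 625 (mU q2 rd) with hy
  -- bound of the difference
  have d1 : |r1 - r2| * SS ≤ (rd : ℝ) := by
    have a1 : ((Nat.sub r1I.h r2I.l : ℕ) : ℝ) ≤ rd := by exact_mod_cast maxN_left _ _
    have a2 : ((Nat.sub r2I.h r1I.l : ℕ) : ℝ) ≤ rd := by exact_mod_cast maxN_right _ _
    have a3 := cast_trunc r1I.h r2I.l
    have a4 := cast_trunc r2I.h r1I.l
    have b1 := h1.1
    have b2 := h1.2
    have b3 := h2.1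
    have b4 := h2.2
    rcases abs_cases (r1 - r2) with ⟨e, _⟩ | ⟨e, _⟩
    · rw [e]
      have : (r1 - r2) * (SS : ℝ) = r1 * SS - r2 * SS := by ring
      rw [this]; linarith
    · rw [e]
      have : -(r1 - r2) * (SS : ℝ) = r2 * SS - r1 * SS := by ring
      rw [this]; linarith
  have d2 : q ^ 2 * SS ≤ (q2 : ℝ) := by
    have a1 := mU_ge qI.h qI.h
    have a2 : (q * SS) * (q * SS) ≤ (qI.h : ℝ) * qI.h :=
      mul_le_mul hq.2 hq.2 (by positivity) (Nat.cast_nonneg _)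
    have a3 : (q ^ 2 * SS) * SS ≤ (q2 : ℝ) * SS := by
      calc (q ^ 2 * SS) * SS = (q * SS) * (q * SS) := by ring
        _ ≤ _ := a2
        _ ≤ _ := a1
    exact le_of_mul_le_mul_right a3 hS
  have d3 : (q ^ 2 * |r1 - r2|) * SS ≤ ((mU q2 rd : ℕ) : ℝ) := by
    have a1 := mU_ge q2 rd
    have a2 : (q ^ 2 * SS) * (|r1 - r2| * SS) ≤ (q2 : ℝ) * rd :=
      mul_le_mul d2 d1 (by positivity) (Nat.cast_nonneg _)
    have a3 : ((q ^ 2 * |r1 - r2|) * SS) * SS ≤ ((mU q2 rd : ℕ) : ℝ) * SS := by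
      calc ((q ^ 2 * |r1 - r2|) * SS) * SS = (q ^ 2 * SS) * (|r1 - r2| * SS) := by ring
        _ ≤ _ := a2
        _ ≤ _ := a1
    exact le_of_mul_le_mul_right a3 hS
  have d4 : 625 * (q ^ 2 * |r1 - r2|) * SS ≤ (y : ℝ) := by
    have e : (y : ℝ) = 625 * ((mU q2 rd : ℕ) : ℝ) := by
      simp only [hy, Nat.mul_eq]; push_cast; ring
    rw [e]
    calc 625 * (q ^ 2 * |r1 - r2|) * SS = 625 * ((q ^ 2 * |r1 - r2|) * SS) := by ring
      _ ≤ _ := mul_le_mul_of_nonneg_left d3 (by norm_num)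
  have d5 : (1 + (9 / 4) * t) * (4 * SS) ≤ 4 * SS + 9 * (tI.h : ℝ) := by
    have h2 := ht.2
    have e : (1 + (9 / 4) * t) * (4 * (SS : ℝ)) = 4 * SS + 9 * (t * SS) := by ring
    rw [e]
    linarith
  have d6 : (y : ℝ) * y * (4 * SS + 9 * (tI.h : ℝ)) * 10 ≤ 5065092 * ((SS : ℝ) * (SS * SS)) := by
    have h' : y * y * (4 * SS + 9 * tI.h) * 10 ≤ 5065092 * (SS * (SS * SS)) := h
    have h'' := (Nat.cast_le (α := ℝ)).2 h'
    simp only [Nat.cast_mul, Nat.cast_add, Nat.cast_ofNat] at h''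
    exact h''
  set Y := q ^ 2 * |r1 - r2| with hY
  have hY0 : 0 ≤ Y := by positivity
  have d7 : (625 * Y * SS) * (625 * Y * SS) ≤ (y : ℝ) * y :=
    mul_le_mul d4 d4 (by positivity) (Nat.cast_nonneg _)
  have ht1 : 0 ≤ 1 + (9 / 4) * t := by positivity
  have d8 : ((625 * Y * SS) * (625 * Y * SS)) * ((1 + (9 / 4) * t) * (4 * SS))
      ≤ (y : ℝ) * y * (4 * SS + 9 * (tI.h : ℝ)) :=
    mul_le_mul d7 d5 (by positivity) (by positivity)
  have d9 : ((625 * Y) ^ 2 * (1 + (9 / 4) * t) * 40) * ((SS : ℝ) * (SS * SS))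
      ≤ 5065092 * ((SS : ℝ) * (SS * SS)) := by
    have e : ((625 * Y) ^ 2 * (1 + (9 / 4) * t) * 40) * ((SS : ℝ) * (SS * SS))
        = ((625 * Y * SS) * (625 * Y * SS)) * ((1 + (9 / 4) * t) * (4 * SS)) * 10 := by ring
    rw [e]
    linarith
  have d10 := le_of_mul_le_mul_right d9 (by positivity)
  have e : ((625 / 81) * q ^ 2 * (r1 - r2)) ^ 2 = (625 * Y) ^ 2 / 6561 := by
    have : (r1 - r2) ^ 2 = |r1 - r2| ^ 2 := (sq_abs _).symm
    rw [hY, mul_pow, mul_pow, mul_pow, mul_pow, this]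
    ring
  rw [e]
  have : (625 * Y) ^ 2 / 6561 * (1 + (9 / 4) * t) = ((625 * Y) ^ 2 * (1 + (9 / 4) * t) * 40) / 262440 := by
    ring
  rw [this, div_le_iff₀ (by norm_num)]
  linarith

/-- The real functions entering the stable form. -/
noncomputable def A1f (t b : ℝ) : ℝ := Real.sqrt (1 + (16 - 8 * b) * t)
/-- The second root. -/
noncomputable def A2f (t b : ℝ) : ℝ := Real.sqrt (16 + t - 8 * (b * t))
/-- The root of `ff`. -/
noncomputable def Cf (t b : ℝ) : ℝ := Real.sqrt (1 + t + 2 * (b * t))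
/-- `3 d1`. -/
noncomputable def D1f (t b : ℝ) : ℝ :=
  A1f t b + 1 / Cf t b - (4 * t + 3 * (b * t)) * (1 / Cf t b)
/-- `3 d2`. -/
noncomputable def D2f (t b : ℝ) : ℝ :=
  A2f t b + (4 + 3 * (b * t) - t) * (1 / Cf t b)

/-- The conclusion of the check for the stable form. -/
def GoalII (t b : ℝ) : Prop :=
  0 < D1f t b ∧ 0 < D2f t b ∧
    ((625 / 81) * ((1 - b * (b * t)) / (1 + t + 2 * (b * t))) ^ 2
      * (Rf (A1f t b) (D1f t b) - Rf (A2f t b) (D2f t b))) ^ 2 * (1 + (9 / 4) * t) ≤ 193 / 10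

theorem chkII_sound (t b : ℝ) (p q : I) (ht : Enc t p) (hb : Enc b q)
    (h : chkII p q = true) : GoalII t b := by
  unfold chkII at h
  have c1 : Enc 1 (cI 1) := by simpa using enc_c 1
  have c4 : Enc 4 (cI 4) := by simpa using enc_c 4
  have c16 : Enc 16 (cI 16) := by simpa using enc_c 16
  refine bindE (enc_mul hb ht) h fun bt hbt h => ?_
  have h8b : Enc (8 * b) (smulI 8 q) := by simpa using enc_smul 8 hb
  refine bindSub c16 h8b h fun u hu h => ?_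
  refine bindE (enc_add c1 (enc_mul hu ht)) h fun pa1 hpa1 h => ?_
  have h8bt : Enc (8 * (b * t)) (smulI 8 bt) := by simpa using enc_smul 8 hbt
  refine bindSub (enc_add c16 ht) h8bt h fun pa2 hpa2 h => ?_
  have h2bt : Enc (2 * (b * t)) (smulI 2 bt) := by simpa using enc_smul 2 hbt
  refine bindE (enc_add (enc_add c1 ht) h2bt) h fun ff hff h => ?_
  have h4t : Enc (4 * t) (smulI 4 p) := by simpa using enc_smul 4 ht
  have h3bt : Enc (3 * (b * t)) (smulI 3 bt) := by simpa using enc_smul 3 hbt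
  refine bindE (enc_add h4t h3bt) h fun n1 hn1 h => ?_
  refine bindSub (enc_add c4 h3bt) ht h fun n2 hn2 h => ?_
  refine bindE (enc_mul hb hbt) h fun b2t hb2t h => ?_
  refine bindSub c1 hb2t h fun e he h => ?_
  refine bindSqrt hpa1 h fun A1 hA1 h => ?_
  refine bindSqrt hpa2 h fun A2 hA2 h => ?_
  refine bindSqrt hff h fun C hC h => ?_
  refine bindDiv c1 hC h fun inv hinv h => ?_
  refine bindE (enc_mul hn1 hinv) h fun w1 hw1 h => ?_
  refine bindE (enc_mul hn2 hinv) h fun w2 hw2 h => ?_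
  refine bindS (P := EncD _ (D1f t b) A1) (fun hh => encD_sub hA1 hinv hw1 hh) h
    fun D1 hD1 h => ?_
  refine bindF (P := EncD _ (D2f t b) A2) (encD_add hw2) h fun D2 hD2 h => ?_
  simp only [Bool.and_eq_true, Nat.ble_eq] at h
  obtain ⟨g1, g2, h⟩ := h
  obtain ⟨pos1, hr1⟩ := enc_R hA1 hD1 g1
  obtain ⟨pos2, hr2⟩ := enc_R hA2 hD2 g2
  refine ⟨pos1, pos2, ?_⟩
  refine bindE hr1 h fun r1 hr1 h => ?_
  refine bindE hr2 h fun r2 hr2 h => ?_
  refine bindDiv he hff h fun q' hq' h => ?_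
  exact tailII_sound ht hq' hr1 hr2 h

end Vale.Agent.Lib.P226.NumF
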