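import Mathlib
import Vale.Agent.Lib.P226.NumFDefs

/-!
Soundness of the fixed point interval arithmetic of `NumFDefs`.
-/

namespace Vale.Agent.Lib.P226.NumF

/-- `p` encloses the real number `v`, at the scale `SS`. -/
def Enc (v : ℝ) (p : I) : Prop := (p.l : ℝ) ≤ v * (SS : ℝ) ∧ v * (SS : ℝ) ≤ (p.h : ℝ)

theorem SS_pos : (0 : ℝ) < (SS : ℝ) := by norm_num [SS]

theorem SS_eq_pow : (SS : ℕ) = 2 ^ 24 := by norm_num [SS]

theorem force_eq (n : ℕ) (c : ℕ → Bool) : force n c = c n := by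
  cases n <;> rfl

theorem forceI_eq (p : I) (c : I → Bool) : forceI p c = c p := by
  cases p; simp [forceI, force_eq]

theorem Enc.nonneg {v : ℝ} {p : I} (h : Enc v p) : 0 ≤ v := by
  have h1 : (0 : ℝ) ≤ v * (SS : ℝ) := le_trans (Nat.cast_nonneg _) h.1
  exact nonneg_of_mul_nonneg_left h1 SS_pos

theorem Enc.le {v : ℝ} {p : I} (h : Enc v p) : (p.l : ℝ) ≤ p.h := le_trans h.1 h.2

theorem enc_c (k : ℕ) : Enc (k : ℝ) (cI k) := by
  constructor <;> simp [cI]

theorem enc_add {u v : ℝ} {p q : I} (hp : Enc u p) (hq : Enc v q) : Enc (u + v) (addI p q) := by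
  constructor
  · simp only [addI, Nat.add_eq, Nat.cast_add]; nlinarith [hp.1, hq.1]
  · simp only [addI, Nat.add_eq, Nat.cast_add]; nlinarith [hp.2, hq.2]

theorem enc_smul (k : ℕ) {v : ℝ} {p : I} (hp : Enc v p) : Enc ((k : ℝ) * v) (smulI k p) := by
  have hk : (0 : ℝ) ≤ k := Nat.cast_nonneg _
  constructor
  · simp only [smulI, Nat.mul_eq, Nat.cast_mul]; nlinarith [hp.1]
  · simp only [smulI, Nat.mul_eq, Nat.cast_mul]; nlinarith [hp.2]

theorem shr_eq (a : ℕ) : Nat.shiftRight a 24 = a / SS := by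
  have h := Nat.shiftRight_eq_div_pow a 24
  rw [SS_eq_pow]
  exact h

theorem shl_eq (a : ℕ) : Nat.shiftLeft a 24 = a * SS := by
  have h := Nat.shiftLeft_eq a 24
  rw [SS_eq_pow]
  exact h

theorem ndiv_eq (a b : ℕ) : Nat.div a b = a / b := rfl

theorem SS_npos : 0 < SS := by norm_num [SS]

theorem mD_le (a b : ℕ) : ((mD a b : ℕ) : ℝ) * (SS : ℝ) ≤ (a : ℝ) * b := by
  have h : mD a b * SS ≤ a * b := by
    simp only [mD, Nat.mul_eq, shr_eq]
    exact Nat.div_mul_le_self _ _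
  exact_mod_cast h

theorem mU_ge (a b : ℕ) : (a : ℝ) * b ≤ ((mU a b : ℕ) : ℝ) * (SS : ℝ) := by
  have h : a * b ≤ mU a b * SS := by
    simp only [mU, Nat.mul_eq, Nat.add_eq, shr_eq]
    have h1 := Nat.lt_div_mul_add (a := a * b) SS_npos
    rw [Nat.add_mul, Nat.one_mul]
    exact h1.le
  exact_mod_cast h

theorem dD_le (a b : ℕ) : ((dD a b : ℕ) : ℝ) * (b : ℝ) ≤ (a : ℝ) * (SS : ℝ) := by
  have h : dD a b * b ≤ a * SS := by
    simp only [dD, shl_eq, ndiv_eq]
    exact Nat.div_mul_le_self _ _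
  exact_mod_cast h

theorem dU_ge (a b : ℕ) (hb : 0 < b) : (a : ℝ) * (SS : ℝ) ≤ ((dU a b : ℕ) : ℝ) * (b : ℝ) := by
  have h : a * SS ≤ dU a b * b := by
    simp only [dU, Nat.add_eq, shl_eq, ndiv_eq]
    have h1 := Nat.lt_div_mul_add (a := a * SS) hb
    rw [Nat.add_mul, Nat.one_mul]
    exact h1.le
  exact_mod_cast h

theorem enc_mul {u v : ℝ} {p q : I} (hp : Enc u p) (hq : Enc v q) : Enc (u * v) (mulI p q) := by
  have hS := SS_pos
  have hu := hp.nonneg
  have hv := hq.nonneg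
  constructor
  · have h1 := mD_le p.l q.l
    have h2 : (p.l : ℝ) * q.l ≤ (u * SS) * (v * SS) :=
      mul_le_mul hp.1 hq.1 (Nat.cast_nonneg _) (by positivity)
    have h3 : ((mD p.l q.l : ℕ) : ℝ) * (SS : ℝ) ≤ (u * v * SS) * SS := by nlinarith
    exact le_of_mul_le_mul_right h3 hS
  · have h1 := mU_ge p.h q.h
    have h2 : (u * SS) * (v * SS) ≤ (p.h : ℝ) * q.h :=
      mul_le_mul hp.2 hq.2 (by positivity) (Nat.cast_nonneg _)
    have h3 : (u * v * SS) * SS ≤ ((mU p.h q.h : ℕ) : ℝ) * (SS : ℝ) := by nlinarith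
    exact le_of_mul_le_mul_right h3 hS

theorem enc_div {u v : ℝ} {p q : I} (hp : Enc u p) (hq : Enc v q) (h0 : 0 < q.l) :
    Enc (u / v) (divI p q) := by
  have hS := SS_pos
  have hu := hp.nonneg
  have hql : (0 : ℝ) < q.l := by exact_mod_cast h0
  have hvS : 0 < v * SS := lt_of_lt_of_le hql hq.1
  have hv : 0 < v := (mul_pos_iff_of_pos_right hS).1 hvS
  have hqh : (0 : ℝ) < q.h := lt_of_lt_of_le hvS hq.2
  have hqh' : 0 < q.h := by exact_mod_cast hqh
  constructor
  · -- lower end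
    have h1 := dD_le p.l q.h
    have e : u / v * SS * v = u * SS := by field_simp
    have h2 : ((dD p.l q.h : ℕ) : ℝ) * (v * SS) ≤ (u / v * SS) * v * SS := by
      rw [e]
      have h3 : ((dD p.l q.h : ℕ) : ℝ) * (v * SS) ≤ ((dD p.l q.h : ℕ) : ℝ) * (q.h : ℝ) :=
        mul_le_mul_of_nonneg_left hq.2 (Nat.cast_nonneg _)
      have h4 : (p.l : ℝ) * SS ≤ (u * SS) * SS := mul_le_mul_of_nonneg_right hp.1 hS.le
      linarith
    have h5 : ((dD p.l q.h : ℕ) : ℝ) * (v * SS) ≤ (u / v * SS) * (v * SS) := by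
      calc _ ≤ _ := h2
        _ = _ := by ring
    exact le_of_mul_le_mul_right h5 hvS
  · have h1 := dU_ge p.h q.l h0
    have e : u / v * SS * v = u * SS := by field_simp
    have h2 : (u / v * SS) * v * SS ≤ ((dU p.h q.l : ℕ) : ℝ) * (v * SS) := by
      rw [e]
      have h3 : ((dU p.h q.l : ℕ) : ℝ) * (q.l : ℝ) ≤ ((dU p.h q.l : ℕ) : ℝ) * (v * SS) :=
        mul_le_mul_of_nonneg_left hq.1 (Nat.cast_nonneg _)
      have h4 : (u * SS) * SS ≤ (p.h : ℝ) * SS := mul_le_mul_of_nonneg_right hp.2 hS.le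
      linarith
    have h5 : (u / v * SS) * (v * SS) ≤ ((dU p.h q.l : ℕ) : ℝ) * (v * SS) := by
      calc _ = _ := by ring
        _ ≤ _ := h2
    exact le_of_mul_le_mul_right h5 hvS

/-- Generic bind for a forced interval. -/
theorem bindF {P : I → Prop} {p : I} {c : I → Bool} {G : Prop} (hp : P p)
    (h : forceI p c = true) (k : ∀ q, P q → c q = true → G) : G := by
  rw [forceI_eq] at h
  exact k p hp h

/-- Generic bind for a checked difference. -/
theorem bindS {P : I → Prop} {p q : I} {c : I → Bool} {G : Prop}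
    (hp : q.h ≤ p.l → P ⟨Nat.sub p.l q.h, Nat.sub p.h q.l⟩)
    (h : subC p q c = true) (k : ∀ r, P r → c r = true → G) : G := by
  simp only [subC, Bool.and_eq_true, Nat.ble_eq, forceI_eq] at h
  exact k _ (hp h.1) h.2

theorem enc_sub_of {u v : ℝ} {p q : I} (hp : Enc u p) (hq : Enc v q) (h : q.h ≤ p.l) :
    Enc (u - v) ⟨Nat.sub p.l q.h, Nat.sub p.h q.l⟩ := by
  have hle : q.l ≤ p.h := by
    have h1 : (q.l : ℝ) ≤ p.h := by
      have h2 := hq.le
      have h3 := hp.le
      have h4 : (q.h : ℝ) ≤ p.l := by exact_mod_cast h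
      linarith
    exact_mod_cast h1
  constructor
  · simp only [Nat.sub_eq]
    rw [Nat.cast_sub h]
    nlinarith [hp.1, hq.2]
  · simp only [Nat.sub_eq]
    rw [Nat.cast_sub hle]
    nlinarith [hp.2, hq.1]

/-- Bind for a checked difference of enclosures. -/
theorem bindSub {u v : ℝ} {p q : I} {c : I → Bool} {G : Prop} (hp : Enc u p) (hq : Enc v q)
    (h : subC p q c = true) (k : ∀ r, Enc (u - v) r → c r = true → G) : G :=
  bindS (fun hh => enc_sub_of hp hq hh) h k

/-- Bind for a checked quotient. -/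
theorem bindDiv {u v : ℝ} {p q : I} {c : I → Bool} {G : Prop} (hp : Enc u p) (hq : Enc v q)
    (h : divC p q c = true) (k : ∀ r, Enc (u / v) r → c r = true → G) : G := by
  simp only [divC, Bool.and_eq_true, Nat.ble_eq, forceI_eq] at h
  exact k _ (enc_div hp hq (by omega)) h.2

/-- Bind for a checked square root. -/
theorem bindSqrt {v : ℝ} {p : I} {r0 : ℕ} {c : I → Bool} {G : Prop} (hp : Enc v p)
    (h : sqrtC r0 p c = true) (k : ∀ r, Enc (Real.sqrt v) r → c r = true → G) : G := by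
  have hv := hp.nonneg
  have hS := SS_pos
  have hsq : Real.sqrt v * Real.sqrt v = v := Real.mul_self_sqrt hv
  have hs0 : 0 ≤ Real.sqrt v := Real.sqrt_nonneg v
  have key : ∃ rl rh : ℕ, rl * rl ≤ p.l * SS ∧ p.h * SS ≤ rh * rh ∧ c ⟨rl, rh⟩ = true := by
    simp only [sqrtC, force_eq, Bool.and_eq_true, Nat.ble_eq, shl_eq, Nat.mul_eq] at h
    exact ⟨_, _, h.1, h.2.1, h.2.2⟩
  obtain ⟨rl, rh, h1, h2, h3⟩ := key
  refine k ⟨rl, rh⟩ ⟨?_, ?_⟩ h3
  · have h4 : (rl : ℝ) * rl ≤ p.l * SS := by exact_mod_cast h1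
    have h5 : (p.l : ℝ) * SS ≤ (v * SS) * SS := mul_le_mul_of_nonneg_right hp.1 hS.le
    have h6 : (Real.sqrt v * SS) * (Real.sqrt v * SS) = (v * SS) * SS := by
      calc _ = (Real.sqrt v * Real.sqrt v) * SS * SS := by ring
        _ = _ := by rw [hsq]
    show (rl : ℝ) ≤ Real.sqrt v * SS
    have h7 : 0 ≤ Real.sqrt v * SS := mul_nonneg hs0 hS.le
    refine (mul_self_le_mul_self_iff (Nat.cast_nonneg _) h7).2 ?_
    rw [h6]
    exact le_trans h4 h5
  · have h4 : (p.h : ℝ) * SS ≤ (rh : ℝ) * rh := by exact_mod_cast h2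
    have h5 : (v * SS) * SS ≤ (p.h : ℝ) * SS := mul_le_mul_of_nonneg_right hp.2 hS.le
    have h6 : (Real.sqrt v * SS) * (Real.sqrt v * SS) = (v * SS) * SS := by
      calc _ = (Real.sqrt v * Real.sqrt v) * SS * SS := by ring
        _ = _ := by rw [hsq]
    show Real.sqrt v * SS ≤ (rh : ℝ)
    have h7 : 0 ≤ Real.sqrt v * SS := mul_nonneg hs0 hS.le
    refine (mul_self_le_mul_self_iff h7 (Nat.cast_nonneg _)).2 ?_
    rw [h6]
    exact le_trans h5 h4

/-- Soundness of the recursive cover. -/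
theorem cover_sound {chk : I → I → Bool} {w : ℕ} {G : ℝ → ℝ → Prop}
    (hchk : ∀ (t b : ℝ) (p q : I), Enc t p → Enc b q → chk p q = true → G t b) :
    ∀ (f tl th bl bh : ℕ), cover chk w f tl th bl bh = true →
      ∀ t b : ℝ, Enc t ⟨tl, th⟩ → Enc b ⟨bl, bh⟩ → G t b := by
  intro f
  induction f with
  | zero =>
    intro tl th bl bh h t b ht hb
    exact hchk t b _ _ ht hb h
  | succ f ih =>
    intro tl th bl bh h t b ht hb
    rw [cover] at h
    simp only [force_eq] at h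
    cases hc : chk ⟨tl, th⟩ ⟨bl, bh⟩ with
    | true => exact hchk t b _ _ ht hb hc
    | false =>
      rw [hc] at h
      simp only [cond_false] at h
      cases hs : Nat.ble (Nat.sub bh bl) (Nat.mul w (Nat.sub th tl)) with
      | true =>
        rw [hs] at h
        simp only [cond_true] at h
        cases h1 : cover chk w f tl (mid tl th) bl bh with
        | false => rw [h1] at h; simp at h
        | true =>
          rw [h1] at h
          simp only [cond_true] at h
          rcases le_total (t * (SS : ℝ)) ((mid tl th : ℕ) : ℝ) with hm | hm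
          · exact ih _ _ _ _ h1 t b ⟨ht.1, hm⟩ hb
          · exact ih _ _ _ _ h t b ⟨hm, ht.2⟩ hb
      | false =>
        rw [hs] at h
        simp only [cond_false] at h
        cases h1 : cover chk w f tl th bl (mid bl bh) with
        | false => rw [h1] at h; simp at h
        | true =>
          rw [h1] at h
          simp only [cond_true] at h
          rcases le_total (b * (SS : ℝ)) ((mid bl bh : ℕ) : ℝ) with hm | hm
          · exact ih _ _ _ _ h1 t b ht ⟨hb.1, hm⟩
          · exact ih _ _ _ _ h t b ht ⟨hm, hb.2⟩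

end Vale.Agent.Lib.P226.NumF
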