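import Vale.Agent.Lib.P226.Basic

/-!
The pyramid integral: `∫∫ max 0 (min u (min v (C - u - v))) du dv = (C_+)^3 / 18`, and the truncated
tent integral used in the tent bound.
-/

open MeasureTheory Set

namespace Vale.Agent.Lib.P226

/-- The pyramid over the triangle `u, v, C - u - v ≥ 0`. -/
noncomputable def pyr (C u v : ℝ) : ℝ := max 0 (min u (min v (C - u - v)))

/-- The truncated pyramid. -/
noncomputable def tentT (C s u v : ℝ) : ℝ := max 0 (min u (min v (min (C - u - v) s)))

/-- The value of the double integral of the truncated pyramid. -/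
noncomputable def Hfun (C s : ℝ) : ℝ :=
  if 0 < s then (max C 0) ^ 3 / 18 - (max (C - 3 * s) 0) ^ 3 / 18 else 0

theorem pyr_nonneg (C u v : ℝ) : 0 ≤ pyr C u v := le_max_left _ _

theorem tentT_nonneg (C s u v : ℝ) : 0 ≤ tentT C s u v := le_max_left _ _

theorem continuous_pyr (C : ℝ) : Continuous (fun z : ℝ × ℝ => pyr C z.1 z.2) := by
  unfold pyr; fun_prop

theorem continuous_tentT (C s : ℝ) : Continuous (fun z : ℝ × ℝ => tentT C s z.1 z.2) := by
  unfold tentT; fun_prop

/-- outside the triangle the pyramid vanishes -/
theorem pyr_eq_zero {C u v : ℝ} (h : u ≤ 0 ∨ v ≤ 0 ∨ C - u - v ≤ 0) : pyr C u v = 0 := by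
  unfold pyr
  apply max_eq_left
  rcases h with h | h | h
  · exact (min_le_left _ _).trans h
  · exact (min_le_right _ _).trans ((min_le_left _ _).trans h)
  · exact (min_le_right _ _).trans ((min_le_right _ _).trans h)

theorem tentT_eq_zero {C s u v : ℝ} (h : u ≤ 0 ∨ v ≤ 0 ∨ C - u - v ≤ 0) : tentT C s u v = 0 := by
  unfold tentT
  apply max_eq_left
  rcases h with h | h | h
  · exact (min_le_left _ _).trans h
  · exact (min_le_right _ _).trans ((min_le_left _ _).trans h)
  · exact (min_le_right _ _).trans ((min_le_right _ _).trans ((min_le_left _ _).trans h))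

theorem hasCompactSupport_pyr (C : ℝ) : HasCompactSupport (fun z : ℝ × ℝ => pyr C z.1 z.2) := by
  apply HasCompactSupport.intro (K := Icc 0 |C| ×ˢ Icc 0 |C|) (isCompact_Icc.prod isCompact_Icc)
  rintro ⟨u, v⟩ hz
  apply pyr_eq_zero
  by_contra hcon
  push Not at hcon
  obtain ⟨hu, hv, huv⟩ := hcon
  apply hz
  have : C ≤ |C| := le_abs_self C
  exact ⟨⟨hu.le, by simp only; linarith⟩, ⟨hv.le, by simp only; linarith⟩⟩

theorem hasCompactSupport_tentT (C s : ℝ) :
    HasCompactSupport (fun z : ℝ × ℝ => tentT C s z.1 z.2) := by
  apply HasCompactSupport.intro (K := Icc 0 |C| ×ˢ Icc 0 |C|) (isCompact_Icc.prod isCompact_Icc)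
  rintro ⟨u, v⟩ hz
  apply tentT_eq_zero
  by_contra hcon
  push Not at hcon
  obtain ⟨hu, hv, huv⟩ := hcon
  apply hz
  have : C ≤ |C| := le_abs_self C
  exact ⟨⟨hu.le, by simp only; linarith⟩, ⟨hv.le, by simp only; linarith⟩⟩

theorem integrable_pyr (C : ℝ) : Integrable (fun z : ℝ × ℝ => pyr C z.1 z.2) (volume.prod volume) :=
  (continuous_pyr C).integrable_of_hasCompactSupport (hasCompactSupport_pyr C)

theorem integrable_tentT (C s : ℝ) :
    Integrable (fun z : ℝ × ℝ => tentT C s z.1 z.2) (volume.prod volume) :=
  (continuous_tentT C s).integrable_of_hasCompactSupport (hasCompactSupport_tentT C s)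

theorem integrable_pyr_slice (C u : ℝ) : Integrable (fun v : ℝ => pyr C u v) := by
  have hc : Continuous (fun v : ℝ => pyr C u v) := by unfold pyr; fun_prop
  apply hc.integrable_of_hasCompactSupport
  apply HasCompactSupport.intro (K := Icc (-|C| - |u|) (|C| + |u|)) isCompact_Icc
  intro v hv
  apply pyr_eq_zero
  by_contra hcon
  push Not at hcon
  obtain ⟨hu, hv', huv⟩ := hcon
  apply hv
  have : C ≤ |C| := le_abs_self C
  have h2 : u ≤ |u| := le_abs_self u
  have h3 : 0 ≤ |C| := abs_nonneg C
  have h4 : 0 ≤ |u| := abs_nonneg u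
  exact ⟨by linarith, by linarith⟩

theorem integrable_tentT_slice (C s u : ℝ) : Integrable (fun v : ℝ => tentT C s u v) := by
  have hc : Continuous (fun v : ℝ => tentT C s u v) := by unfold tentT; fun_prop
  apply hc.integrable_of_hasCompactSupport
  apply HasCompactSupport.intro (K := Icc (-|C| - |u|) (|C| + |u|)) isCompact_Icc
  intro v hv
  apply tentT_eq_zero
  by_contra hcon
  push Not at hcon
  obtain ⟨hu, hv', huv⟩ := hcon
  apply hv
  have : C ≤ |C| := le_abs_self C
  have h2 : u ≤ |u| := le_abs_self u
  have h3 : 0 ≤ |C| := abs_nonneg C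
  have h4 : 0 ≤ |u| := abs_nonneg u
  exact ⟨by linarith, by linarith⟩

theorem integrable_integral_tentT (C s : ℝ) : Integrable (fun u : ℝ => ∫ v, tentT C s u v) :=
  (integrable_tentT C s).integral_prod_left

theorem integrable_integral_pyr (C : ℝ) : Integrable (fun u : ℝ => ∫ v, pyr C u v) :=
  (integrable_pyr C).integral_prod_left

/-- The trapezoid integral. -/
theorem trap_int {a u : ℝ} (ha : 0 ≤ a) (hu : 0 < u) :
    ∫ v : ℝ, max 0 (min u (min v (a - v))) = if 2 * u ≤ a then u * (a - u) else a ^ 2 / 4 := by
  have hc : Continuous (fun v : ℝ => max 0 (min u (min v (a - v)))) := by fun_prop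
  have h0 : ∫ v : ℝ, max 0 (min u (min v (a - v))) =
      ∫ v in (0 : ℝ)..a, max 0 (min u (min v (a - v))) := by
    rw [intervalIntegral.integral_of_le ha]
    symm
    apply setIntegral_eq_integral_of_forall_compl_eq_zero
    intro v hv
    apply max_eq_left
    simp only [mem_Ioc, not_and_or, not_lt, not_le] at hv
    rcases hv with hv | hv
    · exact (min_le_right _ _).trans ((min_le_left _ _).trans hv)
    · exact (min_le_right _ _).trans ((min_le_right _ _).trans (by linarith))
  rw [h0]
  have hi : ∀ p q : ℝ, IntervalIntegrable (fun v : ℝ => max 0 (min u (min v (a - v)))) volume p q :=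
    fun p q => hc.intervalIntegrable p q
  split_ifs with hcase
  · have h1 : ∫ v in (0 : ℝ)..u, max 0 (min u (min v (a - v))) = u ^ 2 / 2 := by
      have : ∫ v in (0 : ℝ)..u, max 0 (min u (min v (a - v))) = ∫ v in (0 : ℝ)..u, v := by
        apply intervalIntegral.integral_congr
        intro v hv
        rw [uIcc_of_le hu.le] at hv
        have h1 := hv.1; have h2 := hv.2
        simp only [max_def, min_def]
        split_ifs <;> linarith
      rw [this]; simp
    have h2 : ∫ v in u..(a - u), max 0 (min u (min v (a - v))) = (a - 2 * u) * u := by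
      have : ∫ v in u..(a - u), max 0 (min u (min v (a - v))) = ∫ _v in u..(a - u), u := by
        apply intervalIntegral.integral_congr
        intro v hv
        rw [uIcc_of_le (by linarith)] at hv
        have h1 := hv.1; have h2 := hv.2
        simp only [max_def, min_def]
        split_ifs <;> linarith
      rw [this, intervalIntegral.integral_const, smul_eq_mul]; ring
    have h3 : ∫ v in (a - u)..a, max 0 (min u (min v (a - v))) = u ^ 2 / 2 := by
      have : ∫ v in (a - u)..a, max 0 (min u (min v (a - v))) = ∫ v in (a - u)..a, (a - v) := by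
        apply intervalIntegral.integral_congr
        intro v hv
        rw [uIcc_of_le (by linarith)] at hv
        have h1 := hv.1; have h2 := hv.2
        simp only [max_def, min_def]
        split_ifs <;> linarith
      rw [this]
      rw [intervalIntegral.integral_comp_sub_left (fun x => x) a]
      simp
    rw [← intervalIntegral.integral_add_adjacent_intervals (hi 0 u) (hi u a), ← 
      intervalIntegral.integral_add_adjacent_intervals (hi u (a - u)) (hi (a - u) a), h1, h2, h3]
    ring
  · push Not at hcase
    have h1 : ∫ v in (0 : ℝ)..(a / 2), max 0 (min u (min v (a - v))) = (a / 2) ^ 2 / 2 := by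
      have : ∫ v in (0 : ℝ)..(a / 2), max 0 (min u (min v (a - v))) = ∫ v in (0 : ℝ)..(a / 2), v := by
        apply intervalIntegral.integral_congr
        intro v hv
        rw [uIcc_of_le (by linarith)] at hv
        have h1 := hv.1; have h2 := hv.2
        simp only [max_def, min_def]
        split_ifs <;> linarith
      rw [this]; simp
    have h3 : ∫ v in (a / 2)..a, max 0 (min u (min v (a - v))) = (a / 2) ^ 2 / 2 := by
      have : ∫ v in (a / 2)..a, max 0 (min u (min v (a - v))) = ∫ v in (a / 2)..a, (a - v) := by
        apply intervalIntegral.integral_congr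
        intro v hv
        rw [uIcc_of_le (by linarith)] at hv
        have h1 := hv.1; have h2 := hv.2
        simp only [max_def, min_def]
        split_ifs <;> linarith
      rw [this]
      rw [intervalIntegral.integral_comp_sub_left (fun x => x) a]
      have : a - a / 2 = a / 2 := by ring
      simp [this]
    rw [← intervalIntegral.integral_add_adjacent_intervals (hi 0 (a / 2)) (hi (a / 2) a), h1, h3]
    ring

/-- The slice integral of the pyramid. -/
theorem slice_pyr {C u : ℝ} (hu : 0 < u) (huC : u ≤ C) :
    ∫ v : ℝ, pyr C u v = if 3 * u ≤ C then u * (C - 2 * u) else (C - u) ^ 2 / 4 := by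
  have : (fun v : ℝ => pyr C u v) = fun v => max 0 (min u (min v ((C - u) - v))) := rfl
  rw [this, trap_int (by linarith) hu]
  by_cases h : 3 * u ≤ C
  · rw [if_pos h, if_pos (by linarith)]; ring
  · rw [if_neg h, if_neg (by linarith)]

/-- The pyramid integral. -/
theorem pyr_int (C : ℝ) : ∫ u : ℝ, ∫ v : ℝ, pyr C u v = (max C 0) ^ 3 / 18 := by
  by_cases hC : 0 < C
  · rw [max_eq_left hC.le]
    set K : ℝ → ℝ := fun u => ∫ v : ℝ, pyr C u v with hK
    have hKi : Integrable K := integrable_integral_pyr C
    have h0 : ∫ u, K u = ∫ u in (0 : ℝ)..C, K u := by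
      rw [intervalIntegral.integral_of_le hC.le]
      symm
      apply setIntegral_eq_integral_of_forall_compl_eq_zero
      intro u hu
      simp only [mem_Ioc, not_and_or, not_lt, not_le] at hu
      rw [hK]
      simp only
      rcases hu with hu | hu
      · simp [pyr_eq_zero (C := C) (u := u) (Or.inl hu)]
      · have : (fun v : ℝ => pyr C u v) = fun v => max 0 (pyr C u v - pyr C u v) := by
          funext v
          by_cases hv : v ≤ 0
          · rw [pyr_eq_zero (Or.inr (Or.inl hv))]; simp
          · rw [pyr_eq_zero (Or.inr (Or.inr (by push Not at hv; linarith)))]; simp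
        rw [this]; simp
    rw [h0]
    have hi : ∀ p q : ℝ, IntervalIntegrable K volume p q := fun p q => hKi.intervalIntegrable
    have h3 : (0 : ℝ) ≤ C / 3 := by positivity
    have h1 : ∫ u in (0 : ℝ)..(C / 3), K u = C * (C / 3) ^ 2 / 2 - 2 * (C / 3) ^ 3 / 3 := by
      have : ∫ u in (0 : ℝ)..(C / 3), K u = ∫ u in (0 : ℝ)..(C / 3), (C * u - 2 * u ^ 2) := by
        apply intervalIntegral.integral_congr_ae
        refine Filter.Eventually.of_forall (fun u hu => ?_)
        rw [uIoc_of_le h3] at hu
        rw [hK]
        simp only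
        rw [slice_pyr hu.1 (by linarith [hu.2]), if_pos (by linarith [hu.2])]
        ring
      rw [this, intervalIntegral.integral_sub ((by fun_prop : Continuous fun u : ℝ => C * u).intervalIntegrable _ _)
        ((by fun_prop : Continuous fun u : ℝ => 2 * u ^ 2).intervalIntegrable _ _),
        intervalIntegral.integral_const_mul, intervalIntegral.integral_const_mul, integral_id, integral_pow]
      ring
    have h2 : ∫ u in (C / 3)..C, K u = (2 * C / 3) ^ 3 / 12 := by
      have : ∫ u in (C / 3)..C, K u = ∫ u in (C / 3)..C, (C - u) ^ 2 / 4 := by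
        apply intervalIntegral.integral_congr_ae
        refine Filter.Eventually.of_forall (fun u hu => ?_)
        rw [uIoc_of_le (by linarith)] at hu
        rw [hK]
        simp only
        have hu0 : 0 < u := by linarith [hu.1]
        rw [slice_pyr hu0 hu.2, if_neg (by linarith [hu.1])]
      rw [this, intervalIntegral.integral_div, intervalIntegral.integral_comp_sub_left (fun x : ℝ => x ^ 2) C,
        integral_pow]
      have h5 : C - C / 3 = 2 * C / 3 := by ring
      rw [h5]
      simp
      ring
    rw [← intervalIntegral.integral_add_adjacent_intervals (hi 0 (C / 3)) (hi (C / 3) C), h1, h2]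
    ring
  · push Not at hC
    rw [max_eq_right hC]
    have : ∀ u v : ℝ, pyr C u v = 0 := by
      intro u v
      apply pyr_eq_zero
      by_contra hcon
      push Not at hcon
      obtain ⟨h1, h2, h3⟩ := hcon
      linarith
    simp [this]

/-- For `s > 0` the truncated pyramid is a difference of two pyramids. -/
theorem tentT_eq_sub {s : ℝ} (hs : 0 < s) (C u v : ℝ) :
    tentT C s u v = pyr C u v - pyr (C - 3 * s) (u - s) (v - s) := by
  unfold tentT pyr
  have h : C - 3 * s - (u - s) - (v - s) = C - u - v - s := by ring
  rw [h]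
  have h2 : min u (min v (min (C - u - v) s)) = min (min u (min v (C - u - v))) s := by
    simp only [min_assoc]
  have h3 : min (u - s) (min (v - s) (C - u - v - s)) = min u (min v (C - u - v)) - s := by
    rw [min_sub_sub_right, min_sub_sub_right]
  rw [h2, h3]
  generalize min u (min v (C - u - v)) = m
  simp only [max_def, min_def]
  split_ifs <;> linarith

theorem tentT_eq_zero_of_nonpos {s : ℝ} (hs : s ≤ 0) (C u v : ℝ) : tentT C s u v = 0 := by
  unfold tentT
  apply max_eq_left
  exact (min_le_right _ _).trans ((min_le_right _ _).trans ((min_le_right _ _).trans hs))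

/-- The value of the double integral of the truncated pyramid. -/
theorem tent_int (C s : ℝ) : ∫ u : ℝ, ∫ v : ℝ, tentT C s u v = Hfun C s := by
  unfold Hfun
  split_ifs with hs
  · have h1 : ∀ u : ℝ, ∫ v : ℝ, tentT C s u v
        = (∫ v : ℝ, pyr C u v) - ∫ v : ℝ, pyr (C - 3 * s) (u - s) v := by
      intro u
      simp_rw [tentT_eq_sub hs C u]
      rw [integral_sub (integrable_pyr_slice C u)
        ((integrable_pyr_slice (C - 3 * s) (u - s)).comp_sub_right s)]
      congr 1
      exact integral_sub_right_eq_self (fun v => pyr (C - 3 * s) (u - s) v) s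
    simp_rw [h1]
    rw [integral_sub (integrable_integral_pyr C) ((integrable_integral_pyr (C - 3 * s)).comp_sub_right s)]
    rw [pyr_int]
    congr 1
    rw [integral_sub_right_eq_self (fun u => ∫ v : ℝ, pyr (C - 3 * s) u v) s]
    exact pyr_int _
  · push Not at hs
    simp [tentT_eq_zero_of_nonpos hs]

end Vale.Agent.Lib.P226
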